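import Mathlib
import Vale.Agent.P065.Bdl.B1

/-!
P065, wide fans.  Definitions and the statements of the blocks (note 13121 of helper602).

The insertion of a gadget into a configuration, in which the satellites (fans) of a used vertex may
diverge from the other lattice copies of the same thin line.  Every line carries two weights: the
near weight `2A + 4gD` (seen from the used vertices of the cells through which it passes) and the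
far weight `2(A + 2g(D+E))` (seen from all other used vertices).
-/

set_option linter.all false

namespace Vale.Agent.P065.W

open Vale.Agent.P065

/-- Cells of a configuration: `c v` is the cell of the used vertex `v`, `nr g k` says that line `k`
passes through the cell `g`, `D k` is the number of used vertices on the thin line `k` in each of
its cells. -/
structure Cel (ι υ γ : Type) where
  c : υ → γ
  nr : γ → ι → Prop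
  D : ι → ℕ

section

variable {ι υ γ : Type}

open scoped Classical in
/-- requirements on the cells: `D` bounds the number of used vertices of a thin line inside a cell,
`E` bounds the number of used vertices on a thin line outside of one of its cells -/
structure CelOk [Fintype ι] [Fintype υ] (C : Cfg ι υ) (F : Cel ι υ γ) (D E : ℕ) : Prop where
  nq : ∀ v, F.nr (F.c v) (C.q v)
  np : ∀ v, F.nr (F.c v) (C.p v)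
  baln : ∀ v, ∑ k, (if F.nr (F.c v) k then (C.w k : ℤ) * sg (C.H v k) else 0) = 0
  cnt : ∀ v k, F.nr (F.c v) k →
    (Finset.univ.filter (fun u => C.q u = k ∧ F.c u = F.c v)).card = F.D k
  Dle : ∀ k, F.D k ≤ D
  degle : ∀ k, C.deg k ≤ F.D k + E

/-- quantitative requirements on a configuration with cells, pad offsets `o` and home abscissas
`z`: `r` horizontal clearance, `S` spread, `T` tolerance, `θ` opening of the next fans, `W`, `U`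
home distances, `s` lower and `Z` upper bound for the used slope differences, `B` bound of all
coordinates -/
structure QOk (C : Cfg ι υ) (F : Cel ι υ γ) (o z : ι → ℝ) (r S T θ W U s Z B : ℝ) : Prop where
  σ_nonneg : ∀ k, 0 ≤ C.σ k
  σ_pos : ∀ v, 0 < C.σ (C.q v)
  σ_eq : ∀ v, C.σ (C.p v) = C.σ (C.q v)
  lo : ∀ v, C.σ (C.q v) ≤ |C.Δ v|
  hi : ∀ v, |C.Δ v| ≤ S * C.σ (C.q v)
  h1 : ∀ v k, k ≠ C.q v → k ≠ C.p v → r * |C.m k - C.m (C.q v)| ≤ |C.H v k|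
  h2 : ∀ v k, k ≠ C.q v → k ≠ C.p v → r * C.σ (C.q v) ≤ |C.H v k|
  h3 : ∀ v k, k ≠ C.q v → k ≠ C.p v → r * C.σ k ≤ |C.H v k|
  tol : ∀ v v', C.q v' ≠ C.q v → |C.Δ v'| * |C.x v - C.x v'| ≤ T * |C.H v (C.q v')|
  t1 : ∀ v v', C.q v' ≠ C.q v → (¬ F.nr (F.c v) (C.q v') ∨ F.c v' = F.c v) →
    32 * θ * (|C.Δ v'| * |C.x v - C.x v'|) ≤ |C.H v (C.q v')|
  t2 : ∀ v v', F.nr (F.c v) (C.q v') → F.c v' ≠ F.c v →
    32 * |C.H v (C.q v')| ≤ θ * (|C.Δ v'| * |C.x v - C.x v'|)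
  o0 : ∀ k, 0 ≤ o k
  ob : ∀ k, o k ≤ B
  o1 : ∀ v k, F.nr (F.c v) k → 4 * |C.H v k| ≤ o k
  oq : ∀ v, r * C.σ (C.q v) ≤ o (C.q v)
  op : ∀ v, r * C.σ (C.q v) ≤ o (C.p v)
  o2 : ∀ v k, ¬ F.nr (F.c v) k → 4 * o k ≤ |C.H v k|
  sσ : ∀ v, s ≤ C.σ (C.q v)
  Zb : ∀ v, |C.Δ v| ≤ Z
  u1 : ∀ v k, k ≠ C.q v → k ≠ C.p v → s * |C.x v - z k| ≤ U * |C.H v k|
  wq : ∀ v, |C.x v - z (C.q v)| ≤ W * r
  wp : ∀ v, |C.x v - z (C.p v)| ≤ W * r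
  uq : ∀ v, s * |C.x v - z (C.q v)| ≤ U * o (C.q v)
  up : ∀ v, s * |C.x v - z (C.p v)| ≤ U * o (C.p v)
  mb : ∀ k, |C.m k| ≤ B
  tb : ∀ k, |C.t k| ≤ B
  σb : ∀ k, C.σ k ≤ B
  xb : ∀ v, |C.x v| ≤ B
  zb : ∀ k, |z k| ≤ B

end

/-- Real configuration with cells. -/
def RC2 (N D E V : ℕ) (r S T θ W U s Z B : ℝ) : Prop :=
  ∃ (ι υ γ : Type) (_ : Fintype ι) (_ : Fintype υ) (C : Cfg ι υ) (F : Cel ι υ γ) (o z : ι → ℝ),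
    C.Good ∧ CelOk C F D E ∧ QOk C F o z r S T θ W U s Z B ∧ C.wt = N ∧ Fintype.card υ = V

/-- Integer configuration: integer slopes `a` with `|a| ≤ A`, total weight `2h`, degree at most
`d`, `V` used vertices, coordinates bounded by `B`, vertical clearance `1/Γ`, tolerance `T`, used
slope differences between `s` and `Z`. -/
def IC2 (h d V A : ℕ) (B Γ T s Z : ℝ) : Prop :=
  ∃ (ι υ : Type) (_ : Fintype ι) (_ : Fintype υ) (C : Cfg ι υ) (a : ι → ℤ),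
    C.Good ∧ (∀ k, C.m k = a k) ∧ (∀ k, |a k| ≤ (A : ℤ)) ∧
    (∀ k, |C.t k| ≤ B) ∧ (∀ v, |C.x v| ≤ B) ∧ (∀ v, |C.y v| ≤ B) ∧
    (∀ v k, k ≠ C.q v → k ≠ C.p v → 1 ≤ Γ * |C.H v k|) ∧
    (∀ v v', C.q v' ≠ C.q v → |C.Δ v'| * |C.x v - C.x v'| ≤ T * |C.H v (C.q v')|) ∧
    (∀ v, s ≤ |C.Δ v|) ∧ (∀ v, |C.Δ v| ≤ Z) ∧
    (∀ k, C.deg k ≤ d) ∧ C.wt = 2 * h ∧ Fintype.card υ = V

/-- Requirements on a gadget with cells, in hat coordinates.  The Q-line `b` is the line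
`x + η y = oQ b`; the P-lines are vertical up to a harmless error. -/
structure GOk {κ ν βQ βP γ : Type} [Fintype κ] [Fintype ν] [Fintype βQ] [Fintype βP]
    (G : Gad κ ν βQ βP) (F : Cel κ ν γ) (R ρ Γ θ η s Z : ℝ) (A A' g D E : ℕ) : Prop where
  R1 : 1 ≤ R
  ρ0 : 0 < ρ
  ρ1 : ρ ≤ 1 / 8
  Γ1 : 1 ≤ Γ
  s0 : 0 < s
  η0 : 0 < η
  η1 : η ≤ 1 / 4
  on_q : ∀ v, G.L.H v (G.L.q v) = 0
  on_p : ∀ v, G.L.H v (G.L.p v) = 0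
  w_q : ∀ v, G.L.w (G.L.q v) = 1
  w_p : ∀ v, G.L.w (G.L.p v) = 1
  bip : ∀ v v', G.L.q v ≠ G.L.p v'
  inj : ∀ v v', G.L.q v = G.L.q v' → G.L.p v = G.L.p v' → v = v'
  lo : ∀ v, s ≤ 2 * |G.L.Δ v|
  hi : ∀ v, |G.L.Δ v| ≤ 2 * Z
  ηs : η * s ≤ 1 / 4
  mb : ∀ j, |G.L.m j| ≤ R
  tb : ∀ j, |G.L.t j| ≤ R
  xb : ∀ v, |G.L.x v| ≤ R
  yb : ∀ v, |G.L.y v| ≤ R
  ηm : ∀ j, η * |G.L.m j| ≤ 1 / 16
  ηt : ∀ j, η * |G.L.t j| ≤ 1 / 4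
  ηy : ∀ v, η * |G.L.y v| ≤ 1 / 16
  off : ∀ v j, j ≠ G.L.q v → j ≠ G.L.p v → 1 ≤ Γ * |G.L.H v j|
  oQb : ∀ b, |G.oQ b| ≤ R
  oPb : ∀ b, |G.oP b| ≤ R
  sepQ : ∀ v b, ρ ≤ |G.oQ b - (G.L.x v + η * G.L.y v)|
  sepP : ∀ v b, 1 / 4 ≤ |G.L.x v + G.oP b|
  bal : ∀ v, ∑ j, (G.L.w j : ℤ) * sg (G.L.H v j)
    + ∑ b, (G.wQ b : ℤ) * sg (G.oQ b - (G.L.x v + η * G.L.y v))
    + ∑ b, (G.wP b : ℤ) * sg (G.L.x v + G.oP b) = 0
  sumQ : ∑ b, G.wQ b = 2 * A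
  sumP : ∑ b, G.wP b = 2 * A'
  le : A' ≤ A
  sumL : ∑ j, G.L.w j = 2 * g
  cel : CelOk G.L F D E
  g1 : ∀ v v', G.L.q v' ≠ G.L.q v → (¬ F.nr (F.c v) (G.L.q v') ∨ F.c v' = F.c v) →
    64 * θ * (|G.L.Δ v'| * |G.L.x v - G.L.x v'|) ≤ |G.L.H v (G.L.q v')|
  g2 : ∀ v v', F.nr (F.c v) (G.L.q v') → F.c v' ≠ F.c v →
    64 * |G.L.H v (G.L.q v')| ≤ θ * (|G.L.Δ v'| * |G.L.x v - G.L.x v'|)
  gO1 : ∀ v j, F.nr (F.c v) j → 64 * |G.L.H v j| ≤ 1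
  gO2 : ∀ v j, ¬ F.nr (F.c v) j → 1 ≤ 4 * |G.L.H v j|

/-- BLOCK P: the product theorem. -/
def ProductStmt2 : Prop :=
  ∀ {N D E V : ℕ} {r S T θ W U s Z B : ℝ}, RC2 N D E V r S T θ W U s Z B →
    0 < r → r ≤ 1 → 1 ≤ S → 1 ≤ T → 0 < θ → θ ≤ 1 / 64 → 0 ≤ W → 0 < s → 1 ≤ B →
    ∀ {κ ν βQ βP γ : Type} [Fintype κ] [Fintype ν] [Fintype βQ] [Fintype βP]
      (G : Gad κ ν βQ βP) (F : Cel κ ν γ) {R ρ Γ η s' Z' : ℝ} {A A' g D' E' : ℕ},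
      GOk G F R ρ Γ θ η s' Z' A A' g D' E' →
      4 * Z' ≤ S * s' → 4 * R ^ 2 * Γ ≤ T → 4 * S * R ^ 2 * Γ / ρ ≤ W →
      4 + 64 * R ^ 2 * Γ + 64 * S * R * (W + 1) / ρ ≤ U →
      RC2 (N * (2 * (A + 2 * g * (D + E)))) D' E' (V * Fintype.card ν)
        (ρ * r / (256 * S ^ 2 * R ^ 2 * Γ)) S T θ W U (θ * η * s' * s / 2) (2 * θ * η * Z' * Z)
        (3 * B)

/-- BLOCK L: the lattice gadget with `2X+1` columns and `2Y+1` rows. -/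
def LatticeStmt2 : Prop :=
  ∀ {h d V A : ℕ} {B Γ T s Z : ℝ}, IC2 h d V A B Γ T s Z → 1 ≤ h → 1 ≤ A → 1 ≤ B → 1 ≤ Γ →
    1 ≤ T → 0 < s → 1 ≤ V → ∀ {X Xm Y : ℕ} {θ η : ℝ}, 1 ≤ Xm → 2 * X + 1 ≤ Xm → 8 * A * Xm ≤ Y →
    0 < θ → 0 < η → 1024 * θ * T ≤ 1 → 2048 * θ * Xm * Z ≤ 1 → 8192 * A * η ≤ θ * s →
    128 * Y * η ≤ 1 →
    ∃ (κ ν βQ βP γ : Type) (_ : Fintype κ) (_ : Fintype ν) (_ : Fintype βQ) (_ : Fintype βP)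
      (G : Gad κ ν βQ βP) (F : Cel κ ν γ) (A' : ℕ),
      GOk G F (8 * Y) (η / 4) (32 * A * B * Γ / η) θ η s Z (2 * h * (2 * X + 1) * Y) A'
        (h * (2 * (Y + A * X) + 1)) d (2 * X * d) ∧
      Fintype.card ν = (2 * X + 1) * (2 * Y + 1) * V

/-- BLOCK R: pivoted rounding. -/
def RoundStmt2 : Prop :=
  ∀ {h D E V : ℕ} {r S T θ W U s Z B : ℝ}, RC2 (2 * h) D E V r S T θ W U s Z B → 1 ≤ h →
    0 < r → r ≤ 1 → 1 ≤ S → 1 ≤ T → 0 ≤ W → 1 ≤ U → 0 < s → 1 ≤ B →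
    ∀ {L : ℕ}, 64 * (U + W + 1) ≤ L * s →
    IC2 h (D + E) V ⌈2 * L * B⌉₊ (8 * L * B ^ 2) (1 / r) (8 * (T + S)) (L * s / 2) (2 * L * Z)

/-- BLOCK T: the trivial configuration. -/
def TrivStmt2 : Prop :=
  ∀ {S T θ W U : ℝ}, 1 ≤ S → 1 ≤ T → 0 < θ → 0 ≤ W → 0 ≤ U →
    RC2 2 1 0 1 1 S T θ W U 1 1 1

/-- Integer configuration, parameters measured by their binary logarithms: `n` weight, `a` slopes,
`g` coordinates times clearance, `q` tolerance, `p` ratio of the used slope differences, `d`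
degree, `x` gain. -/
def LC2 (n a g q p d x : ℝ) : Prop :=
  ∃ (h D V A : ℕ) (B Γ T s Z : ℝ), IC2 h D V A B Γ T s Z ∧ 1 ≤ h ∧ (h : ℝ) ≤ 2 ^ n ∧
    1 ≤ A ∧ (A : ℝ) ≤ 2 ^ a ∧ 1 ≤ B ∧ 1 ≤ Γ ∧ B * Γ ≤ (2 : ℝ) ^ g ∧ 1 ≤ T ∧ T ≤ (2 : ℝ) ^ q ∧
    1 ≤ s ∧ s ≤ Z ∧ Z ≤ (2 : ℝ) ^ p * s ∧ 1 ≤ D ∧ (D : ℝ) ≤ 2 ^ d ∧
    (2 : ℝ) ^ x * (2 * h) ≤ V

/-- BLOCK M: the meta step (`k`-fold insertion followed by rounding); `K` is the loss parameter.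
Here `e = k (d + log₂ K + 6)` bounds the logarithms of all numbers of columns. -/
def MetaStmt2 : Prop :=
  ∃ c : ℝ, 1 ≤ c ∧ ∀ {n a g q p d x : ℝ} {k K : ℕ}, LC2 n a g q p d x → 1 ≤ k → 1 ≤ K →
    0 ≤ n → 0 ≤ a → 0 ≤ g → 0 ≤ q → 0 ≤ p → 0 ≤ d → 0 ≤ x →
    let e : ℝ := k * (d + Real.logb 2 K + 6)
    LC2 (k * (n + a + c * (e + 1))) (k * (a + c * (q + p + e + 1)) + c * (a + g + q + p + e + 1))
      (k * (g + c * (a + q + p + e + 1)) + c * (a + g + q + p + e + 1))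
      (c * (a + g + q + p + e + 1)) (k * (p + 3) + 3) e
      (k * (x - Real.logb 2 (1 + 1 / K)) - 1)

/-- BLOCK B: the base configuration (8 lines, 9 used vertices). -/
def BaseStmt2 : Prop :=
  ∃ n a g q p d : ℝ, 0 ≤ n ∧ 0 ≤ a ∧ 0 ≤ g ∧ 0 ≤ q ∧ 0 ≤ p ∧ 0 ≤ d ∧
    LC2 n a g q p d (Real.logb 2 (9 / 8))

/-- BLOCK F: the final replication. -/
def FinalStmt2 : Prop :=
  ∃ c : ℝ, 1 ≤ c ∧ ∀ {n a g q p d x : ℝ}, LC2 n a g q p d x → 0 ≤ n → 0 ≤ a → 0 ≤ g → 0 < x →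
    ∀ m : ℕ, Even m → (2 : ℝ) ^ (c * (n + a + g + 1)) ≤ m →
      ∃ V, GC m V ∧ (2 : ℝ) ^ x * m / 24 ≤ V

/-- BLOCK A: the recursion has solutions with polynomial losses (pure real analysis). The sequence
`M ↦ (n,a,g,q,p,d,x)` obtained from a start vector by the meta step with suitable `k M`, `K M`. -/
def AsymStmt2 : Prop :=
  ∀ (P : ℝ → ℝ → ℝ → ℝ → ℝ → ℝ → ℝ → Prop) (c x0 : ℝ), 1 ≤ c → 0 < x0 →
    (∃ n a g q p d : ℝ, 0 ≤ n ∧ 0 ≤ a ∧ 0 ≤ g ∧ 0 ≤ q ∧ 0 ≤ p ∧ 0 ≤ d ∧ P n a g q p d x0) →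
    (∀ {n a g q p d x : ℝ} {k K : ℕ}, P n a g q p d x → 1 ≤ k → 1 ≤ K →
      0 ≤ n → 0 ≤ a → 0 ≤ g → 0 ≤ q → 0 ≤ p → 0 ≤ d → 0 ≤ x →
      let e : ℝ := k * (d + Real.logb 2 K + 6)
      P (k * (n + a + c * (e + 1))) (k * (a + c * (q + p + e + 1)) + c * (a + g + q + p + e + 1))
        (k * (g + c * (a + q + p + e + 1)) + c * (a + g + q + p + e + 1))
        (c * (a + g + q + p + e + 1)) (k * (p + 3) + 3) e
        (k * (x - Real.logb 2 (1 + 1 / K)) - 1)) →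
    ∃ C : ℝ, 0 < C ∧ ∃ t0 : ℝ, ∀ t : ℝ, t0 ≤ t →
      ∃ n a g q p d x : ℝ, P n a g q p d x ∧ 0 ≤ n ∧ 0 ≤ a ∧ 0 ≤ g ∧ 0 < x ∧
        n + a + g + 1 ≤ t ∧ t ≤ C * x * (Real.log t) ^ 7

end Vale.Agent.P065.W
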