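import Mathlib
import Vale.Agent.P065.W.Defs

/-!
P065, wide fans, block A: the recursion of the meta step has solutions with polynomial losses.
-/

set_option linter.all false

namespace Vale.Agent.P065.W

/-- state of the recursion -/
structure AsSt where
  n : ℝ
  a : ℝ
  g : ℝ
  q : ℝ
  p : ℝ
  d : ℝ
  x : ℝ

/-- one meta step -/
noncomputable def asStep (c L l k : ℝ) (s : AsSt) : AsSt where
  n := k * (s.n + s.a + c * (k * (s.d + L + 6) + 1))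
  a := k * (s.a + c * (s.q + s.p + k * (s.d + L + 6) + 1))
    + c * (s.a + s.g + s.q + s.p + k * (s.d + L + 6) + 1)
  g := k * (s.g + c * (s.a + s.q + s.p + k * (s.d + L + 6) + 1))
    + c * (s.a + s.g + s.q + s.p + k * (s.d + L + 6) + 1)
  q := c * (s.a + s.g + s.q + s.p + k * (s.d + L + 6) + 1)
  p := k * (s.p + 3) + 3
  d := k * (s.d + L + 6)
  x := k * (s.x - l) - 1

/-- the sequence of states -/
noncomputable def asSeq (c L l : ℝ) (k0 : ℕ) (s0 : AsSt) : ℕ → AsSt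
  | 0 => s0
  | M + 1 => asStep c L l ((k0 * (M + 1) ^ 2 : ℕ) : ℝ) (asSeq c L l k0 s0 M)

/-- product of the multipliers -/
noncomputable def asN (k0 : ℕ) : ℕ → ℝ
  | 0 => 1
  | M + 1 => ((k0 * (M + 1) ^ 2 : ℕ) : ℝ) * asN k0 M

/-- the bounds of the state in terms of the product `N` of the multipliers, `m = M + 1` -/
structure AsInv (L l x0 C1 Q A G N m : ℝ) (s : AsSt) : Prop where
  n0 : 0 ≤ s.n
  a0 : 0 ≤ s.a
  g0 : 0 ≤ s.g
  q0 : 0 ≤ s.q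
  p0 : 0 ≤ s.p
  d0 : 0 ≤ s.d
  nN : N ≤ s.n + 1
  dN : s.d + 2 * (L + 6) ≤ C1 * N
  pN : s.p + 5 ≤ C1 * N
  qN : s.q ≤ Q * N * m ^ 2
  aN : s.a ≤ A * N * m ^ 3
  gN : s.g ≤ G * N * m ^ 4
  nN' : s.n ≤ G * N * m ^ 4
  xN : x0 / 2 + N * (x0 / 2) ≤ s.x


section arith

variable {c C1 Q A G N m k0 a g q p e n : ℝ}

/-- elementary inequalities between the powers of `m` -/
theorem pow_facts (hN : 1 ≤ N) (hm : 1 ≤ m) :
    1 ≤ N * m ^ 2 ∧ N ≤ N * m ^ 2 ∧ N * m ^ 2 ≤ N * m ^ 3 ∧ N * m ^ 3 ≤ N * m ^ 4 := by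
  have h1 : 1 ≤ m ^ 2 := one_le_pow₀ hm
  have h2 : m ^ 2 ≤ m ^ 3 := pow_le_pow_right₀ hm (by norm_num)
  have h3 : m ^ 3 ≤ m ^ 4 := pow_le_pow_right₀ hm (by norm_num)
  have hN0 : 0 ≤ N := by linarith only [hN]
  have h4 : N * 1 ≤ N * m ^ 2 := mul_le_mul_of_nonneg_left h1 hN0
  exact ⟨by linarith only [h4, hN], by linarith only [h4],
    mul_le_mul_of_nonneg_left h2 hN0, mul_le_mul_of_nonneg_left h3 hN0⟩

theorem q_bound (hc : 1 ≤ c) (hC1 : 1 ≤ C1) (hQ : 0 ≤ Q) (hA : 0 ≤ A) (hG : 0 ≤ G) (hN : 1 ≤ N)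
    (hm : 1 ≤ m) (hk0 : 0 ≤ k0)
    (hq : c * (A + G + Q + C1 + 1) + c * C1 * k0 ≤ Q * k0)
    (h1 : q ≤ Q * N * m ^ 2) (h2 : a ≤ A * N * m ^ 3) (h3 : g ≤ G * N * m ^ 4)
    (h4 : p ≤ C1 * N) (h5 : e ≤ C1 * k0 * m ^ 2 * N) :
    c * (a + g + q + p + e + 1) ≤ Q * (k0 * m ^ 2 * N) * m ^ 2 := by
  obtain ⟨f1, f2, f3, f4⟩ := pow_facts hN hm
  set X2 := N * m ^ 2 with hX2
  set X3 := N * m ^ 3 with hX3
  set X4 := N * m ^ 4 with hX4
  have e1 : Q * N * m ^ 2 = Q * X2 := by rw [hX2]; ring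
  have e2 : A * N * m ^ 3 = A * X3 := by rw [hX3]; ring
  have e3 : G * N * m ^ 4 = G * X4 := by rw [hX4]; ring
  have e5 : C1 * k0 * m ^ 2 * N = C1 * k0 * X2 := by rw [hX2]; ring
  rw [e1] at h1
  rw [e2] at h2
  rw [e3] at h3
  rw [e5] at h5
  have b1 : Q * X2 ≤ Q * X4 := mul_le_mul_of_nonneg_left (by linarith only [f3, f4]) hQ
  have b2 : A * X3 ≤ A * X4 := mul_le_mul_of_nonneg_left f4 hA
  have b3 : C1 * N ≤ C1 * X4 :=
    mul_le_mul_of_nonneg_left (by linarith only [f2, f3, f4]) (by linarith only [hC1])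
  have b4 : C1 * k0 * X2 ≤ C1 * k0 * X4 :=
    mul_le_mul_of_nonneg_left (by linarith only [f3, f4])
      (mul_nonneg (by linarith only [hC1]) hk0)
  have b5 : a + g + q + p + e + 1 ≤ A * X4 + G * X4 + Q * X4 + C1 * X4 + C1 * k0 * X4 + X4 := by
    linarith only [h1, h2, h3, h4, h5, b1, b2, b3, b4, f1, f3, f4]
  have b6 := mul_le_mul_of_nonneg_left b5 (by linarith only [hc] : (0 : ℝ) ≤ c)
  have b7 : c * (A * X4 + G * X4 + Q * X4 + C1 * X4 + C1 * k0 * X4 + X4)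
      = X4 * (c * (A + G + Q + C1 + 1) + c * C1 * k0) := by ring
  have b8 : Q * (k0 * m ^ 2 * N) * m ^ 2 = X4 * (Q * k0) := by rw [hX4]; ring
  have b9 : X4 * (c * (A + G + Q + C1 + 1) + c * C1 * k0) ≤ X4 * (Q * k0) :=
    mul_le_mul_of_nonneg_left hq (by linarith only [f1, f3, f4])
  rw [b8]
  linarith only [b6, b7, b9]

theorem a_bound (hc : 1 ≤ c) (hC1 : 1 ≤ C1) (hQ : 0 ≤ Q) (hA : 0 ≤ A) (hN : 1 ≤ N)
    (hm : 1 ≤ m) (hk0 : 0 ≤ k0)
    (ha : c * (Q + C1 + C1 * k0 + 1) + 4 * Q ≤ 3 * A)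
    (h1 : q ≤ Q * N * m ^ 2) (h2 : a ≤ A * N * m ^ 3)
    (h4 : p ≤ C1 * N) (h5 : e ≤ C1 * k0 * m ^ 2 * N) {q' : ℝ}
    (h6 : q' ≤ Q * (k0 * m ^ 2 * N) * m ^ 2) :
    k0 * m ^ 2 * (a + c * (q + p + e + 1)) + q' ≤ A * (k0 * m ^ 2 * N) * (m + 1) ^ 3 := by
  obtain ⟨f1, f2, f3, f4⟩ := pow_facts hN hm
  set X2 := N * m ^ 2 with hX2
  have e1 : Q * N * m ^ 2 = Q * X2 := by rw [hX2]; ring
  have e2 : A * N * m ^ 3 = A * (N * m ^ 3) := by ring
  have e5 : C1 * k0 * m ^ 2 * N = C1 * k0 * X2 := by rw [hX2]; ring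
  rw [e1] at h1
  rw [e2] at h2
  rw [e5] at h5
  have b3 : C1 * N ≤ C1 * X2 := mul_le_mul_of_nonneg_left f2 (by linarith only [hC1])
  have b5 : q + p + e + 1 ≤ X2 * (Q + C1 + C1 * k0 + 1) := by
    have : X2 * (Q + C1 + C1 * k0 + 1) = Q * X2 + C1 * X2 + C1 * k0 * X2 + X2 := by ring
    rw [this]
    linarith only [h1, h4, h5, b3, f1]
  have b6 := mul_le_mul_of_nonneg_left b5 (by linarith only [hc] : (0 : ℝ) ≤ c)
  have b7 : a + c * (q + p + e + 1)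
      ≤ A * (N * m ^ 3) + X2 * (c * (Q + C1 + C1 * k0 + 1)) := by
    have : c * (X2 * (Q + C1 + C1 * k0 + 1)) = X2 * (c * (Q + C1 + C1 * k0 + 1)) := by ring
    linarith only [h2, b6, this]
  have hk : 0 ≤ k0 * m ^ 2 := by positivity
  have b8 := mul_le_mul_of_nonneg_left b7 hk
  have hX : 0 ≤ k0 * m ^ 2 * X2 := mul_nonneg hk (by linarith only [f1])
  have b9 : Q * (k0 * m ^ 2 * N) * m ^ 2 = (k0 * m ^ 2 * X2) * Q := by rw [hX2]; ring
  have b10 : k0 * m ^ 2 * X2 * (c * (Q + C1 + C1 * k0 + 1) + 4 * Q)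
      ≤ k0 * m ^ 2 * X2 * (3 * A) := mul_le_mul_of_nonneg_left ha hX
  have b11 : 0 ≤ k0 * m ^ 2 * X2 * Q := mul_nonneg hX hQ
  have b12 : A * (k0 * m ^ 2 * N) * (m + 1) ^ 3
      = k0 * m ^ 2 * (A * (N * m ^ 3)) + k0 * m ^ 2 * X2 * (3 * A)
        + A * (k0 * m ^ 2 * N) * (3 * m + 1) := by rw [hX2]; ring
  have b13 : 0 ≤ A * (k0 * m ^ 2 * N) * (3 * m + 1) := by
    have hm0 : 0 ≤ m := by linarith only [hm]
    have hN0 : 0 ≤ N := by linarith only [hN]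
    positivity
  have b14 : k0 * m ^ 2 * (A * (N * m ^ 3) + X2 * (c * (Q + C1 + C1 * k0 + 1)))
      = k0 * m ^ 2 * (A * (N * m ^ 3)) + k0 * m ^ 2 * X2 * (c * (Q + C1 + C1 * k0 + 1)) := by
    ring
  have b15 : k0 * m ^ 2 * X2 * (c * (Q + C1 + C1 * k0 + 1) + 4 * Q)
      = k0 * m ^ 2 * X2 * (c * (Q + C1 + C1 * k0 + 1)) + 4 * (k0 * m ^ 2 * X2 * Q) := by ring
  linarith only [h6, b8, b9, b10, b11, b12, b13, b14, b15]

theorem g_bound (hc : 1 ≤ c) (hC1 : 1 ≤ C1) (hQ : 0 ≤ Q) (hA : 0 ≤ A) (hG : 0 ≤ G) (hN : 1 ≤ N)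
    (hm : 1 ≤ m) (hk0 : 0 ≤ k0)
    (hg : c * (A + Q + C1 + C1 * k0 + 1) + 4 * Q ≤ 4 * G)
    (h1 : q ≤ Q * N * m ^ 2) (h2 : a ≤ A * N * m ^ 3) (h3 : g ≤ G * N * m ^ 4)
    (h4 : p ≤ C1 * N) (h5 : e ≤ C1 * k0 * m ^ 2 * N) {q' : ℝ}
    (h6 : q' ≤ Q * (k0 * m ^ 2 * N) * m ^ 2) :
    k0 * m ^ 2 * (g + c * (a + q + p + e + 1)) + q' ≤ G * (k0 * m ^ 2 * N) * (m + 1) ^ 4 := by
  obtain ⟨f1, f2, f3, f4⟩ := pow_facts hN hm
  set X3 := N * m ^ 3 with hX3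
  have e1 : Q * N * m ^ 2 = Q * (N * m ^ 2) := by ring
  have e2 : A * N * m ^ 3 = A * X3 := by rw [hX3]; ring
  have e3 : G * N * m ^ 4 = G * (N * m ^ 4) := by ring
  have e5 : C1 * k0 * m ^ 2 * N = C1 * k0 * (N * m ^ 2) := by ring
  rw [e1] at h1
  rw [e2] at h2
  rw [e3] at h3
  rw [e5] at h5
  have b1 : Q * (N * m ^ 2) ≤ Q * X3 := mul_le_mul_of_nonneg_left f3 hQ
  have b3 : C1 * N ≤ C1 * X3 :=
    mul_le_mul_of_nonneg_left (by linarith only [f2, f3]) (by linarith only [hC1])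
  have b4 : C1 * k0 * (N * m ^ 2) ≤ C1 * k0 * X3 :=
    mul_le_mul_of_nonneg_left f3 (mul_nonneg (by linarith only [hC1]) hk0)
  have b5 : a + q + p + e + 1 ≤ X3 * (A + Q + C1 + C1 * k0 + 1) := by
    have : X3 * (A + Q + C1 + C1 * k0 + 1)
      = A * X3 + Q * X3 + C1 * X3 + C1 * k0 * X3 + X3 := by ring
    rw [this]
    linarith only [h1, h2, h4, h5, b1, b3, b4, f1, f3]
  have b6 := mul_le_mul_of_nonneg_left b5 (by linarith only [hc] : (0 : ℝ) ≤ c)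
  have b7 : g + c * (a + q + p + e + 1)
      ≤ G * (N * m ^ 4) + X3 * (c * (A + Q + C1 + C1 * k0 + 1)) := by
    have : c * (X3 * (A + Q + C1 + C1 * k0 + 1)) = X3 * (c * (A + Q + C1 + C1 * k0 + 1)) := by
      ring
    linarith only [h3, b6, this]
  have hk : 0 ≤ k0 * m ^ 2 := by positivity
  have b8 := mul_le_mul_of_nonneg_left b7 hk
  have hX : 0 ≤ k0 * m ^ 2 * X3 := mul_nonneg hk (by linarith only [f1, f3])
  have b9 : Q * (k0 * m ^ 2 * N) * m ^ 2 ≤ (k0 * m ^ 2 * X3) * Q := by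
    have h7 : Q * (k0 * m ^ 2 * N) * m ^ 2 = (k0 * m ^ 2 * Q) * (N * m ^ 2) := by ring
    have h8 : (k0 * m ^ 2 * X3) * Q = (k0 * m ^ 2 * Q) * X3 := by ring
    rw [h7, h8]
    exact mul_le_mul_of_nonneg_left f3 (mul_nonneg hk hQ)
  have b10 : k0 * m ^ 2 * X3 * (c * (A + Q + C1 + C1 * k0 + 1) + 4 * Q)
      ≤ k0 * m ^ 2 * X3 * (4 * G) := mul_le_mul_of_nonneg_left hg hX
  have b11 : 0 ≤ k0 * m ^ 2 * X3 * Q := mul_nonneg hX hQ
  have b12 : G * (k0 * m ^ 2 * N) * (m + 1) ^ 4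
      = k0 * m ^ 2 * (G * (N * m ^ 4)) + k0 * m ^ 2 * X3 * (4 * G)
        + G * (k0 * m ^ 2 * N) * (6 * m ^ 2 + 4 * m + 1) := by rw [hX3]; ring
  have b13 : 0 ≤ G * (k0 * m ^ 2 * N) * (6 * m ^ 2 + 4 * m + 1) := by
    have hm0 : 0 ≤ m := by linarith only [hm]
    have hN0 : 0 ≤ N := by linarith only [hN]
    positivity
  have b14 : k0 * m ^ 2 * (G * (N * m ^ 4) + X3 * (c * (A + Q + C1 + C1 * k0 + 1)))
      = k0 * m ^ 2 * (G * (N * m ^ 4)) + k0 * m ^ 2 * X3 * (c * (A + Q + C1 + C1 * k0 + 1)) := by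
    ring
  have b15 : k0 * m ^ 2 * X3 * (c * (A + Q + C1 + C1 * k0 + 1) + 4 * Q)
      = k0 * m ^ 2 * X3 * (c * (A + Q + C1 + C1 * k0 + 1)) + 4 * (k0 * m ^ 2 * X3 * Q) := by ring
  linarith only [h6, b8, b9, b10, b11, b12, b13, b14, b15]

theorem n_bound (hc : 1 ≤ c) (hC1 : 1 ≤ C1) (hA : 0 ≤ A) (hG : 0 ≤ G) (hN : 1 ≤ N)
    (hm : 1 ≤ m) (hk0 : 0 ≤ k0) (hn : A + c * (C1 * k0 + 1) ≤ 4 * G)
    (h2 : a ≤ A * N * m ^ 3) (h3 : n ≤ G * N * m ^ 4) (h5 : e ≤ C1 * k0 * m ^ 2 * N) :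
    k0 * m ^ 2 * (n + a + c * (e + 1)) ≤ G * (k0 * m ^ 2 * N) * (m + 1) ^ 4 := by
  obtain ⟨f1, f2, f3, f4⟩ := pow_facts hN hm
  set X3 := N * m ^ 3 with hX3
  have e2 : A * N * m ^ 3 = A * X3 := by rw [hX3]; ring
  have e3 : G * N * m ^ 4 = G * (N * m ^ 4) := by ring
  have e5 : C1 * k0 * m ^ 2 * N = C1 * k0 * (N * m ^ 2) := by ring
  rw [e2] at h2
  rw [e3] at h3
  rw [e5] at h5
  have b4 : C1 * k0 * (N * m ^ 2) ≤ C1 * k0 * X3 :=
    mul_le_mul_of_nonneg_left f3 (mul_nonneg (by linarith only [hC1]) hk0)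
  have b5 : e + 1 ≤ X3 * (C1 * k0 + 1) := by
    have : X3 * (C1 * k0 + 1) = C1 * k0 * X3 + X3 := by ring
    rw [this]
    linarith only [h5, b4, f1, f3]
  have b6 := mul_le_mul_of_nonneg_left b5 (by linarith only [hc] : (0 : ℝ) ≤ c)
  have b7 : n + a + c * (e + 1) ≤ G * (N * m ^ 4) + X3 * (A + c * (C1 * k0 + 1)) := by
    have : c * (X3 * (C1 * k0 + 1)) + A * X3 = X3 * (A + c * (C1 * k0 + 1)) := by ring
    linarith only [h2, h3, b6, this]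
  have hk : 0 ≤ k0 * m ^ 2 := by positivity
  have b8 := mul_le_mul_of_nonneg_left b7 hk
  have hX : 0 ≤ k0 * m ^ 2 * X3 := mul_nonneg hk (by linarith only [f1, f3])
  have b10 : k0 * m ^ 2 * X3 * (A + c * (C1 * k0 + 1)) ≤ k0 * m ^ 2 * X3 * (4 * G) :=
    mul_le_mul_of_nonneg_left hn hX
  have b12 : G * (k0 * m ^ 2 * N) * (m + 1) ^ 4
      = k0 * m ^ 2 * (G * (N * m ^ 4)) + k0 * m ^ 2 * X3 * (4 * G)
        + G * (k0 * m ^ 2 * N) * (6 * m ^ 2 + 4 * m + 1) := by rw [hX3]; ring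
  have b13 : 0 ≤ G * (k0 * m ^ 2 * N) * (6 * m ^ 2 + 4 * m + 1) := by
    have hm0 : 0 ≤ m := by linarith only [hm]
    have hN0 : 0 ≤ N := by linarith only [hN]
    positivity
  have b14 : k0 * m ^ 2 * (G * (N * m ^ 4) + X3 * (A + c * (C1 * k0 + 1)))
      = k0 * m ^ 2 * (G * (N * m ^ 4)) + k0 * m ^ 2 * X3 * (A + c * (C1 * k0 + 1)) := by ring
  linarith only [b8, b10, b12, b13, b14]

end arith

theorem AsInv.step {c L l x0 C1 Q A G N m k0 : ℝ} {s : AsSt}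
    (hc : 1 ≤ c) (hL : 0 ≤ L) (hl : l ≤ x0 / 4) (hx0 : 0 < x0) (hC1 : 1 ≤ C1)
    (hQ : 0 ≤ Q) (hA : 0 ≤ A) (hG : 0 ≤ G) (hN : 1 ≤ N) (hm : 1 ≤ m) (hk4 : 4 ≤ k0)
    (hkx : 4 + 2 * x0 ≤ k0 * x0)
    (hq : c * (A + G + Q + C1 + 1) + c * C1 * k0 ≤ Q * k0)
    (ha : c * (Q + C1 + C1 * k0 + 1) + 4 * Q ≤ 3 * A)
    (hg : c * (A + Q + C1 + C1 * k0 + 1) + 4 * Q ≤ 4 * G)
    (hn : A + c * (C1 * k0 + 1) ≤ 4 * G)
    (h : AsInv L l x0 C1 Q A G N m s) :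
    AsInv L l x0 C1 Q A G (k0 * m ^ 2 * N) (m + 1) (asStep c L l (k0 * m ^ 2) s) := by
  obtain ⟨n0, a0, g0, q0, p0, d0, nN, dN, pN, qN, aN, gN, nN', xN⟩ := h
  have hc0 : 0 < c := by linarith only [hc]
  have hN0 : 0 < N := by linarith only [hN]
  have hk0 : 0 ≤ k0 := by linarith only [hk4]
  have hm2 : 1 ≤ m ^ 2 := one_le_pow₀ hm
  have hkk : k0 ≤ k0 * m ^ 2 := le_mul_of_one_le_right hk0 hm2
  have hk1 : 4 ≤ k0 * m ^ 2 := by linarith only [hk4, hkk]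
  have hkpos : 0 < k0 * m ^ 2 := by linarith only [hk1]
  -- the new degree
  have e0 : 0 ≤ k0 * m ^ 2 * (s.d + L + 6) := by positivity
  have dN' : k0 * m ^ 2 * (s.d + L + 6) + 2 * (L + 6) ≤ C1 * (k0 * m ^ 2 * N) := by
    have h1 : k0 * m ^ 2 * (s.d + 2 * (L + 6)) ≤ k0 * m ^ 2 * (C1 * N) :=
      mul_le_mul_of_nonneg_left dN hkpos.le
    have h2 : 4 * (L + 6) ≤ k0 * m ^ 2 * (L + 6) :=
      mul_le_mul_of_nonneg_right hk1 (by linarith only [hL])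
    have h3 : k0 * m ^ 2 * (s.d + 2 * (L + 6))
      = k0 * m ^ 2 * (s.d + L + 6) + k0 * m ^ 2 * (L + 6) := by ring
    have h4 : k0 * m ^ 2 * (C1 * N) = C1 * (k0 * m ^ 2 * N) := by ring
    linarith only [h1, h2, h3, h4, hL]
  have eN : k0 * m ^ 2 * (s.d + L + 6) ≤ C1 * k0 * m ^ 2 * N := by
    have h1 : C1 * (k0 * m ^ 2 * N) = C1 * k0 * m ^ 2 * N := by ring
    linarith only [dN', h1, hL]
  have pN1 : s.p ≤ C1 * N := by linarith only [pN]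
  have qb := q_bound hc hC1 hQ hA hG hN hm hk0 hq qN aN gN pN1 eN
  have ab := a_bound hc hC1 hQ hA hN hm hk0 ha qN aN pN1 eN qb
  have gb := g_bound hc hC1 hQ hA hG hN hm hk0 hg qN aN gN pN1 eN qb
  have nb := n_bound hc hC1 hA hG hN hm hk0 hn aN nN' eN
  have q0' : 0 ≤ c * (s.a + s.g + s.q + s.p + k0 * m ^ 2 * (s.d + L + 6) + 1) := by positivity
  refine ⟨?_, ?_, ?_, q0', ?_, e0, ?_, dN', ?_, ?_, ab, gb, nb, ?_⟩
  · show 0 ≤ k0 * m ^ 2 * (s.n + s.a + c * (k0 * m ^ 2 * (s.d + L + 6) + 1))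
    positivity
  · show 0 ≤ k0 * m ^ 2 * (s.a + c * (s.q + s.p + k0 * m ^ 2 * (s.d + L + 6) + 1))
      + c * (s.a + s.g + s.q + s.p + k0 * m ^ 2 * (s.d + L + 6) + 1)
    positivity
  · show 0 ≤ k0 * m ^ 2 * (s.g + c * (s.a + s.q + s.p + k0 * m ^ 2 * (s.d + L + 6) + 1))
      + c * (s.a + s.g + s.q + s.p + k0 * m ^ 2 * (s.d + L + 6) + 1)
    positivity
  · show 0 ≤ k0 * m ^ 2 * (s.p + 3) + 3
    positivity
  · show k0 * m ^ 2 * N ≤ k0 * m ^ 2 * (s.n + s.a + c * (k0 * m ^ 2 * (s.d + L + 6) + 1)) + 1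
    have h0 : 1 * 1 ≤ c * (k0 * m ^ 2 * (s.d + L + 6) + 1) :=
      mul_le_mul hc (by linarith only [e0]) (by norm_num) hc0.le
    have h2 : k0 * m ^ 2 * N
        ≤ k0 * m ^ 2 * (s.n + s.a + c * (k0 * m ^ 2 * (s.d + L + 6) + 1)) :=
      mul_le_mul_of_nonneg_left (by linarith only [h0, nN, a0]) hkpos.le
    linarith only [h2]
  · show k0 * m ^ 2 * (s.p + 3) + 3 + 5 ≤ C1 * (k0 * m ^ 2 * N)
    have h1 : k0 * m ^ 2 * (s.p + 5) ≤ k0 * m ^ 2 * (C1 * N) :=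
      mul_le_mul_of_nonneg_left pN hkpos.le
    have h3 : k0 * m ^ 2 * (s.p + 5) = k0 * m ^ 2 * (s.p + 3) + 2 * (k0 * m ^ 2) := by ring
    have h4 : k0 * m ^ 2 * (C1 * N) = C1 * (k0 * m ^ 2 * N) := by ring
    linarith only [h1, h3, h4, hk1]
  · show c * (s.a + s.g + s.q + s.p + k0 * m ^ 2 * (s.d + L + 6) + 1)
      ≤ Q * (k0 * m ^ 2 * N) * (m + 1) ^ 2
    refine qb.trans (mul_le_mul_of_nonneg_left ?_ (by positivity))
    exact pow_le_pow_left₀ (by linarith only [hm]) (by linarith only []) 2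
  · show x0 / 2 + k0 * m ^ 2 * N * (x0 / 2) ≤ k0 * m ^ 2 * (s.x - l) - 1
    have h1 : k0 * m ^ 2 * (x0 / 2 + N * (x0 / 2) - x0 / 4) ≤ k0 * m ^ 2 * (s.x - l) :=
      mul_le_mul_of_nonneg_left (by linarith only [xN, hl]) hkpos.le
    have h2 : k0 * x0 ≤ k0 * m ^ 2 * x0 := mul_le_mul_of_nonneg_right hkk hx0.le
    have h3 : k0 * m ^ 2 * (x0 / 2 + N * (x0 / 2) - x0 / 4)
      = k0 * m ^ 2 * N * (x0 / 2) + k0 * m ^ 2 * x0 / 4 := by ring
    linarith only [h1, h2, h3, hkx]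

/-- the constants exist -/
theorem exists_consts {c x0 : ℝ} (hc : 1 ≤ c) (hx0 : 0 < x0) (s : AsSt) :
    ∃ (K0 k0 : ℕ) (C1 Q A G : ℝ), 1 ≤ K0 ∧ 4 ≤ k0 ∧ Real.logb 2 (1 + 1 / K0) ≤ x0 / 4 ∧
      1 ≤ C1 ∧ 0 ≤ Q ∧ 0 ≤ A ∧ 0 ≤ G ∧ 4 + 2 * x0 ≤ k0 * x0 ∧
      c * (A + G + Q + C1 + 1) + c * C1 * k0 ≤ Q * k0 ∧
      c * (Q + C1 + C1 * k0 + 1) + 4 * Q ≤ 3 * A ∧
      c * (A + Q + C1 + C1 * k0 + 1) + 4 * Q ≤ 4 * G ∧
      A + c * (C1 * k0 + 1) ≤ 4 * G ∧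
      s.d + 2 * (Real.logb 2 K0 + 6) ≤ C1 ∧ s.p + 5 ≤ C1 ∧ s.q ≤ Q ∧ s.a ≤ A ∧ s.g ≤ G ∧
      s.n ≤ G := by
  obtain ⟨K0, hK0⟩ := exists_nat_ge (max 1 (8 / x0))
  have hK1 : (1 : ℝ) ≤ K0 := le_trans (le_max_left _ _) hK0
  have hK2 : 8 / x0 ≤ K0 := le_trans (le_max_right _ _) hK0
  obtain ⟨k0, hk0⟩ := exists_nat_ge (max (100 * c ^ 3) (4 / x0 + 2))
  have hk1 : 100 * c ^ 3 ≤ (k0 : ℝ) := le_trans (le_max_left _ _) hk0
  have hk2 : 4 / x0 + 2 ≤ (k0 : ℝ) := le_trans (le_max_right _ _) hk0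
  have hc0 : 0 < c := by linarith only [hc]
  have c2 : 1 ≤ c ^ 2 := one_le_pow₀ hc
  have c3 : 1 ≤ c ^ 3 := one_le_pow₀ hc
  have hk3 : (100 : ℝ) ≤ k0 := by linarith only [c3, hk1]
  obtain ⟨C1, hC1⟩ : ∃ C1 : ℝ, C1 = 1 + |s.d + 2 * (Real.logb 2 K0 + 6)| + |s.p + 5| :=
    ⟨_, rfl⟩
  have C11 : 1 ≤ C1 := by
    rw [hC1]
    have := abs_nonneg (s.d + 2 * (Real.logb 2 K0 + 6))
    have := abs_nonneg (s.p + 5)
    linarith
  obtain ⟨G, hG⟩ : ∃ G : ℝ, G = 100 * c ^ 3 * (C1 * (k0 + 1) + 1 + |s.q| + |s.a| + |s.g|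
      + |s.n|) := ⟨_, rfl⟩
  obtain ⟨w, hw⟩ : ∃ w : ℝ, w = C1 * (k0 + 1) + 1 + |s.q| + |s.a| + |s.g| + |s.n| := ⟨_, rfl⟩
  rw [← hw] at hG
  have hq0 := abs_nonneg s.q
  have ha0 := abs_nonneg s.a
  have hg0 := abs_nonneg s.g
  have hn0 := abs_nonneg s.n
  have hCk : 0 ≤ C1 * k0 := by positivity
  have w1 : C1 * k0 + C1 + 1 ≤ w := by
    have : C1 * (k0 + 1) = C1 * k0 + C1 := by ring
    rw [hw]; linarith only [this, hq0, ha0, hg0, hn0]
  have wq : |s.q| ≤ w := by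
    rw [hw]; have : 0 ≤ C1 * ((k0 : ℝ) + 1) := by positivity
    linarith only [this, hq0, ha0, hg0, hn0]
  have wa : |s.a| ≤ w := by
    rw [hw]; have : 0 ≤ C1 * ((k0 : ℝ) + 1) := by positivity
    linarith only [this, hq0, ha0, hg0, hn0]
  have wg : |s.g| ≤ w := by
    rw [hw]; have : 0 ≤ C1 * ((k0 : ℝ) + 1) := by positivity
    linarith only [this, hq0, ha0, hg0, hn0]
  have wn : |s.n| ≤ w := by
    rw [hw]; have : 0 ≤ C1 * ((k0 : ℝ) + 1) := by positivity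
    linarith only [this, hq0, ha0, hg0, hn0]
  have w0 : 0 < w := by linarith only [w1, hCk, C11]
  have wc : w ≤ c * w := le_mul_of_one_le_left w0.le hc
  have wc2 : c * w ≤ c ^ 2 * w := by
    have : c ^ 2 * w = c * (c * w) := by ring
    rw [this]; exact le_mul_of_one_le_left (by positivity) hc
  have wc3 : c ^ 2 * w ≤ c ^ 3 * w := by
    have : c ^ 3 * w = c * (c ^ 2 * w) := by ring
    rw [this]; exact le_mul_of_one_le_left (by positivity) hc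
  -- Q = 4 c w, A = 12.5 c² w, G = 100 c³ w
  refine ⟨K0, k0, C1, 4 * c * w, 25 / 2 * c ^ 2 * w, 100 * c ^ 3 * w, by exact_mod_cast hK1,
    by have : (4 : ℝ) ≤ k0 := by linarith only [hk3]
       exact_mod_cast this, ?_, C11, by positivity, by positivity, by positivity, ?_, ?_, ?_, ?_,
    ?_, ?_, ?_, ?_, ?_, ?_, ?_⟩
  · -- the loss
    have hK0 : (0 : ℝ) < K0 := by linarith only [hK1]
    have h1 : Real.logb 2 (1 + 1 / K0) ≤ 2 / K0 := by
      rw [Real.logb, div_le_iff₀ (Real.log_pos (by norm_num))]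
      have h2 : Real.log (1 + 1 / K0) ≤ 1 / K0 := by
        have := Real.log_le_sub_one_of_pos (show (0 : ℝ) < 1 + 1 / K0 by positivity)
        linarith only [this]
      have h3 : (1 : ℝ) / 2 ≤ Real.log 2 := by
        have := Real.log_two_gt_d9
        linarith only [this]
      have h4 : 2 / (K0 : ℝ) * (1 / 2) ≤ 2 / K0 * Real.log 2 :=
        mul_le_mul_of_nonneg_left h3 (by positivity)
      have h5 : 2 / (K0 : ℝ) * (1 / 2) = 1 / K0 := by ring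
      linarith only [h2, h4, h5]
    have h2 : 2 / (K0 : ℝ) ≤ x0 / 4 := by
      rw [div_le_iff₀ hK0]
      rw [div_le_iff₀ hx0] at hK2
      linarith only [hK2]
    linarith only [h1, h2]
  · have h := mul_le_mul_of_nonneg_right hk2 hx0.le
    have h1 : (4 / x0 + 2) * x0 = 4 + 2 * x0 := by field_simp
    linarith only [h, h1]
  · -- q
    have h1 : 100 * c ^ 3 * (4 * c * w) ≤ k0 * (4 * c * w) :=
      mul_le_mul_of_nonneg_right hk1 (by positivity)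
    have h2 : 25 / 2 * c ^ 2 * w + 100 * c ^ 3 * w + 4 * c * w + C1 + 1 ≤ 120 * (c ^ 3 * w) := by
      linarith only [wc3, wc2, wc, w1, hCk, w0]
    have h3 := mul_le_mul_of_nonneg_left h2 hc0.le
    have h4 : c * C1 * k0 ≤ c * w := by
      have : c * C1 * k0 = c * (C1 * k0) := by ring
      rw [this]; exact mul_le_mul_of_nonneg_left (by linarith only [w1, C11]) hc0.le
    have h5 : c * w ≤ c ^ 3 * w * c := by
      have : c ^ 3 * w * c = c ^ 3 * (c * w) := by ring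
      rw [this]; exact le_mul_of_one_le_left (by positivity) c3
    have h6 : c * (120 * (c ^ 3 * w)) = 120 * (c ^ 3 * w * c) := by ring
    have h7 : 100 * c ^ 3 * (4 * c * w) = 400 * (c ^ 3 * w * c) := by ring
    have h8 : 4 * c * w * (k0 : ℝ) = k0 * (4 * c * w) := by ring
    have h9 : 0 ≤ c ^ 3 * w * c := by positivity
    linarith only [h1, h3, h4, h5, h6, h7, h8, h9]
  · have h2 : 4 * c * w + C1 + C1 * k0 + 1 ≤ 5 * (c * w) := by
      linarith only [wc, w1]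
    have h3 := mul_le_mul_of_nonneg_left h2 hc0.le
    have h4 : c * (5 * (c * w)) = 5 * (c ^ 2 * w) := by ring
    linarith only [h3, h4, wc2, wc, w0]
  · have h2 : 25 / 2 * c ^ 2 * w + 4 * c * w + C1 + C1 * k0 + 1 ≤ 18 * (c ^ 2 * w) := by
      linarith only [wc, wc2, w1, w0]
    have h3 := mul_le_mul_of_nonneg_left h2 hc0.le
    have h4 : c * (18 * (c ^ 2 * w)) = 18 * (c ^ 3 * w) := by ring
    have h5 : 0 ≤ c ^ 3 * w := by positivity
    linarith only [h3, h4, wc2, wc3, h5]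
  · have h2 : C1 * k0 + 1 ≤ w := by linarith only [w1, C11]
    have h3 := mul_le_mul_of_nonneg_left h2 hc0.le
    have h5 : 0 ≤ c ^ 3 * w := by positivity
    linarith only [h3, wc2, wc3, h5]
  · rw [hC1]
    have := le_abs_self (s.d + 2 * (Real.logb 2 K0 + 6))
    have := abs_nonneg (s.p + 5)
    linarith
  · rw [hC1]
    have := le_abs_self (s.p + 5)
    have := abs_nonneg (s.d + 2 * (Real.logb 2 K0 + 6))
    linarith
  · have := le_abs_self s.q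
    linarith only [this, wq, wc, w0]
  · have := le_abs_self s.a
    linarith only [this, wa, wc, wc2, w0]
  · have := le_abs_self s.g
    linarith only [this, wg, wc, wc2, wc3, w0]
  · have := le_abs_self s.n
    linarith only [this, wn, wc, wc2, wc3, w0]


theorem asN_ge (k0 : ℕ) (hk : 4 ≤ k0) (M : ℕ) : 1 ≤ asN k0 M ∧ Real.exp M ≤ asN k0 M := by
  induction M with
  | zero => simp [asN]
  | succ M ih =>
    obtain ⟨h1, h2⟩ := ih
    have hk' : (4 : ℝ) ≤ k0 := by exact_mod_cast hk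
    have hm : (1 : ℝ) ≤ ((M : ℝ) + 1) ^ 2 := by
      have : (0 : ℝ) ≤ M := Nat.cast_nonneg M
      nlinarith
    have h3 : (4 : ℝ) ≤ ((k0 * (M + 1) ^ 2 : ℕ) : ℝ) := by
      push_cast
      nlinarith
    have h4 : (4 : ℝ) * asN k0 M ≤ asN k0 (M + 1) := by
      show (4 : ℝ) * asN k0 M ≤ ((k0 * (M + 1) ^ 2 : ℕ) : ℝ) * asN k0 M
      exact mul_le_mul_of_nonneg_right h3 (by linarith)
    refine ⟨by linarith, ?_⟩
    have h5 : Real.exp ((M + 1 : ℕ) : ℝ) = Real.exp M * Real.exp 1 := by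
      rw [← Real.exp_add]; push_cast; ring_nf
    have h6 : Real.exp 1 ≤ 4 := by
      have := Real.exp_one_lt_d9
      linarith
    rw [h5]
    have h7 : Real.exp M * Real.exp 1 ≤ asN k0 M * 4 :=
      mul_le_mul h2 h6 (Real.exp_pos _).le (by linarith)
    linarith

theorem asym : AsymStmt2 := by
  intro P c x0 hc hx0 hbase hstep
  obtain ⟨n0, a0, g0, q0, p0, d0, hn0, ha0, hg0, hq0, hp0, hd0, hP0⟩ := hbase
  obtain ⟨K0, k0, C1, Q, A, G, hK0, hk0, hl, hC1, hQ, hA, hG, hkx, e1, e2, e3, e4, i1, i2, i3,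
    i4, i5, i6⟩ := exists_consts hc hx0 (⟨n0, a0, g0, q0, p0, d0, x0⟩ : AsSt)
  set L : ℝ := Real.logb 2 K0 with hLdef
  set l : ℝ := Real.logb 2 (1 + 1 / K0) with hldef
  have hL : 0 ≤ L := by
    rw [hLdef]
    exact Real.logb_nonneg (by norm_num) (by exact_mod_cast hK0)
  set S := asSeq c L l k0 (⟨n0, a0, g0, q0, p0, d0, x0⟩ : AsSt) with hS
  have hk4 : (4 : ℝ) ≤ (k0 : ℝ) := by exact_mod_cast hk0
  -- the invariants
  have inv : ∀ M : ℕ, AsInv L l x0 C1 Q A G (asN k0 M) ((M : ℝ) + 1) (S M) := by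
    intro M
    induction M with
    | zero =>
      have hS0 : S 0 = (⟨n0, a0, g0, q0, p0, d0, x0⟩ : AsSt) := rfl
      have hN0 : asN k0 0 = 1 := rfl
      rw [hS0, hN0]
      refine ⟨hn0, ha0, hg0, hq0, hp0, hd0, ?_, ?_, ?_, ?_, ?_, ?_, ?_, ?_⟩
      · show (1 : ℝ) ≤ n0 + 1
        linarith only [hn0]
      · show d0 + 2 * (L + 6) ≤ C1 * 1
        linarith only [i1]
      · show p0 + 5 ≤ C1 * 1
        linarith only [i2]
      · show q0 ≤ Q * 1 * (((0 : ℕ) : ℝ) + 1) ^ 2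
        norm_num
        exact i3
      · show a0 ≤ A * 1 * (((0 : ℕ) : ℝ) + 1) ^ 3
        norm_num
        exact i4
      · show g0 ≤ G * 1 * (((0 : ℕ) : ℝ) + 1) ^ 4
        norm_num
        exact i5
      · show n0 ≤ G * 1 * (((0 : ℕ) : ℝ) + 1) ^ 4
        norm_num
        exact i6
      · show x0 / 2 + 1 * (x0 / 2) ≤ x0
        linarith only []
    | succ M ih =>
      have h := AsInv.step hc hL hl hx0 hC1 hQ hA hG (asN_ge k0 hk0 M).1
        (by have : (0 : ℝ) ≤ M := Nat.cast_nonneg M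
            linarith only [this]) hk4 hkx e1 e2 e3 e4 ih
      have h1 : asN k0 (M + 1) = (k0 : ℝ) * ((M : ℝ) + 1) ^ 2 * asN k0 M := by
        show ((k0 * (M + 1) ^ 2 : ℕ) : ℝ) * asN k0 M = _
        push_cast
        ring
      have h2 : S (M + 1) = asStep c L l ((k0 : ℝ) * ((M : ℝ) + 1) ^ 2) (S M) := by
        show asStep c L l ((k0 * (M + 1) ^ 2 : ℕ) : ℝ) (S M) = _
        congr 1
        push_cast
        ring
      rw [h1, h2]
      push_cast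
      exact h
  -- the property holds along the sequence
  have hPS : ∀ M : ℕ, P (S M).n (S M).a (S M).g (S M).q (S M).p (S M).d (S M).x := by
    intro M
    induction M with
    | zero => exact hP0
    | succ M ih =>
      have hi := inv M
      have hx : 0 ≤ (S M).x := by
        have h1 := hi.xN
        have h2 := (asN_ge k0 hk0 M).1
        have h3 : 0 ≤ asN k0 M * (x0 / 2) := by positivity
        linarith only [h1, h3, hx0]
      have hk : 1 ≤ k0 * (M + 1) ^ 2 := by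
        have : 0 < k0 * (M + 1) ^ 2 := by positivity
        omega
      exact hstep ih hk hK0 hi.n0 hi.a0 hi.g0 hi.q0 hi.p0 hi.d0 hx
  -- the total size
  obtain ⟨T, hT⟩ : ∃ T : ℕ → ℝ, ∀ M, T M = (S M).n + (S M).a + (S M).g + 1 :=
    ⟨fun M => (S M).n + (S M).a + (S M).g + 1, fun _ => rfl⟩
  have hTN : ∀ M, asN k0 M ≤ T M := by
    intro M
    have hi := inv M
    rw [hT]
    linarith only [hi.nN, hi.a0, hi.g0]
  have hTexp : ∀ M : ℕ, (M : ℝ) < T M := by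
    intro M
    have h1 := (asN_ge k0 hk0 M).2
    have h2 := Real.add_one_le_exp (M : ℝ)
    have h3 := hTN M
    linarith only [h1, h2, h3]
  refine ⟨(2 * G + A + 1) * k0 * (2 / x0) * 729, by positivity, max (T 0) (Real.exp 1), ?_⟩
  intro t ht
  have ht0 : T 0 ≤ t := le_trans (le_max_left _ _) ht
  have ht1 : Real.exp 1 ≤ t := le_trans (le_max_right _ _) ht
  have htpos : 0 < t := lt_of_lt_of_le (Real.exp_pos 1) ht1
  -- the last level that fits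
  classical
  have hex : ∃ M, ¬ T (M + 1) ≤ t := by
    obtain ⟨M, hM⟩ := exists_nat_ge t
    refine ⟨M, ?_⟩
    have := hTexp (M + 1)
    push_cast at this
    intro h
    linarith only [this, h, hM]
  set M := Nat.find hex with hMdef
  have hM1 : t < T (M + 1) := not_le.1 (Nat.find_spec hex)
  have hM2 : T M ≤ t := by
    rcases Nat.eq_zero_or_pos M with h | h
    · rw [h]; exact ht0
    · obtain ⟨j, hj⟩ : ∃ j, M = j + 1 := ⟨M - 1, by omega⟩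
      have := Nat.find_min hex (m := j) (by omega)
      rw [not_not] at this
      rw [hj]; exact this
  have hi := inv M
  have hN1 := (asN_ge k0 hk0 M).1
  have hN2 := (asN_ge k0 hk0 M).2
  have hxN : asN k0 M * (x0 / 2) ≤ (S M).x := by
    have := hi.xN
    linarith only [this, hx0]
  have hx : 0 < (S M).x := by
    have : 0 < asN k0 M * (x0 / 2) := by positivity
    linarith only [this, hxN]
  refine ⟨(S M).n, (S M).a, (S M).g, (S M).q, (S M).p, (S M).d, (S M).x, hPS M, hi.n0, hi.a0,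
    hi.g0, hx, ?_, ?_⟩
  · have := hT M
    linarith only [this, hM2]
  · -- upper bound of t
    have hlog1 : 1 ≤ Real.log t := by
      rw [Real.le_log_iff_exp_le htpos]; exact ht1
    have hlogM : (M : ℝ) ≤ Real.log t := by
      rw [Real.le_log_iff_exp_le htpos]
      have h3 := hTN M
      linarith only [hN2, h3, hM2]
    have hi' := inv (M + 1)
    have hM0 : (0 : ℝ) ≤ M := Nat.cast_nonneg M
    obtain ⟨w, hw⟩ : ∃ w : ℝ, w = (M : ℝ) + 2 := ⟨_, rfl⟩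
    have hw1 : 1 ≤ w := by linarith only [hw, hM0]
    have hw3 : w ≤ 3 * Real.log t := by linarith only [hw, hlog1, hlogM]
    have hcast : (((M + 1 : ℕ) : ℝ) + 1) = w := by
      push_cast
      linarith only [hw]
    have g1 := hi'.gN
    have g2 := hi'.aN
    have g3 := hi'.nN'
    rw [hcast] at g1 g2 g3
    have hN'1 := (asN_ge k0 hk0 (M + 1)).1
    obtain ⟨N', hN'⟩ : ∃ N' : ℝ, N' = asN k0 (M + 1) := ⟨_, rfl⟩
    rw [← hN'] at g1 g2 g3 hN'1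
    have f1 : w ^ 3 ≤ w ^ 4 := pow_le_pow_right₀ hw1 (by norm_num)
    have f2 : 1 ≤ w ^ 4 := one_le_pow₀ hw1
    have f3 : A * N' * w ^ 3 ≤ A * N' * w ^ 4 :=
      mul_le_mul_of_nonneg_left f1 (by positivity)
    have f4 : 1 ≤ N' * w ^ 4 := by
      have : 1 * 1 ≤ N' * w ^ 4 := mul_le_mul hN'1 f2 (by norm_num) (by linarith only [hN'1])
      linarith only [this]
    have f5 : t ≤ (2 * G + A + 1) * (N' * w ^ 4) := by
      have h1 := hT (M + 1)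
      have h2 : (2 * G + A + 1) * (N' * w ^ 4)
        = G * N' * w ^ 4 + G * N' * w ^ 4 + A * N' * w ^ 4 + N' * w ^ 4 := by ring
      linarith only [h1, h2, hM1, g1, g2, g3, f3, f4]
    have f6 : N' = (k0 : ℝ) * ((M : ℝ) + 1) ^ 2 * asN k0 M := by
      rw [hN']
      show ((k0 * (M + 1) ^ 2 : ℕ) : ℝ) * asN k0 M = _
      push_cast
      ring
    have f7 : ((M : ℝ) + 1) ^ 2 ≤ w ^ 2 := by
      refine pow_le_pow_left₀ (by linarith only [hM0]) (by linarith only [hw]) 2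
    have f8 : N' ≤ (k0 : ℝ) * w ^ 2 * (2 / x0 * (S M).x) := by
      rw [f6]
      have h1 : asN k0 M ≤ 2 / x0 * (S M).x := by
        have h2 : 2 / x0 * (asN k0 M * (x0 / 2)) ≤ 2 / x0 * (S M).x :=
          mul_le_mul_of_nonneg_left hxN (by positivity)
        have h3 : 2 / x0 * (asN k0 M * (x0 / 2)) = asN k0 M := by field_simp
        linarith only [h2, h3]
      refine mul_le_mul (mul_le_mul_of_nonneg_left f7 (by positivity)) h1
        (by linarith only [hN1]) (by positivity)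
    have f9 : w ^ 6 ≤ 729 * (Real.log t) ^ 7 := by
      have h1 : w ^ 6 ≤ (3 * Real.log t) ^ 6 :=
        pow_le_pow_left₀ (by linarith only [hw1]) hw3 6
      have h2 : (3 * Real.log t) ^ 6 = 729 * (Real.log t) ^ 6 := by ring
      have h3 : (Real.log t) ^ 6 ≤ (Real.log t) ^ 7 := pow_le_pow_right₀ hlog1 (by norm_num)
      linarith only [h1, h2, h3]
    have f10 : N' * w ^ 4 ≤ (k0 : ℝ) * (2 / x0) * (S M).x * w ^ 6 := by
      have h1 : N' * w ^ 4 ≤ (k0 : ℝ) * w ^ 2 * (2 / x0 * (S M).x) * w ^ 4 :=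
        mul_le_mul_of_nonneg_right f8 (by positivity)
      have h2 : (k0 : ℝ) * w ^ 2 * (2 / x0 * (S M).x) * w ^ 4
        = (k0 : ℝ) * (2 / x0) * (S M).x * w ^ 6 := by ring
      linarith only [h1, h2]
    have f11 : (k0 : ℝ) * (2 / x0) * (S M).x * w ^ 6
        ≤ (k0 : ℝ) * (2 / x0) * (S M).x * (729 * (Real.log t) ^ 7) :=
      mul_le_mul_of_nonneg_left f9 (by positivity)
    have f12 : (2 * G + A + 1) * (N' * w ^ 4)
        ≤ (2 * G + A + 1) * ((k0 : ℝ) * (2 / x0) * (S M).x * (729 * (Real.log t) ^ 7)) :=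
      mul_le_mul_of_nonneg_left (f10.trans f11) (by positivity)
    have f13 : (2 * G + A + 1) * ((k0 : ℝ) * (2 / x0) * (S M).x * (729 * (Real.log t) ^ 7))
      = (2 * G + A + 1) * k0 * (2 / x0) * 729 * (S M).x * Real.log t ^ 7 := by ring
    linarith only [f5, f12, f13]

end Vale.Agent.P065.W
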