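import Vale.Agent.P065.MathlibUsed

set_option linter.all false

/-!
P065: asymptotic bookkeeping for the composition with coefficient one: the lower bound
`n ^ (1 + c / (log log n) ^ 4)` from an abstract amplification step.
-/

namespace Vale.Agent.P065.W

open Filter

/-- the accumulated powers: `WW c (j + 1) = c * (j + 1) ^ 2 * WW c j` -/
noncomputable def WW (c : ℝ) : ℕ → ℝ
  | 0 => 1
  | j + 1 => c * ((j : ℝ) + 1) ^ 2 * WW c j

theorem WW_pos {c : ℝ} (hc : 1 ≤ c) (j : ℕ) : 0 < WW c j := by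
  induction j with
  | zero => exact one_pos
  | succ j ih =>
    have h1 : (0 : ℝ) < (j : ℝ) + 1 := by positivity
    have h0 : 0 < c := by linarith
    simp only [WW]
    positivity

theorem WW_ge {c : ℝ} (hc : 64 ≤ c) (j : ℕ) : (64 : ℝ) ^ j ≤ WW c j := by
  induction j with
  | zero => exact le_rfl
  | succ j ih =>
    have h1 : (1 : ℝ) ≤ ((j : ℝ) + 1) ^ 2 := by
      have : (0 : ℝ) ≤ j := Nat.cast_nonneg j
      nlinarith
    simp only [WW]
    have h2 : (0 : ℝ) < 64 ^ j := by positivity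
    calc (64 : ℝ) ^ (j + 1) = 64 * 1 * 64 ^ j := by ring
      _ ≤ c * ((j : ℝ) + 1) ^ 2 * WW c j := by gcongr

/-- the data of one level: all inequalities of one amplification step -/
theorem level_ineq {C E c1 P u w k : ℝ} (hC : 1 ≤ C) (hE : 1 ≤ E) (hc1 : c1 = 64 * C ^ 3)
    (hP : P = C * c1 * E) (hu : 1 ≤ u) (hw : 0 < w) (hk : k = c1 * u ^ 2) :
    k * (P * u ^ 4 * w + P * u ^ 3 * w + C * (k * (E * w))) ≤ P * (u + 1) ^ 4 * (k * w) ∧
    k * (P * u ^ 3 * w + C * (P / C * u ^ 2 * w + k * (E * w))) +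
      C * (C * P * u ^ 4 * w + P * u ^ 3 * w) ≤ P * (u + 1) ^ 3 * (k * w) ∧
    k * (C * P * u ^ 4 * w + C * (P * u ^ 3 * w + P / C * u ^ 2 * w + k * (E * w))) +
      C * (C * P * u ^ 4 * w + P * u ^ 3 * w) ≤ C * P * (u + 1) ^ 4 * (k * w) ∧
    C * (C * P * u ^ 4 * w + P * u ^ 3 * w + k * (E * w)) ≤ P / C * (u + 1) ^ 2 * (k * w) := by
  have hC0 : 0 < C := by linarith
  have hE0 : 0 < E := by linarith
  have hc10 : 0 < c1 := by rw [hc1]; positivity
  have hP0 : 0 < P := by rw [hP]; positivity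
  have hk0 : 0 < k := by rw [hk]; positivity
  have hu0 : 0 < u := by linarith
  have hkw : 0 < k * w := by positivity
  have hPC : P / C = c1 * E := by rw [hP]; field_simp
  -- `C * k * E = P * u ^ 2`
  have e1 : C * (k * (E * w)) = P * u ^ 2 * w := by rw [hk, hP]; ring
  have e2 : C * (P / C * u ^ 2 * w) = P * u ^ 2 * w := by field_simp
  -- `C * (C P u^4 w + P u^3 w) ≤ P u^2 k w / (32 C)`
  have e3 : C * (C * P * u ^ 4 * w + P * u ^ 3 * w) ≤ P * u ^ 2 * (k * w) / (32 * C) := by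
    rw [le_div_iff₀ (by positivity)]
    have h1 : u ^ 3 ≤ u ^ 4 := pow_le_pow_right₀ hu (by norm_num)
    have h2 : C * P * u ^ 4 * w + P * u ^ 3 * w ≤ 2 * C * P * u ^ 4 * w := by
      have h3 : P * u ^ 3 * w ≤ C * P * u ^ 4 * w := by
        calc P * u ^ 3 * w = 1 * P * u ^ 3 * w := by ring
          _ ≤ C * P * u ^ 4 * w := by gcongr
      linarith
    calc C * (C * P * u ^ 4 * w + P * u ^ 3 * w) * (32 * C)
        ≤ C * (2 * C * P * u ^ 4 * w) * (32 * C) := by gcongr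
      _ = P * u ^ 2 * (64 * C ^ 3 * u ^ 2 * w) := by ring
      _ = P * u ^ 2 * (k * w) := by rw [hk, hc1]
  have e4 : P * u ^ 2 * (k * w) / (32 * C) ≤ P * u ^ 2 * (k * w) := by
    apply div_le_self (by positivity)
    linarith
  refine ⟨?_, ?_, ?_, ?_⟩
  · rw [e1]
    have h1 : k * (P * u ^ 4 * w + P * u ^ 3 * w + P * u ^ 2 * w) =
        P * (u ^ 4 + u ^ 3 + u ^ 2) * (k * w) := by ring
    rw [h1]
    have h2 : u ^ 4 + u ^ 3 + u ^ 2 ≤ (u + 1) ^ 4 := by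
      have h3 : (u + 1) ^ 4 = u ^ 4 + 4 * u ^ 3 + 6 * u ^ 2 + 4 * u + 1 := by ring
      rw [h3]
      have : 0 < u ^ 3 := by positivity
      have : 0 < u ^ 2 := by positivity
      linarith
    gcongr
  · have h1 : k * (P * u ^ 3 * w + C * (P / C * u ^ 2 * w + k * (E * w))) =
        P * (u ^ 3 + 2 * u ^ 2) * (k * w) := by
      rw [mul_add C, e1, e2]; ring
    have h2 : P * (u ^ 3 + 3 * u ^ 2) * (k * w) ≤ P * (u + 1) ^ 3 * (k * w) := by
      have h3 : u ^ 3 + 3 * u ^ 2 ≤ (u + 1) ^ 3 := by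
        have h4 : (u + 1) ^ 3 = u ^ 3 + 3 * u ^ 2 + 3 * u + 1 := by ring
        rw [h4]; linarith
      gcongr
    calc _ ≤ P * (u ^ 3 + 2 * u ^ 2) * (k * w) + P * u ^ 2 * (k * w) := by
          rw [h1]; linarith
      _ = P * (u ^ 3 + 3 * u ^ 2) * (k * w) := by ring
      _ ≤ _ := h2
  · have h1 : k * (C * P * u ^ 4 * w + C * (P * u ^ 3 * w + P / C * u ^ 2 * w + k * (E * w))) =
        (C * P * u ^ 4 + C * P * u ^ 3 + 2 * P * u ^ 2) * (k * w) := by
      rw [mul_add C, mul_add C, e1, e2]; ring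
    have h2 : C * P * u ^ 4 + C * P * u ^ 3 + 3 * P * u ^ 2 ≤ C * P * (u + 1) ^ 4 := by
      have h4 : (u + 1) ^ 4 = u ^ 4 + 4 * u ^ 3 + 6 * u ^ 2 + 4 * u + 1 := by ring
      have h5 : P * u ^ 2 ≤ C * P * u ^ 2 := by
        have : 0 ≤ P * u ^ 2 := by positivity
        nlinarith
      have h6 : 0 ≤ C * P * u ^ 3 := by positivity
      have h7 : 0 ≤ C * P * u ^ 2 := by positivity
      have h8 : 0 ≤ C * P * u := by positivity
      have h9 : 0 ≤ C * P := by positivity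
      rw [h4]
      nlinarith
    calc _ ≤ (C * P * u ^ 4 + C * P * u ^ 3 + 2 * P * u ^ 2) * (k * w) + P * u ^ 2 * (k * w) := by
          rw [h1]; linarith
      _ = (C * P * u ^ 4 + C * P * u ^ 3 + 3 * P * u ^ 2) * (k * w) := by ring
      _ ≤ C * P * (u + 1) ^ 4 * (k * w) := by gcongr
  · rw [mul_add C (C * P * u ^ 4 * w + P * u ^ 3 * w)]
    have h1 : P * u ^ 2 * (k * w) / (32 * C) = P / C * (u ^ 2 / 32) * (k * w) := by
      field_simp
    have h2 : C * (k * (E * w)) ≤ P / C * 1 * (k * w) := by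
      rw [hPC, hc1]
      have h3 : C ≤ 64 * C ^ 3 := by
        have : 1 ≤ C ^ 2 := one_le_pow₀ hC
        nlinarith
      calc C * (k * (E * w)) = C * (E * (k * w)) := by ring
        _ ≤ 64 * C ^ 3 * (E * (k * w)) := by gcongr
        _ = _ := by ring
    have h3 : P / C * (u ^ 2 / 32) * (k * w) + P / C * 1 * (k * w) ≤
        P / C * (u + 1) ^ 2 * (k * w) := by
      rw [← add_mul, ← mul_add]
      have h4 : u ^ 2 / 32 + 1 ≤ (u + 1) ^ 2 := by nlinarith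
      gcongr
    linarith

/-- the bounds after a last step with a free power `k` -/
theorem last_ineq {C E c1 P u w k : ℝ} (hC : 1 ≤ C) (hE : 1 ≤ E) (hc1 : c1 = 64 * C ^ 3)
    (hP : P = C * c1 * E) (hu : 1 ≤ u) (hw : 0 < w) (hk1 : 64 ≤ k) (hk : k ≤ c1 * u ^ 2) :
    k * (P * u ^ 4 * w + P * u ^ 3 * w + C * (k * (E * w))) ≤ 3 * P * u ^ 4 * (k * w) ∧
    k * (P * u ^ 3 * w + C * (P / C * u ^ 2 * w + k * (E * w))) +
      C * (C * P * u ^ 4 * w + P * u ^ 3 * w) ≤ 4 * C ^ 2 * P * u ^ 4 * (k * w) ∧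
    k * (C * P * u ^ 4 * w + C * (P * u ^ 3 * w + P / C * u ^ 2 * w + k * (E * w))) +
      C * (C * P * u ^ 4 * w + P * u ^ 3 * w) ≤ 5 * C ^ 2 * P * u ^ 4 * (k * w) ∧
    C * (C * P * u ^ 4 * w + P * u ^ 3 * w + k * (E * w)) ≤ 2 * C ^ 2 * P * u ^ 4 * (k * w) ∧
    E * (k * w) ≤ P * u ^ 4 * (k * w) := by
  have hC0 : 0 < C := by linarith
  have hE0 : 0 < E := by linarith
  have hc10 : 0 < c1 := by rw [hc1]; positivity
  have hP0 : 0 < P := by rw [hP]; positivity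
  have hk0 : 0 < k := by linarith
  have hu0 : 0 < u := by linarith
  have hkw : 0 < k * w := by positivity
  have hu34 : u ^ 3 ≤ u ^ 4 := pow_le_pow_right₀ hu (by norm_num)
  have hu24 : u ^ 2 ≤ u ^ 4 := pow_le_pow_right₀ hu (by norm_num)
  have hu04 : 1 ≤ u ^ 4 := one_le_pow₀ hu
  have hC2 : 1 ≤ C ^ 2 := one_le_pow₀ hC
  have hCC2 : C ≤ C ^ 2 := by nlinarith
  have a1 : C * (k * (E * w)) ≤ P * u ^ 4 * w := by
    calc C * (k * (E * w)) ≤ C * (c1 * u ^ 2 * (E * w)) := by gcongr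
      _ = P * u ^ 2 * w := by rw [hP]; ring
      _ ≤ P * u ^ 4 * w := by gcongr
  have a2 : P * u ^ 3 * w ≤ P * u ^ 4 * w := by gcongr
  have a3 : C * (P / C * u ^ 2 * w) ≤ P * u ^ 4 * w := by
    calc C * (P / C * u ^ 2 * w) = P * u ^ 2 * w := by field_simp
      _ ≤ _ := by gcongr
  have a4 : P * u ^ 4 * w ≤ C ^ 2 * (P * u ^ 4 * w) := le_mul_of_one_le_left (by positivity) hC2
  have a5 : C * (P * u ^ 4 * w) ≤ C ^ 2 * (P * u ^ 4 * w) := by gcongr
  have a6 : C * (C * P * u ^ 4 * w + P * u ^ 3 * w) ≤ k * (C ^ 2 * (P * u ^ 4 * w)) := by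
    have h1 : C * (C * P * u ^ 4 * w + P * u ^ 3 * w) ≤ 2 * (C ^ 2 * (P * u ^ 4 * w)) := by
      calc C * (C * P * u ^ 4 * w + P * u ^ 3 * w) = C ^ 2 * (P * u ^ 4 * w) + C * (P * u ^ 3 * w) := by
            ring
        _ ≤ C ^ 2 * (P * u ^ 4 * w) + C * (P * u ^ 4 * w) := by gcongr
        _ ≤ _ := by linarith
    have h2 : 2 * (C ^ 2 * (P * u ^ 4 * w)) ≤ k * (C ^ 2 * (P * u ^ 4 * w)) := by
      have : 0 < C ^ 2 * (P * u ^ 4 * w) := by positivity
      gcongr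
      linarith
    linarith
  refine ⟨?_, ?_, ?_, ?_, ?_⟩
  · calc k * (P * u ^ 4 * w + P * u ^ 3 * w + C * (k * (E * w)))
        ≤ k * (P * u ^ 4 * w + P * u ^ 4 * w + P * u ^ 4 * w) := by gcongr
      _ = _ := by ring
  · have b1 : P * u ^ 3 * w + C * (P / C * u ^ 2 * w + k * (E * w)) ≤ 3 * (C ^ 2 * (P * u ^ 4 * w)) := by
      have h1 : C * (P / C * u ^ 2 * w + k * (E * w)) =
        C * (P / C * u ^ 2 * w) + C * (k * (E * w)) := by ring
      rw [h1]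
      linarith only [a1, a2, a3, a4]
    have b2 := mul_le_mul_of_nonneg_left b1 hk0.le
    calc _ ≤ k * (3 * (C ^ 2 * (P * u ^ 4 * w))) + k * (C ^ 2 * (P * u ^ 4 * w)) := by
          linarith only [b2, a6]
      _ = _ := by ring
  · have b1 : C * P * u ^ 4 * w + C * (P * u ^ 3 * w + P / C * u ^ 2 * w + k * (E * w)) ≤
        4 * (C ^ 2 * (P * u ^ 4 * w)) := by
      have h1 : C * (P * u ^ 3 * w + P / C * u ^ 2 * w + k * (E * w)) =
        C * (P * u ^ 3 * w) + C * (P / C * u ^ 2 * w) + C * (k * (E * w)) := by ring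
      have h2 : C * P * u ^ 4 * w = C * (P * u ^ 4 * w) := by ring
      have h3 : C * (P * u ^ 3 * w) ≤ C * (P * u ^ 4 * w) := mul_le_mul_of_nonneg_left a2 hC0.le
      rw [h1, h2]
      linarith only [a1, a2, a3, a4, a5, h3]
    have b2 := mul_le_mul_of_nonneg_left b1 hk0.le
    calc _ ≤ k * (4 * (C ^ 2 * (P * u ^ 4 * w))) + k * (C ^ 2 * (P * u ^ 4 * w)) := by
          linarith only [b2, a6]
      _ = _ := by ring
  · have h1 : C * (C * P * u ^ 4 * w + P * u ^ 3 * w + k * (E * w)) =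
        C * (C * P * u ^ 4 * w + P * u ^ 3 * w) + C * (k * (E * w)) := by ring
    rw [h1]
    have h2 : C * (k * (E * w)) ≤ k * (C ^ 2 * (P * u ^ 4 * w)) := by
      have h3 : C ^ 2 * (P * u ^ 4 * w) ≤ k * (C ^ 2 * (P * u ^ 4 * w)) :=
        le_mul_of_one_le_left (by positivity) (by linarith)
      linarith
    calc _ ≤ k * (C ^ 2 * (P * u ^ 4 * w)) + k * (C ^ 2 * (P * u ^ 4 * w)) := by linarith
      _ = _ := by ring
  · have h1 : E ≤ P * u ^ 4 := by
      have h2 : E ≤ P := by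
        rw [hP]
        have h3 : 1 ≤ C * c1 := by
          rw [hc1]
          have : 1 ≤ C ^ 4 := one_le_pow₀ hC
          nlinarith
        exact le_mul_of_one_le_left hE0.le h3
      calc E ≤ P * 1 := by linarith
        _ ≤ P * u ^ 4 := by gcongr
    gcongr

variable {Q : ℝ → ℝ → ℝ → ℝ → ℝ → ℝ → Prop}

/-- the invariant: parameters after `j` amplification steps -/
theorem levels
    (mono : ∀ (n n' a a' g g' t t' D D' x x' : ℝ), Q n a g t D x → n ≤ n' → a ≤ a' → g ≤ g' →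
      t ≤ t' → D ≤ D' → x' ≤ x → Q n' a' g' t' D' x')
    {b : ℝ} (hb : 1 ≤ b) (base : Q b b b b b (9 / 80))
    {C : ℕ} (hC : 1 ≤ C)
    (step : ∀ (k : ℕ) (n a g t D x : ℝ), 64 ≤ k → 1 ≤ n → 1 ≤ a → 1 ≤ g → 1 ≤ t → 1 ≤ D →
      1 / 10 ≤ x → Q n a g t D x →
      Q (k * (n + a + C * (k * D))) (k * (a + C * (t + k * D)) + C * (g + a))
        (k * (g + C * (a + t + k * D)) + C * (g + a)) (C * (g + a + k * D)) (k * (D + C))
        (k * (x - 1 / 32)))
    {E c1 P : ℝ} (hE : E = b + 2 * C) (hc1 : c1 = 64 * (C : ℝ) ^ 3) (hP : P = C * c1 * E) :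
    ∀ j : ℕ, Q (P * ((j : ℝ) + 1) ^ 4 * WW c1 j) (P * ((j : ℝ) + 1) ^ 3 * WW c1 j)
      (C * P * ((j : ℝ) + 1) ^ 4 * WW c1 j) (P / C * ((j : ℝ) + 1) ^ 2 * WW c1 j)
      (E * WW c1 j - 2 * C) (WW c1 j / 20 + 1 / 16) := by
  have hCr : (1 : ℝ) ≤ C := by exact_mod_cast hC
  have hC0 : (0 : ℝ) < C := by linarith
  have hE1 : 1 ≤ E := by rw [hE]; linarith
  have hE0 : 0 < E := by linarith
  have hC3 : (1 : ℝ) ≤ (C : ℝ) ^ 3 := one_le_pow₀ hCr
  have hc164 : 64 ≤ c1 := by rw [hc1]; linarith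
  have hc10 : 0 < c1 := by linarith
  have hPc : P / C = c1 * E := by rw [hP]; field_simp
  have hPC1 : 1 ≤ P / C := by
    rw [hPc]
    nlinarith
  have hPge : P / C ≤ P := div_le_self (by rw [hP]; positivity) hCr
  have hP0 : 0 < P := by linarith
  have hbE : b ≤ P / C := by
    rw [hPc]
    have : b ≤ E := by rw [hE]; linarith
    nlinarith
  intro j
  induction j with
  | zero =>
    refine mono _ _ _ _ _ _ _ _ _ _ _ _ base ?_ ?_ ?_ ?_ ?_ ?_
    · simp [WW]; linarith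
    · simp [WW]; linarith
    · simp only [WW]
      have : P ≤ C * P := by nlinarith
      norm_num
      linarith
    · simp [WW]; linarith
    · simp [WW]; rw [hE]; linarith
    · simp [WW]; norm_num
  | succ j ih =>
    obtain ⟨w, hw⟩ : ∃ w, w = WW c1 j := ⟨_, rfl⟩
    obtain ⟨u, hu⟩ : ∃ u : ℝ, u = (j : ℝ) + 1 := ⟨_, rfl⟩
    have hw0 : 0 < w := by rw [hw]; exact WW_pos (by linarith) j
    have hw1 : 1 ≤ w := by
      rw [hw]
      exact (one_le_pow₀ (by norm_num)).trans (WW_ge hc164 j)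
    have hu1 : 1 ≤ u := by
      rw [hu]
      have : (0 : ℝ) ≤ j := Nat.cast_nonneg j
      linarith
    rw [← hw, ← hu] at ih
    obtain ⟨k, hk⟩ : ∃ k : ℕ, k = 64 * C ^ 3 * (j + 1) ^ 2 := ⟨_, rfl⟩
    have hkr : (k : ℝ) = c1 * u ^ 2 := by rw [hk, hc1, hu]; push_cast; ring
    have hk64 : 64 ≤ k := by
      rw [hk]
      have h1 : 1 ≤ C ^ 3 := Nat.one_le_pow _ _ hC
      have h2 : 1 ≤ (j + 1) ^ 2 := Nat.one_le_pow _ _ (by omega)
      calc 64 = 64 * 1 * 1 := by norm_num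
        _ ≤ 64 * C ^ 3 * (j + 1) ^ 2 := Nat.mul_le_mul (Nat.mul_le_mul_left _ h1) h2
    have hk64r : (64 : ℝ) ≤ k := by exact_mod_cast hk64
    have hk0 : (0 : ℝ) < k := by linarith
    have hWs : WW c1 (j + 1) = k * w := by
      simp only [WW]
      rw [hkr, hw, hu]
    have pu : ∀ i : ℕ, 1 ≤ u ^ i := fun i => one_le_pow₀ hu1
    have ge1 : ∀ (p q r : ℝ), 1 ≤ p → 1 ≤ q → 1 ≤ r → 1 ≤ p * q * r := by
      intro p q r h1 h2 h3
      have h4 : 1 ≤ p * q := by nlinarith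
      nlinarith
    have hD1 : 1 ≤ E * w - 2 * C := by
      have h1 : E * 1 ≤ E * w := by gcongr
      rw [hE] at h1 ⊢
      linarith
    have hs := step k _ _ _ _ _ _ hk64
      (ge1 _ _ _ (by linarith) (pu 4) hw1 : 1 ≤ P * u ^ 4 * w)
      (ge1 _ _ _ (by linarith) (pu 3) hw1 : 1 ≤ P * u ^ 3 * w)
      (ge1 _ _ _ (by nlinarith) (pu 4) hw1 : 1 ≤ C * P * u ^ 4 * w)
      (ge1 _ _ _ hPC1 (pu 2) hw1 : 1 ≤ P / C * u ^ 2 * w)
      hD1 (by linarith : 1 / 10 ≤ w / 20 + 1 / 16) ih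
    obtain ⟨i1, i2, i3, i4⟩ := level_ineq hCr hE1 hc1 hP hu1 hw0 hkr
    have hu' : ((j + 1 : ℕ) : ℝ) + 1 = u + 1 := by push_cast; rw [hu]
    rw [hu', hWs]
    have hDle : E * w - 2 * C ≤ E * w := by linarith
    have hkD : (k : ℝ) * (E * w - 2 * C) ≤ k * (E * w) := by gcongr
    refine mono _ _ _ _ _ _ _ _ _ _ _ _ hs ?_ ?_ ?_ ?_ ?_ ?_
    · refine le_trans ?_ i1
      gcongr
    · refine le_trans ?_ i2
      gcongr
    · refine le_trans ?_ i3
      gcongr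
    · refine le_trans ?_ i4
      gcongr
    · nlinarith
    · nlinarith

end Vale.Agent.P065.W
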