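import Vale.Agent.P065.W.Ins

/-!
P065, wide fans: the new configuration is good, has good cells, and its weight (block P1).
-/

set_option linter.all false

namespace Vale.Agent.P065.W

open Vale.Agent.P065

variable {ι υ γ κ ν βQ βP γ' : Type}

/-- sum over all kinds of parallels -/
theorem sum_pr {M : Type} [AddCommMonoid M] [Fintype βQ] [Fintype βP] (f : Pr βQ βP → M) :
    ∑ b, f b = ∑ b, f (Sum.inl b) + (∑ b, f (Sum.inr (Sum.inl b)) +
      ((f (Sum.inr (Sum.inr (Sum.inl true))) + f (Sum.inr (Sum.inr (Sum.inl false)))) +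
      (f (Sum.inr (Sum.inr (Sum.inr true))) + f (Sum.inr (Sum.inr (Sum.inr false)))))) := by
  rw [Fintype.sum_sum_type, Fintype.sum_sum_type, Fintype.sum_sum_type, Fintype.sum_bool,
    Fintype.sum_bool]

section wt

variable [Fintype ι] [Fintype υ] [Fintype κ] [Fintype ν] [Fintype βQ] [Fintype βP]
  {C : Cfg ι υ} {F : Cel ι υ γ} {o z : ι → ℝ} {G : Gad κ ν βQ βP} {F' : Cel κ ν γ'}
  {R ρ Γ r S T θ η ε W U s Z B s' Z' : ℝ} {A A' g D E D' E' : ℕ}

theorem D_le_deg (hF : CelOk C F D E) (v : υ) : F.D (C.q v) ≤ C.deg (C.q v) := by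
  classical
  rw [← hF.cnt v (C.q v) (hF.nq v)]
  unfold Cfg.deg
  apply Finset.card_le_card
  intro u hu
  simp only [Finset.mem_filter, Finset.mem_univ, true_and] at hu ⊢
  exact hu.1

theorem D_eq_zero (hF : CelOk C F D E) {v : υ} {k : ι} (hn : F.nr (F.c v) k)
    (hk : ¬ C.Thin k) : F.D k = 0 := by
  classical
  rw [← hF.cnt v k hn, Finset.card_eq_zero, Finset.filter_eq_empty_iff]
  intro u _ hu
  exact hk ⟨u, hu.1⟩

theorem satW2_sum (hG : GOk G F' R ρ Γ θ η s' Z' A A' g D' E') : ∑ j, satW G g j = 4 * g := by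
  rw [Fintype.sum_sum_type, Fintype.sum_bool]
  simp only [satW]
  rw [hG.sumL]
  ring

/-- near weight of line `k`: everything except the far pads and the fans of other cells -/
theorem wt2_near (hC : C.Good) (hF : CelOk C F D E) (hG : GOk G F' R ρ Γ θ η s' Z' A A' g D' E')
    {v : υ} {k : ι} (hn : F.nr (F.c v) k) :
    (∑ b, wt2 C F G A A' g D E k (Sum.inl b)) +
      ((∑ b, wt2 C F G A A' g D E k (Sum.inr (Sum.inl b))) +
      (wt2 C F G A A' g D E k (Sum.inr (Sum.inr (Sum.inl true))) +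
        wt2 C F G A A' g D E k (Sum.inr (Sum.inr (Sum.inl false))))) +
      F.D k * (4 * g) = 2 * (A + 2 * g * D) * C.w k := by
  simp only [wt2]
  by_cases h1 : C.Thin k
  · obtain ⟨u, rfl⟩ := h1
    have h2 : C.Thin (C.q u) := ⟨u, rfl⟩
    have h3 := hC.not_thick u
    have h4 := hG.sumQ
    have h5 := hF.Dle (C.q u)
    simp only [if_pos h2, if_neg h3, hC.w_q, Finset.sum_const_zero, h4]
    obtain ⟨c, hc⟩ := Nat.exists_eq_add_of_le h5
    have h6 : D - F.D (C.q u) = c := by omega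
    rw [h6, hc]
    ring
  · rw [D_eq_zero hF hn h1]
    by_cases h2 : C.Thick k
    · obtain ⟨u, rfl⟩ := h2
      have h2 : C.Thick (C.p u) := ⟨u, rfl⟩
      have h4 := hG.sumP
      have h5 := hG.le
      simp only [if_neg h1, if_pos h2, hC.w_p, Finset.sum_const_zero, h4]
      have h6 : A' ≤ A + 2 * g * D := le_trans h5 (Nat.le_add_right _ _)
      omega
    · simp only [if_neg h1, if_neg h2, Finset.sum_const_zero]
      ring

theorem wt2_sum (hC : C.Good) (hF : CelOk C F D E) (hG : GOk G F' R ρ Γ θ η s' Z' A A' g D' E')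
    (k : ι) :
    ∑ b, wt2 C F G A A' g D E k b + C.deg k * (4 * g) = 2 * (A + 2 * g * (D + E)) * C.w k := by
  rw [sum_pr]
  simp only [wt2]
  by_cases h1 : C.Thin k
  · obtain ⟨u, rfl⟩ := h1
    have h2 : C.Thin (C.q u) := ⟨u, rfl⟩
    have h3 := hC.not_thick u
    have h4 := hG.sumQ
    have h5 := hF.Dle (C.q u)
    have h6 := hF.degle (C.q u)
    have h7 := D_le_deg hF u
    simp only [if_pos h2, if_neg h3, hC.w_q, Finset.sum_const_zero, h4]
    obtain ⟨c, hc⟩ := Nat.exists_eq_add_of_le h5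
    obtain ⟨c2, hc2⟩ := Nat.exists_eq_add_of_le h7
    obtain ⟨c3, hc3⟩ : ∃ c3, E = c2 + c3 := ⟨E - c2, by omega⟩
    have h8 : D - F.D (C.q u) = c := by omega
    have h9 : C.deg (C.q u) - F.D (C.q u) = c2 := by omega
    have h10 : E - c2 = c3 := by omega
    rw [h8, h9, h10, hc2, hc, hc3]
    ring
  · by_cases h2 : C.Thick k
    · obtain ⟨u, rfl⟩ := h2
      have h2 : C.Thick (C.p u) := ⟨u, rfl⟩
      have h4 := hG.sumP
      have h5 := hG.le
      simp only [if_neg h1, if_pos h2, hC.w_p, Finset.sum_const_zero, h4, deg_eq_zero h1]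
      obtain ⟨c, hc⟩ := Nat.exists_eq_add_of_le (le_trans h5 (Nat.le_add_right _ (2 * g * D)))
      have h6 : A + 2 * g * D - A' = c := by omega
      rw [h6]
      have h7 : 2 * (A + 2 * g * (D + E)) * 1 = 2 * (A + 2 * g * D) + 4 * g * E := by ring
      rw [h7, hc]
      ring
    · simp only [if_neg h1, if_neg h2, Finset.sum_const_zero, deg_eq_zero h1]
      ring

theorem ins2_wt (hC : C.Good) (hF : CelOk C F D E)
    (hG : GOk G F' R ρ Γ θ η s' Z' A A' g D' E') :
    (ins2 C F o G θ η ε R s' A A' g D E).wt = C.wt * (2 * (A + 2 * g * (D + E))) := by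
  classical
  unfold Cfg.wt
  rw [Fintype.sum_sum_type, Fintype.sum_prod_type, Fintype.sum_prod_type]
  simp only [ins2, Sum.elim_inl, Sum.elim_inr]
  rw [sum_fib _ C, ← Finset.sum_add_distrib, Finset.sum_mul]
  refine Finset.sum_congr rfl fun k _ => ?_
  have h1 := wt2_sum hC hF hG k
  have h2 : ∑ u ∈ Finset.univ.filter (fun u => C.q u = k), ∑ j, satW G g j
      = C.deg k * (4 * g) := by
    rw [Finset.sum_const, satW2_sum hG, smul_eq_mul]
    rfl
  rw [h2, h1]
  ring

end wt

section bal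

variable [Fintype ι] [Fintype υ] [Fintype κ] [Fintype ν] [Fintype βQ] [Fintype βP]
  {C : Cfg ι υ} {F : Cel ι υ γ} {o z : ι → ℝ} {G : Gad κ ν βQ βP} {F' : Cel κ ν γ'}
  {R ρ Γ r S T θ η ε W U s Z B s' Z' : ℝ} {A A' g D E D' E' : ℕ}

/-- far pads of near lines are neutral -/
theorem farpads_zero (ho : ∀ k, 0 ≤ o k) (hS : SigOk C F o G r θ η ε ρ Γ R s' A A' g D E)
    (v : υ × ν) {k : ι} (hn : F.nr (F.c v.1) k) :
    sg ((ins2 C F o G θ η ε R s' A A' g D E).H v (Sum.inl (k, Sum.inr (Sum.inr (Sum.inr true)))))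
      + sg ((ins2 C F o G θ η ε R s' A A' g D E).H v
        (Sum.inl (k, Sum.inr (Sum.inr (Sum.inr false))))) = 0 := by
  have h1 := hS.farN v k true hn
  have h2 := hS.farN v k false hn
  simp only [bs, if_true, Int.cast_one, one_mul, Bool.false_eq_true, if_false, Int.cast_neg,
    neg_mul] at h1 h2
  have h0 := ho k
  rcases h0.eq_or_lt with h | h
  · rw [← h] at h1 h2
    simp only [sub_zero, zero_div, abs_nonpos_iff, neg_zero] at h1 h2
    rw [h1, h2]
    simp
  · have h3 := (abs_le.1 h1).1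
    have h4 := (abs_le.1 h2).2
    rw [sg_of_pos (by linarith only [h, h3]), sg_of_neg (by linarith only [h, h4])]
    rfl

/-- diverging fans are neutral -/
theorem fans_zero (hG : GOk G F' R ρ Γ θ η s' Z' A A' g D' E') (hθ : 0 < θ)
    (hS : SigOk C F o G r θ η ε ρ Γ R s' A A' g D E)
    (v : υ × ν) (u : υ) (hu : u ≠ v.1)
    (hd : C.q u = C.q v.1 ∨ (F.nr (F.c v.1) (C.q u) ∧ F.c u ≠ F.c v.1)) :
    ∑ j, (satW G g j : ℤ) *
        sg ((ins2 C F o G θ η ε R s' A A' g D E).H v (Sum.inr (u, j))) = 0 := by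
  obtain ⟨x, hx⟩ : ∃ x, x = C.Δ u * (C.x v.1 - C.x u) := ⟨_, rfl⟩
  have hx0 : 0 < |x| := by rw [hx]; exact hS.Δx u v.1 hu hd
  have hxne : x ≠ 0 := abs_pos.1 hx0
  have h1 : ∀ j, sg ((ins2 C F o G θ η ε R s' A A' g D E).H v (Sum.inr (u, j))) =
      sg (θ * satC G η j * x) := by
    intro j
    have h2 := hS.fanD v u j hu hd
    rw [← hx] at h2
    have h3 : 3 / 4 ≤ |satC G η j| := by
      rcases j with j | j
      · exact (hS.satC1 j).trans (le_abs_self _)
      · simp only [satC]; norm_num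
    have h4 : |θ * satC G η j * x| = θ * |satC G η j| * |x| := by
      rw [abs_mul, abs_mul, abs_of_pos hθ]
    have h5 : θ * (3 / 4) * |x| ≤ θ * |satC G η j| * |x| := by
      gcongr
    have h6 : 0 < θ * |x| := by positivity
    apply sg_of_close
    · rw [← abs_pos, h4]
      linarith only [h5, h6]
    · rw [h4]
      linarith only [h2, h5, h6]
  simp only [h1]
  rw [Fintype.sum_sum_type, Fintype.sum_bool]
  have h2 : ∀ j : κ, sg (θ * satC G η (Sum.inl j) * x) = sg x := fun j =>
    sg_mul_pos (mul_pos hθ (lt_of_lt_of_le (by norm_num) (hS.satC1 j)))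
  have h3 : ∀ b : Bool, sg (θ * satC G η (Sum.inr b) * x) = -sg x := fun b => by
    simp only [satC]
    rw [sg_mul_neg (by linarith only [hθ])]
  simp only [h2, h3, satW]
  rw [← Finset.sum_mul]
  have h4 : (∑ j, (G.L.w j : ℤ)) = 2 * g := by exact_mod_cast hG.sumL
  rw [h4]
  ring

/-- fans on the side of their thin line -/
theorem fans_side (hC : C.Good) (hG : GOk G F' R ρ Γ θ η s' Z' A A' g D' E')
    (hS : SigOk C F o G r θ η ε ρ Γ R s' A A' g D E)
    (v : υ × ν) (u : υ) (hq : C.q u ≠ C.q v.1)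
    (hd : ¬ F.nr (F.c v.1) (C.q u) ∨ F.c u = F.c v.1) :
    ∑ j, (satW G g j : ℤ) *
        sg ((ins2 C F o G θ η ε R s' A A' g D E).H v (Sum.inr (u, j)))
      = 4 * g * sg (C.H v.1 (C.q u)) := by
  have hH := hC.off v.1 (C.q u) hq (hC.bip u v.1)
  have h3 : ∀ j, sg ((ins2 C F o G θ η ε R s' A A' g D E).H v (Sum.inr (u, j))) =
      sg (C.H v.1 (C.q u)) := by
    intro j
    apply sg_of_close hH
    have := hS.fanS v u j hq hd
    have h0 := abs_nonneg (C.H v.1 (C.q u))
    linarith only [h0, this]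
  simp only [h3]
  rw [← Finset.sum_mul]
  have h4 := satW2_sum hG
  have h5 : (∑ j, (satW G g j : ℤ)) = 4 * g := by exact_mod_cast h4
  rw [h5]

/-- own satellites -/
theorem fans_own (hC : C.Good) (hG : GOk G F' R ρ Γ θ η s' Z' A A' g D' E') (hθ : 0 < θ)
    (hη : 0 < η) (hS : SigOk C F o G r θ η ε ρ Γ R s' A A' g D E) (v : υ × ν) :
    ∑ j, (satW G g j : ℤ) *
        sg ((ins2 C F o G θ η ε R s' A A' g D E).H v (Sum.inr (v.1, j)))
      = ∑ j, (G.L.w j : ℤ) * sg (G.L.H v.2 j) := by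
  rw [Fintype.sum_sum_type, Fintype.sum_bool, (hS.ownF v true).1, (hS.ownF v false).1]
  have h1 : ∀ j : κ, sg ((ins2 C F o G θ η ε R s' A A' g D E).H v (Sum.inr (v.1, Sum.inl j))) =
      sg (G.L.H v.2 j) := by
    intro j
    rw [ins2_H_gad hC]
    exact sg_mul_pos (mul_pos (mul_pos hθ hη) (hS.e0 v.1))
  simp only [h1, satW, bs]
  simp only [↓reduceIte, mul_one, Bool.false_eq_true, Int.reduceNeg, mul_neg, add_neg_cancel,
    add_zero]

/-- signs of the parallels of a line not through the vertex -/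
theorem par_sg (hC : C.Good) (hS : SigOk C F o G r θ η ε ρ Γ R s' A A' g D E)
    (v : υ × ν) (k : ι) (hk : k ≠ C.q v.1) (hk' : k ≠ C.p v.1) (b : Pr βQ βP)
    (hb : ∀ f, b ≠ Sum.inr (Sum.inr (Sum.inr f))) :
    sg ((ins2 C F o G θ η ε R s' A A' g D E).H v (Sum.inl (k, b))) = sg (C.H v.1 k) := by
  apply sg_of_close (hC.off v.1 k hk hk')
  have := hS.par v k b hb hk hk'
  have h0 := abs_nonneg (C.H v.1 k)
  linarith only [h0, this]

theorem farF_sg (hC : C.Good) (hS : SigOk C F o G r θ η ε ρ Γ R s' A A' g D E)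
    (v : υ × ν) (k : ι) (hk : k ≠ C.q v.1) (hk' : k ≠ C.p v.1) (hn : ¬ F.nr (F.c v.1) k)
    (b : Bool) :
    sg ((ins2 C F o G θ η ε R s' A A' g D E).H v (Sum.inl (k, Sum.inr (Sum.inr (Sum.inr b)))))
      = sg (C.H v.1 k) :=
  sg_of_close (hC.off v.1 k hk hk') (hS.farF v k b hn)

open scoped Classical in
/-- contribution of a line and its fans -/
noncomputable def grp (C : Cfg ι υ) (F : Cel ι υ γ) (o : ι → ℝ) (G : Gad κ ν βQ βP)
    (θ η ε R s' : ℝ) (A A' g D E : ℕ) (v : υ × ν) (k : ι) : ℤ :=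
  (∑ b, (wt2 C F G A A' g D E k b : ℤ) *
        sg ((ins2 C F o G θ η ε R s' A A' g D E).H v (Sum.inl (k, b)))) +
      ∑ u ∈ Finset.univ.filter (fun u => C.q u = k), ∑ j, (satW G g j : ℤ) *
        sg ((ins2 C F o G θ η ε R s' A A' g D E).H v (Sum.inr (u, j)))

/-- contribution of a far line -/
theorem grp_far (hC : C.Good) (hF : CelOk C F D E) (hG : GOk G F' R ρ Γ θ η s' Z' A A' g D' E')
    (hS : SigOk C F o G r θ η ε ρ Γ R s' A A' g D E)
    (v : υ × ν) (k : ι) (hk : k ≠ C.q v.1) (hk' : k ≠ C.p v.1) (hn : ¬ F.nr (F.c v.1) k) :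
    grp C F o G θ η ε R s' A A' g D E v k
      = 2 * (A + 2 * g * (D + E)) * ((C.w k : ℤ) * sg (C.H v.1 k)) := by
  classical
  unfold grp
  have h1 : ∀ b, sg ((ins2 C F o G θ η ε R s' A A' g D E).H v (Sum.inl (k, b)))
      = sg (C.H v.1 k) := by
    rintro (b | b | b | b)
    · exact par_sg hC hS v k hk hk' _ (by simp)
    · exact par_sg hC hS v k hk hk' _ (by simp)
    · exact par_sg hC hS v k hk hk' _ (by simp)
    · exact farF_sg hC hS v k hk hk' hn b
  have h2 : ∀ u ∈ Finset.univ.filter (fun u => C.q u = k), ∑ j, (satW G g j : ℤ) *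
      sg ((ins2 C F o G θ η ε R s' A A' g D E).H v (Sum.inr (u, j)))
        = 4 * g * sg (C.H v.1 k) := by
    intro u hu
    have hu' : C.q u = k := by simpa only [Finset.mem_filter, Finset.mem_univ, true_and] using hu
    subst hu'
    exact fans_side hC hG hS v u hk (Or.inl hn)
  simp only [h1]
  rw [Finset.sum_congr rfl h2, ← Finset.sum_mul, Finset.sum_const]
  have h6 := wt2_sum hC hF hG k
  have h7 : (∑ b, (wt2 C F G A A' g D E k b : ℤ)) + (C.deg k : ℤ) * (4 * g)
      = 2 * (A + 2 * g * (D + E)) * C.w k := by exact_mod_cast h6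
  have h8 : (Finset.univ.filter (fun u => C.q u = k)).card = C.deg k := rfl
  rw [h8, nsmul_eq_mul]
  linear_combination (sg (C.H v.1 k)) * h7

/-- contribution of a near line -/
theorem grp_near (hC : C.Good) (hF : CelOk C F D E) (ho : ∀ k, 0 ≤ o k)
    (hG : GOk G F' R ρ Γ θ η s' Z' A A' g D' E') (hθ : 0 < θ)
    (hS : SigOk C F o G r θ η ε ρ Γ R s' A A' g D E)
    (v : υ × ν) (k : ι) (hk : k ≠ C.q v.1) (hk' : k ≠ C.p v.1) (hn : F.nr (F.c v.1) k) :
    grp C F o G θ η ε R s' A A' g D E v k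
      = 2 * (A + 2 * g * D) * ((C.w k : ℤ) * sg (C.H v.1 k)) := by
  classical
  unfold grp
  rw [sum_pr]
  have p1 : ∀ b, sg ((ins2 C F o G θ η ε R s' A A' g D E).H v (Sum.inl (k, Sum.inl b)))
      = sg (C.H v.1 k) := fun b => par_sg hC hS v k hk hk' _ (by simp)
  have p2 : ∀ b, sg ((ins2 C F o G θ η ε R s' A A' g D E).H v (Sum.inl (k, Sum.inr (Sum.inl b))))
      = sg (C.H v.1 k) := fun b => par_sg hC hS v k hk hk' _ (by simp)
  have p3 : ∀ b, sg ((ins2 C F o G θ η ε R s' A A' g D E).H v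
      (Sum.inl (k, Sum.inr (Sum.inr (Sum.inl b))))) = sg (C.H v.1 k) :=
    fun b => par_sg hC hS v k hk hk' _ (by simp)
  have p4 := farpads_zero ho hS v hn
  have w4 : wt2 C F G A A' g D E k (Sum.inr (Sum.inr (Sum.inr true))) =
    wt2 C F G A A' g D E k (Sum.inr (Sum.inr (Sum.inr false))) := rfl
  have h2 : ∑ u ∈ Finset.univ.filter (fun u => C.q u = k), ∑ j, (satW G g j : ℤ) *
      sg ((ins2 C F o G θ η ε R s' A A' g D E).H v (Sum.inr (u, j)))
      = F.D k * (4 * g * sg (C.H v.1 k)) := by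
    have e1 : ∀ u ∈ Finset.univ.filter (fun u => C.q u = k), ∑ j, (satW G g j : ℤ) *
      sg ((ins2 C F o G θ η ε R s' A A' g D E).H v (Sum.inr (u, j)))
        = if F.c u = F.c v.1 then 4 * g * sg (C.H v.1 k) else 0 := by
      intro u hu
      have hu' : C.q u = k := by simpa only [Finset.mem_filter, Finset.mem_univ, true_and] using hu
      subst hu'
      by_cases hc : F.c u = F.c v.1
      · rw [if_pos hc]
        exact fans_side hC hG hS v u hk (Or.inr hc)
      · rw [if_neg hc]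
        exact fans_zero hG hθ hS v u (fun h => hc (by rw [h])) (Or.inr ⟨hn, hc⟩)
    rw [Finset.sum_congr rfl e1, ← Finset.sum_filter, Finset.filter_filter, Finset.sum_const,
      ← hF.cnt v.1 k hn, nsmul_eq_mul]
  rw [h2]
  simp only [p1, p2, p3]
  have h6 := wt2_near hC hF hG hn
  have h7 : (∑ b, (wt2 C F G A A' g D E k (Sum.inl b) : ℤ)) +
      ((∑ b, (wt2 C F G A A' g D E k (Sum.inr (Sum.inl b)) : ℤ)) +
      ((wt2 C F G A A' g D E k (Sum.inr (Sum.inr (Sum.inl true))) : ℤ) +
        (wt2 C F G A A' g D E k (Sum.inr (Sum.inr (Sum.inl false))) : ℤ))) +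
      (F.D k : ℤ) * (4 * g) = 2 * (A + 2 * g * D) * C.w k := by exact_mod_cast h6
  rw [w4, ← Finset.sum_mul, ← Finset.sum_mul]
  linear_combination (sg (C.H v.1 k)) * h7 +
    (wt2 C F G A A' g D E k (Sum.inr (Sum.inr (Sum.inr false))) : ℤ) * p4

/-- contribution of the thin line of the vertex -/
theorem grp_thin (hC : C.Good) (hF : CelOk C F D E) (ho : ∀ k, 0 ≤ o k)
    (hG : GOk G F' R ρ Γ θ η s' Z' A A' g D' E') (hθ : 0 < θ) (hη : 0 < η)
    (hS : SigOk C F o G r θ η ε ρ Γ R s' A A' g D E) (v : υ × ν) :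
    grp C F o G θ η ε R s' A A' g D E v (C.q v.1)
      = (∑ b, (G.wQ b : ℤ) * sg (G.oQ b - (G.L.x v.2 + η * G.L.y v.2)))
        + ∑ j, (G.L.w j : ℤ) * sg (G.L.H v.2 j) := by
  classical
  unfold grp
  rw [sum_pr]
  have t1 : C.Thin (C.q v.1) := ⟨v.1, rfl⟩
  have t2 := hC.not_thick v.1
  have p4 := farpads_zero ho hS v (hF.nq v.1)
  have w4 : wt2 C F G A A' g D E (C.q v.1) (Sum.inr (Sum.inr (Sum.inr true))) =
    wt2 C F G A A' g D E (C.q v.1) (Sum.inr (Sum.inr (Sum.inr false))) := rfl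
  have w3 : wt2 C F G A A' g D E (C.q v.1) (Sum.inr (Sum.inr (Sum.inl true))) =
    wt2 C F G A A' g D E (C.q v.1) (Sum.inr (Sum.inr (Sum.inl false))) := rfl
  have w1 : ∀ b, wt2 C F G A A' g D E (C.q v.1) (Sum.inl b) = G.wQ b := fun b => by
    simp only [wt2, if_pos t1]
  have w2 : ∀ b, wt2 C F G A A' g D E (C.q v.1) (Sum.inr (Sum.inl b)) = 0 := fun b => by
    simp only [wt2, if_neg t2]
  have h2 : ∑ u ∈ Finset.univ.filter (fun u => C.q u = C.q v.1), ∑ j, (satW G g j : ℤ) *
      sg ((ins2 C F o G θ η ε R s' A A' g D E).H v (Sum.inr (u, j)))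
      = ∑ j, (G.L.w j : ℤ) * sg (G.L.H v.2 j) := by
    rw [Finset.sum_eq_single_of_mem v.1 (by simp only [Finset.mem_filter, Finset.mem_univ, and_self])]
    · exact fans_own hC hG hθ hη hS v
    · intro u hu hu'
      exact fans_zero hG hθ hS v u hu'
        (Or.inl (by simpa only [Finset.mem_filter, Finset.mem_univ, true_and] using hu))
  rw [h2, w4, w3, (hS.thinN v true).1, (hS.thinN v false).1]
  simp only [w1, w2, (hS.thinQ v _).1, bs, Nat.cast_zero, zero_mul, Finset.sum_const_zero,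
    if_true, Bool.false_eq_true, if_false]
  linear_combination
    (wt2 C F G A A' g D E (C.q v.1) (Sum.inr (Sum.inr (Sum.inr false))) : ℤ) * p4

/-- contribution of the thick line of the vertex -/
theorem grp_thick (hC : C.Good) (hF : CelOk C F D E) (ho : ∀ k, 0 ≤ o k)
    (hS : SigOk C F o G r θ η ε ρ Γ R s' A A' g D E) (v : υ × ν) :
    grp C F o G θ η ε R s' A A' g D E v (C.p v.1)
      = ∑ b, (G.wP b : ℤ) * sg (G.L.x v.2 + G.oP b) := by
  classical
  unfold grp
  rw [sum_pr]
  have t1 : C.Thick (C.p v.1) := ⟨v.1, rfl⟩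
  have t2 := hC.not_thin v.1
  have p4 := farpads_zero ho hS v (hF.np v.1)
  have w4 : wt2 C F G A A' g D E (C.p v.1) (Sum.inr (Sum.inr (Sum.inr true))) =
    wt2 C F G A A' g D E (C.p v.1) (Sum.inr (Sum.inr (Sum.inr false))) := rfl
  have w3 : wt2 C F G A A' g D E (C.p v.1) (Sum.inr (Sum.inr (Sum.inl true))) =
    wt2 C F G A A' g D E (C.p v.1) (Sum.inr (Sum.inr (Sum.inl false))) := rfl
  have w1 : ∀ b, wt2 C F G A A' g D E (C.p v.1) (Sum.inl b) = 0 := fun b => by
    simp only [wt2, if_neg t2]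
  have w2 : ∀ b, wt2 C F G A A' g D E (C.p v.1) (Sum.inr (Sum.inl b)) = G.wP b := fun b => by
    simp only [wt2, if_pos t1]
  have h2 : Finset.univ.filter (fun u => C.q u = C.p v.1) = ∅ := by
    rw [Finset.filter_eq_empty_iff]
    intro u _
    exact hC.bip u v.1
  rw [h2, Finset.sum_empty, add_zero, w4, w3, (hS.thickN v true).1, (hS.thickN v false).1]
  simp only [w1, w2, (hS.thickP v _).1, bs, Nat.cast_zero, zero_mul, Finset.sum_const_zero,
    if_true, Bool.false_eq_true, if_false]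
  linear_combination
    (wt2 C F G A A' g D E (C.p v.1) (Sum.inr (Sum.inr (Sum.inr false))) : ℤ) * p4

/-- the new vertices are halving -/
theorem ins2_bal (hC : C.Good) (hF : CelOk C F D E) (ho : ∀ k, 0 ≤ o k)
    (hG : GOk G F' R ρ Γ θ η s' Z' A A' g D' E') (hθ : 0 < θ) (hη : 0 < η)
    (hS : SigOk C F o G r θ η ε ρ Γ R s' A A' g D E) (v : υ × ν) :
    ∑ k, ((ins2 C F o G θ η ε R s' A A' g D E).w k : ℤ) *
      sg ((ins2 C F o G θ η ε R s' A A' g D E).H v k) = 0 := by
  classical
  rw [Fintype.sum_sum_type, Fintype.sum_prod_type, Fintype.sum_prod_type]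
  have e1 : ∀ k b, (ins2 C F o G θ η ε R s' A A' g D E).w (Sum.inl (k, b)) =
    wt2 C F G A A' g D E k b := fun k b => rfl
  have e2 : ∀ u j, (ins2 C F o G θ η ε R s' A A' g D E).w (Sum.inr (u, j)) = satW G g j :=
    fun u j => rfl
  simp only [e1, e2]
  rw [sum_fib _ C, ← Finset.sum_add_distrib]
  have hqp : C.q v.1 ≠ C.p v.1 := hC.bip _ _
  change ∑ k, grp C F o G θ η ε R s' A A' g D E v k = 0
  -- subtract the balanced sums of `C`
  have h1 : ∑ k, (grp C F o G θ η ε R s' A A' g D E v k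
        - (2 * (A + 2 * g * (D + E)) * ((C.w k : ℤ) * sg (C.H v.1 k))
          - 4 * g * E * (if F.nr (F.c v.1) k then (C.w k : ℤ) * sg (C.H v.1 k) else 0)))
      = grp C F o G θ η ε R s' A A' g D E v (C.q v.1)
        + grp C F o G θ η ε R s' A A' g D E v (C.p v.1) := by
    have h2 : ∑ k, (grp C F o G θ η ε R s' A A' g D E v k
        - (2 * (A + 2 * g * (D + E)) * ((C.w k : ℤ) * sg (C.H v.1 k))
          - 4 * g * E * (if F.nr (F.c v.1) k then (C.w k : ℤ) * sg (C.H v.1 k) else 0)))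
      = (grp C F o G θ η ε R s' A A' g D E v (C.q v.1)
        - (2 * (A + 2 * g * (D + E)) * ((C.w (C.q v.1) : ℤ) * sg (C.H v.1 (C.q v.1)))
          - 4 * g * E * (if F.nr (F.c v.1) (C.q v.1) then
            (C.w (C.q v.1) : ℤ) * sg (C.H v.1 (C.q v.1)) else 0)))
        + (grp C F o G θ η ε R s' A A' g D E v (C.p v.1)
        - (2 * (A + 2 * g * (D + E)) * ((C.w (C.p v.1) : ℤ) * sg (C.H v.1 (C.p v.1)))
          - 4 * g * E * (if F.nr (F.c v.1) (C.p v.1) then
            (C.w (C.p v.1) : ℤ) * sg (C.H v.1 (C.p v.1)) else 0))) := by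
      apply Fintype.sum_eq_add _ _ hqp
      rintro k ⟨hk, hk'⟩
      rw [sub_eq_zero]
      by_cases hn : F.nr (F.c v.1) k
      · rw [grp_near hC hF ho hG hθ hS v k hk hk' hn, if_pos hn]
        ring
      · rw [grp_far hC hF hG hS v k hk hk' hn, if_neg hn]
        ring
    rw [h2, hC.on_q, hC.on_p, sg_zero]
    simp
  rw [Finset.sum_sub_distrib, Finset.sum_sub_distrib, ← Finset.mul_sum, ← Finset.mul_sum,
    hC.bal v.1] at h1
  have h3 : ∑ k, (if F.nr (F.c v.1) k then (C.w k : ℤ) * sg (C.H v.1 k) else 0) = 0 :=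
    hF.baln v.1
  rw [h3, grp_thin hC hF ho hG hθ hη hS v, grp_thick hC hF ho hS v] at h1
  have h4 := hG.bal v.2
  linarith only [h1, h4]

/-- the new configuration is good -/
theorem ins2_good (hC : C.Good) (hF : CelOk C F D E) (hQ : QOk C F o z r S T θ W U s Z B)
    (hG : GOk G F' R ρ Γ θ η s' Z' A A' g D' E') (P : Par2 R ρ r S T θ η ε)
    (hS : SigOk C F o G r θ η ε ρ Γ R s' A A' g D E) :
    (ins2 C F o G θ η ε R s' A A' g D E).Good where
  on_q := fun v => by
    have h := ins2_H_gad (F := F) (o := o) (θ := θ) (η := η) (ε := ε) (R := R) (s' := s')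
      (A := A) (A' := A') (g := g) (D := D) (E := E) (G := G) hC v (G.L.q v.2)
    rw [hG.on_q, mul_zero] at h
    exact h
  on_p := fun v => by
    have h := ins2_H_gad (F := F) (o := o) (θ := θ) (η := η) (ε := ε) (R := R) (s' := s')
      (A := A) (A' := A') (g := g) (D := D) (E := E) (G := G) hC v (G.L.p v.2)
    rw [hG.on_p, mul_zero] at h
    exact h
  ne := fun v => by
    rw [ins2_Δ]
    have h2 := hG.lo v.2
    have h4 := hG.s0
    have h3 : G.L.Δ v.2 ≠ 0 := by
      rw [← abs_pos]; linarith only [h2, h4]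
    exact mul_ne_zero (mul_ne_zero (mul_ne_zero P.θ0.ne' P.η0.ne') (hC.ne _)) h3
  w_q := fun v => hG.w_q v.2
  w_p := fun v => hG.w_p v.2
  bip := fun v v' h => by
    simp only [ins2, Sum.inr.injEq, Prod.mk.injEq, Sum.inl.injEq] at h
    exact hG.bip _ _ h.2
  inj := fun v v' h h' => by
    simp only [ins2, Sum.inr.injEq, Prod.mk.injEq, Sum.inl.injEq] at h h'
    exact Prod.ext h.1 (hG.inj _ _ h.2 h'.2)
  off := by
    intro v k hk hk'
    have e0 := hS.e0 v.1
    have hρ := P.ρ0
    have θ0 := P.θ0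
    have hR := P.R1
    rw [← abs_pos]
    -- far pads of near lines with a positive offset
    have key : ∀ (k : ι) (b : Bool), F.nr (F.c v.1) k → 0 < o k →
        0 < |(ins2 C F o G θ η ε R s' A A' g D E).H v
          (Sum.inl (k, Sum.inr (Sum.inr (Sum.inr b))))| := by
      intro k b hn ho
      have h1 := abs_ge_of_close (hS.farN v k b hn)
      have h2 : |(bs b : ℝ) * o k| = o k := by
        rw [abs_mul, abs_of_pos ho]
        cases b <;> simp [bs]
      rw [h2] at h1
      linarith only [h1, ho]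
    rcases k with ⟨k, b⟩ | ⟨u, j⟩
    · by_cases h1 : k = C.q v.1
      · subst h1
        rcases b with b | b | b | b
        · exact lt_of_lt_of_le (by positivity) (hS.thinQ v b).2
        · exact lt_of_lt_of_le (by positivity) (hS.thinP v b)
        · exact lt_of_lt_of_le (by positivity) (hS.thinN v b).2
        · apply key _ b (hF.nq v.1)
          exact lt_of_lt_of_le (mul_pos P.r0 (hQ.σ_pos v.1)) (hQ.oq v.1)
      · by_cases h2 : k = C.p v.1
        · subst h2
          rcases b with b | b | b | b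
          · exact lt_of_lt_of_le (by positivity) (hS.thickQ v b)
          · exact lt_of_lt_of_le (by positivity) (hS.thickP v b).2
          · exact lt_of_lt_of_le (by positivity) (hS.thickN v b).2
          · apply key _ b (hF.np v.1)
            exact lt_of_lt_of_le (mul_pos P.r0 (hQ.σ_pos v.1)) (hQ.op v.1)
        · have h5 := abs_pos.2 (hC.off v.1 k h1 h2)
          have h6 : ∀ b : Pr βQ βP, (∀ f, b ≠ Sum.inr (Sum.inr (Sum.inr f))) →
              0 < |(ins2 C F o G θ η ε R s' A A' g D E).H v (Sum.inl (k, b))| := by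
            intro b hb
            have h4 := abs_ge_of_close (hS.par v k b hb h1 h2)
            linarith only [h4, h5]
          rcases b with b | b | b | b
          · exact h6 _ (by simp)
          · exact h6 _ (by simp)
          · exact h6 _ (by simp)
          · by_cases hn : F.nr (F.c v.1) k
            · apply key _ b hn
              have := hQ.o1 v.1 k hn
              linarith only [this, h5]
            · have h4 := abs_ge_of_close (hS.farF v k b hn)
              linarith only [h4, h5]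
    · by_cases h1 : u = v.1
      · subst h1
        rcases j with j | j
        · have h3 : j ≠ G.L.q v.2 := by
            rintro rfl
            exact hk rfl
          have h4 : j ≠ G.L.p v.2 := by
            rintro rfl
            exact hk' rfl
          have h5 := hS.ownG v j h3 h4
          have h6 : 0 < θ * η * C.e ε v.1 := mul_pos (mul_pos P.θ0 P.η0) e0
          have h7 : 0 < Γ * |(ins2 C F o G θ η ε R s' A A' g D E).H v (Sum.inr (v.1, Sum.inl j))| :=
            lt_of_lt_of_le h6 h5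
          exact (mul_pos_iff_of_pos_left (lt_of_lt_of_le one_pos hG.Γ1)).1 h7
        · exact lt_of_lt_of_le (by positivity) (hS.ownF v j).2
      · have h2 := hS.fan2 v u j h1
        have h3 : 0 < θ * (r * C.σ (C.q u)) := mul_pos θ0 (mul_pos P.r0 (hQ.σ_pos u))
        linarith only [h2, h3]
  bal := ins2_bal hC hF hQ.o0 hG P.θ0 P.η0 hS

end bal

section cel

variable [Fintype ι] [Fintype υ] [Fintype κ] [Fintype ν] [Fintype βQ] [Fintype βP]
  {C : Cfg ι υ} {F : Cel ι υ γ} {o z : ι → ℝ} {G : Gad κ ν βQ βP} {F' : Cel κ ν γ'}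
  {R ρ Γ r S T θ η ε W U s Z B s' Z' : ℝ} {A A' g D E D' E' : ℕ}

/-- the cells of the new configuration -/
theorem ins2_cel (hC : C.Good) (hG : GOk G F' R ρ Γ θ η s' Z' A A' g D' E')
    (P : Par2 R ρ r S T θ η ε) (hS : SigOk C F o G r θ η ε ρ Γ R s' A A' g D E) :
    CelOk (ins2 C F o G θ η ε R s' A A' g D E) (cel2 F') D' E' where
  nq := fun v => ⟨rfl, hG.cel.nq v.2⟩
  np := fun v => ⟨rfl, hG.cel.np v.2⟩
  baln := by
    classical
    intro v
    rw [Fintype.sum_sum_type]
    have e1 : ∑ k : ι × Pr βQ βP, (if (cel2 (ι := ι) (υ := υ) (βQ := βQ) (βP := βP) F').nr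
        ((cel2 (ι := ι) (υ := υ) (βQ := βQ) (βP := βP) F').c v) (Sum.inl k) then
        ((ins2 C F o G θ η ε R s' A A' g D E).w (Sum.inl k) : ℤ) *
          sg ((ins2 C F o G θ η ε R s' A A' g D E).H v (Sum.inl k)) else 0) = 0 := by
      apply Finset.sum_eq_zero
      intro k _
      rw [if_neg]
      exact id
    rw [e1, zero_add, Fintype.sum_prod_type, Finset.sum_eq_single v.1]
    · rw [Fintype.sum_sum_type]
      have e2 : ∑ j : Bool, (if (cel2 (ι := ι) (υ := υ) (βQ := βQ) (βP := βP) F').nr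
          ((cel2 (ι := ι) (υ := υ) (βQ := βQ) (βP := βP) F').c v) (Sum.inr (v.1, Sum.inr j)) then
          ((ins2 C F o G θ η ε R s' A A' g D E).w (Sum.inr (v.1, Sum.inr j)) : ℤ) *
            sg ((ins2 C F o G θ η ε R s' A A' g D E).H v (Sum.inr (v.1, Sum.inr j))) else 0)
            = 0 := by
        apply Finset.sum_eq_zero
        intro k _
        rw [if_neg]
        exact id
      rw [e2, add_zero]
      refine Eq.trans ?_ (hG.cel.baln v.2)
      apply Finset.sum_congr rfl
      intro j _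
      have h1 : sg ((ins2 C F o G θ η ε R s' A A' g D E).H v (Sum.inr (v.1, Sum.inl j))) =
          sg (G.L.H v.2 j) := by
        rw [ins2_H_gad hC]
        exact sg_mul_pos (mul_pos (mul_pos P.θ0 P.η0) (hS.e0 v.1))
      rw [h1]
      by_cases hn : F'.nr (F'.c v.2) j
      · rw [if_pos hn, if_pos]
        · rfl
        · exact ⟨rfl, hn⟩
      · rw [if_neg hn]
        apply if_neg
        rintro ⟨_, h⟩
        exact hn h
    · intro u _ hu
      apply Finset.sum_eq_zero
      rintro (j | j) _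
      · rw [if_neg]
        exact fun h => hu h.1
      · rw [if_neg]
        exact id
    · intro h
      exact absurd (Finset.mem_univ _) h
  cnt := by
    classical
    rintro v (k | ⟨u, j | j⟩) hn
    · exact absurd hn id
    · obtain ⟨h1, h2⟩ : u = v.1 ∧ F'.nr (F'.c v.2) j := hn
      subst h1
      have h3 := hG.cel.cnt v.2 j h2
      show _ = F'.D j
      rw [← h3]
      apply Finset.card_bij (fun w _ => w.2)
      · intro w hw
        simp only [Finset.mem_filter, Finset.mem_univ, true_and, ins2, cel2, Sum.inr.injEq,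
          Prod.mk.injEq, Sum.inl.injEq] at hw ⊢
        exact ⟨hw.1.2, hw.2.2⟩
      · intro w hw w' hw' h
        simp only [Finset.mem_filter, Finset.mem_univ, true_and, ins2, cel2, Sum.inr.injEq,
          Prod.mk.injEq, Sum.inl.injEq] at hw hw'
        exact Prod.ext (hw.2.1.trans hw'.2.1.symm) h
      · intro w hw
        simp only [Finset.mem_filter, Finset.mem_univ, true_and] at hw
        refine ⟨(v.1, w), ?_, rfl⟩
        simp only [Finset.mem_filter, Finset.mem_univ, true_and, ins2, cel2, Sum.inr.injEq,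
          Prod.mk.injEq, Sum.inl.injEq]
        exact ⟨hw.1, hw.2⟩
    · exact absurd hn id
  Dle := by
    rintro (k | ⟨u, j | j⟩)
    · exact Nat.zero_le _
    · exact hG.cel.Dle j
    · exact Nat.zero_le _
  degle := by
    classical
    rintro (k | ⟨u, j | j⟩)
    · have : (ins2 C F o G θ η ε R s' A A' g D E).deg (Sum.inl k) = 0 := by
        apply deg_eq_zero
        rintro ⟨v, hv⟩
        simp only [ins2, reduceCtorEq] at hv
      omega
    · refine le_trans ?_ (hG.cel.degle j)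
      unfold Cfg.deg
      apply Finset.card_le_card_of_injOn (fun v => v.2)
      · intro v hv
        simp only [ins2, Finset.coe_filter, Finset.mem_univ, true_and, Set.mem_setOf_eq,
          Sum.inr.injEq, Prod.mk.injEq, Sum.inl.injEq] at hv ⊢
        exact hv.2
      · intro v hv v' hv' h
        simp only [ins2, Sum.inr.injEq, Prod.mk.injEq, Sum.inl.injEq, Finset.coe_filter,
          Finset.mem_univ, true_and, Set.mem_setOf_eq] at hv hv'
        exact Prod.ext (hv.1.trans hv'.1.symm) h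
    · have : (ins2 C F o G θ η ε R s' A A' g D E).deg (Sum.inr (u, Sum.inr j)) = 0 := by
        apply deg_eq_zero
        rintro ⟨v, hv⟩
        simp only [ins2, Sum.inr.injEq, Prod.mk.injEq, reduceCtorEq, and_false] at hv
      omega

end cel

/-- block P1 -/
theorem bal : BalStmt := by
  intro ι υ γ κ ν βQ βP γ' _ _ _ _ _ _ C F o z G F' R ρ Γ r S T θ η ε W U s Z B s' Z' A A' g D E
    D' E' hC hF hQ hG P hS
  exact ⟨ins2_good hC hF hQ hG P hS, ins2_cel hC hG P hS, ins2_wt hC hF hG⟩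

end Vale.Agent.P065.W
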