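import Mathlib
import Vale.Agent.P065.W.Defs

/-!
P065, wide fans, block B: the base configuration (8 lines, 9 used vertices).
-/

set_option linter.all false

namespace Vale.Agent.P065.W

open Vale.Agent.P065

/-! ### the base configuration -/

theorem base_tol_x (v v' : Fin 9) : |baseC.x v - baseC.x v'| ≤ 5 / 12 := by
  have h : ∀ v : Fin 9, -(5 / 24 : ℝ) ≤ baseC.x v ∧ baseC.x v ≤ 5 / 24 := by
    intro v
    fin_cases v <;> norm_num [baseC]
  obtain ⟨a1, a2⟩ := h v
  obtain ⟨b1, b2⟩ := h v'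
  rw [abs_le]
  constructor <;> linarith only [a1, a2, b1, b2]

theorem base_Δ (v : Fin 9) : 24 ≤ |baseC.Δ v| ∧ |baseC.Δ v| ≤ 88 := by
  have h : ∀ v : Fin 9, 24 ≤ |baseA ((![2, 6, 7, 1, 2, 2, 6, 4, 6] : Fin 9 → Fin 8) v) -
     baseA ((![0, 0, 0, 3, 3, 5, 3, 5, 5] : Fin 9 → Fin 8) v)| ∧
     |baseA ((![2, 6, 7, 1, 2, 2, 6, 4, 6] : Fin 9 → Fin 8) v) -
     baseA ((![0, 0, 0, 3, 3, 5, 3, 5, 5] : Fin 9 → Fin 8) v)| ≤ 88 := by decide
  unfold Cfg.Δ
  rw [baseA_eq, baseA_eq]
  exact_mod_cast h v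

theorem IC2_base : IC2 4 3 9 143 36 5 200 24 88 := by
  refine ⟨Fin 8, Fin 9, inferInstance, inferInstance, baseC, baseA, baseC_good, ?_, ?_, ?_, ?_,
    ?_, baseT_off', ?_, ?_, ?_, ?_, ?_, ?_⟩
  · exact baseA_eq
  · decide
  · intro k
    fin_cases k <;> norm_num [baseC, abs_of_pos]
  · intro v
    fin_cases v <;> norm_num [baseC, abs_of_pos, abs_of_neg]
  · intro v
    fin_cases v <;> norm_num [baseC, abs_of_pos, abs_of_neg]
  · intro v v' hne
    have h1 := baseT_off' v (baseC.q v') hne (baseC_good.bip v' v)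
    have h2 := base_tol_x v v'
    have h3 := (base_Δ v').2
    have h4 : |baseC.Δ v'| * |baseC.x v - baseC.x v'| ≤ 88 * (5 / 12) :=
      mul_le_mul h3 h2 (abs_nonneg _) (by norm_num)
    linarith only [h1, h4]
  · intro v; exact (base_Δ v).1
  · intro v; exact (base_Δ v).2
  · intro k
    classical
    have : ∀ k : Fin 8, (Finset.univ.filter
      (fun v => (![0, 0, 0, 3, 3, 5, 3, 5, 5] : Fin 9 → Fin 8) v = k)).card ≤ 3 := by decide
    refine le_trans (le_of_eq ?_) (this k)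
    unfold Cfg.deg
    congr
  · simp only [Cfg.wt, baseC, Fin.isValue, one_div, Finset.sum_const, Finset.card_univ,
      Fintype.card_fin, smul_eq_mul, mul_one, Nat.reduceMul]
  · simp

theorem base : BaseStmt2 := by
  refine ⟨2, 8, 8, 8, 2, 2, by norm_num, by norm_num, by norm_num, by norm_num, by norm_num,
    by norm_num, 4, 3, 9, 143, 36, 5, 200, 24, 88, IC2_base, by norm_num, ?_, by norm_num, ?_,
    by norm_num, by norm_num, ?_, by norm_num, ?_, by norm_num, by norm_num, ?_, by norm_num, ?_, ?_⟩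
  · norm_num
  · norm_num
  · norm_num
  · norm_num
  · norm_num
  · norm_num
  · rw [Real.rpow_logb (by norm_num) (by norm_num) (by norm_num)]
    norm_num

end Vale.Agent.P065.W
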