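import Vale.Agent.P065.W.Ins

/-!
P065, wide fans: the clearances of the configuration with inserted gadgets (block P2b).
-/

set_option linter.all false

namespace Vale.Agent.P065.W

open Vale.Agent.P065

theorem clear_key {ρ r S R Γ X M h : ℝ} (hρ : 0 < ρ) (hS : 1 ≤ S) (hR : 1 ≤ R) (hΓ : 1 ≤ Γ)
    (h1 : r * M ≤ 128 * R ^ 2 * S ^ 2 * X) (h2 : ρ * X ≤ 2 * Γ * h) :
    ρ * r / (256 * S ^ 2 * R ^ 2 * Γ) * M ≤ h := by
  have h0 : 0 < 256 * S ^ 2 * R ^ 2 * Γ := by positivity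
  rw [div_mul_eq_mul_div, div_le_iff₀ h0]
  have h3 : ρ * (r * M) ≤ ρ * (128 * R ^ 2 * S ^ 2 * X) := mul_le_mul_of_nonneg_left h1 hρ.le
  have h4 : 128 * R ^ 2 * S ^ 2 * (ρ * X) ≤ 128 * R ^ 2 * S ^ 2 * (2 * Γ * h) :=
    mul_le_mul_of_nonneg_left h2 (by positivity)
  calc ρ * r * M = ρ * (r * M) := by ring
    _ ≤ ρ * (128 * R ^ 2 * S ^ 2 * X) := h3
    _ = 128 * R ^ 2 * S ^ 2 * (ρ * X) := by ring
    _ ≤ 128 * R ^ 2 * S ^ 2 * (2 * Γ * h) := h4
    _ = h * (256 * S ^ 2 * R ^ 2 * Γ) := by ring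

theorem clear_key1 {ρ r S R Γ M h : ℝ} (hρ : 0 < ρ) (hρ1 : ρ ≤ 1 / 8) (hS : 1 ≤ S) (hR : 1 ≤ R)
    (hΓ : 1 ≤ Γ) (h0 : 0 ≤ h) (h1 : r * M ≤ 32 * S * h) :
    ρ * r / (256 * S ^ 2 * R ^ 2 * Γ) * M ≤ h := by
  apply clear_key (X := h) hρ hS hR hΓ
  · have h2 : 1 ≤ R ^ 2 := one_le_pow₀ hR
    have h3 : S ≤ S ^ 2 := by nlinarith
    have h4 : 0 ≤ S ^ 2 * h := by positivity
    have h5 : S * h ≤ S ^ 2 * h := mul_le_mul_of_nonneg_right h3 h0
    have h6 : S ^ 2 * h ≤ R ^ 2 * (S ^ 2 * h) := le_mul_of_one_le_left h4 h2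
    have h7 : 0 ≤ S * h := by positivity
    nlinarith
  · have h2 : ρ * h ≤ 1 / 8 * h := mul_le_mul_of_nonneg_right hρ1 h0
    have h3 : h ≤ Γ * h := le_mul_of_one_le_left h0 hΓ
    nlinarith


section

variable {ι υ γ κ ν βQ βP γ' : Type} [Fintype ι] [Fintype υ] [Fintype κ] [Fintype ν]
  [Fintype βQ] [Fintype βP] {C : Cfg ι υ} {F : Cel ι υ γ} {o z : ι → ℝ} {G : Gad κ ν βQ βP}
  {F' : Cel κ ν γ'} {R ρ Γ r S T θ η ε W U s Z B s' Z' : ℝ} {A A' g D E D' E' : ℕ}

/-- everything that is needed for one new vertex and one new line -/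
def ClearOne (K : Cfg ((ι × Pr βQ βP) ⊕ (υ × (κ ⊕ Bool))) (υ × ν)) (a : ℝ) (v : υ × ν)
    (k : (ι × Pr βQ βP) ⊕ (υ × (κ ⊕ Bool))) : Prop :=
  ∃ M0, |K.m k - K.m (K.q v)| ≤ M0 ∧ K.σ (K.q v) ≤ M0 ∧ K.σ k ≤ M0 ∧ a * M0 ≤ |K.H v k|

omit [Fintype ι] [Fintype υ] in
theorem clear_σq1 (hG : GOk G F' R ρ Γ θ η s' Z' A A' g D' E') (hθ : 0 < θ) (u : υ) :
    θ * η * |C.Δ u| * s' / 2 ≤ θ * |C.Δ u| / 8 := by
  have h1 := mul_le_mul_of_nonneg_left hG.ηs (by positivity : (0:ℝ) ≤ θ * |C.Δ u|)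
  nlinarith

omit [Fintype ι] [Fintype υ] in
theorem clear_σq2 (hG : GOk G F' R ρ Γ θ η s' Z' A A' g D' E') (hθ : 0 < θ) (v : υ) (n : ν) :
    θ * η * |C.Δ v| * s' / 2 ≤ 2 * R * (θ * η * |C.Δ v|) := by
  have hη := hG.η0
  have h1 := hG.lo n
  have h2 : |G.L.Δ n| ≤ 2 * R := by
    have h3 := abs_sub (G.L.m (G.L.p n)) (G.L.m (G.L.q n))
    have h4 := hG.mb (G.L.p n)
    have h5 := hG.mb (G.L.q n)
    simp only [Cfg.Δ]
    linarith
  have h6 : s' ≤ 4 * R := by linarith
  have h7 := mul_le_mul_of_nonneg_left h6 (by positivity : (0:ℝ) ≤ θ * η * |C.Δ v|)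
  nlinarith

theorem clear_re (P : Par2 R ρ r S T θ η ε) (v : υ) :
    r * C.σ (C.q v) = 64 * S * R * C.e ε v := by
  rw [← P.εR, Cfg.e]; ring

theorem clear_hM (hθ : 0 < θ) (n : ν) (v : υ) (k : ι)
    (c1 : |satC G η (Sum.inl (G.L.q n))| ≤ 5 / 4) :
    |C.m k - (C.m (C.q v) + θ * C.Δ v * satC G η (Sum.inl (G.L.q n)))| ≤
          |C.m k - C.m (C.q v)| + 5 / 4 * (θ * |C.Δ v|) := by
  have e1 : C.m k - (C.m (C.q v) + θ * C.Δ v * satC G η (Sum.inl (G.L.q n))) =
    (C.m k - C.m (C.q v)) - θ * C.Δ v * satC G η (Sum.inl (G.L.q n)) := by ring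
  rw [e1]
  refine (abs_sub _ _).trans ?_
  rw [abs_mul, abs_mul, abs_of_pos hθ]
  have := mul_le_mul_of_nonneg_left c1 (by positivity : (0:ℝ) ≤ θ * |C.Δ v|)
  linarith

theorem clear_gen (Q : QOk C F o z r S T θ W U s Z B)
    (hG : GOk G F' R ρ Γ θ η s' Z' A A' g D' E') (P : Par2 R ρ r S T θ η ε)
    (sig : SigOk C F o G r θ η ε ρ Γ R s' A A' g D E) (v : υ) (n : ν) (k : ι) (b : Pr βQ βP)
    (hq : k ≠ C.q v) (hp : k ≠ C.p v)
    (h2 : |C.H v k| ≤
      2 * |(ins2 C F o G θ η ε R s' A A' g D E).H (v, n) (Sum.inl (k, b))|) :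
    ClearOne (ins2 C F o G θ η ε R s' A A' g D E) (ρ * r / (256 * S ^ 2 * R ^ 2 * Γ)) (v, n)
      (Sum.inl (k, b)) := by
  have hρ := P.ρ0
  have hρ1 := P.ρ1
  have hS := P.S1
  have hR := P.R1
  have hΓ := hG.Γ1
  have hr := P.r0
  have hθ := P.θ0
  have hθ1 := P.θ1
  have hσ : 0 < C.σ (C.q v) := Q.σ_pos v
  have hd : |C.Δ v| ≤ S * C.σ (C.q v) := Q.hi v
  have hd0 : 0 ≤ |C.Δ v| := abs_nonneg _
  have σ1 := clear_σq1 (C := C) hG hθ v
  have hM := clear_hM (C := C) hθ n v k (sig.satC2 (Sum.inl (G.L.q n)))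
  have dvS : θ * |C.Δ v| ≤ θ * (S * C.σ (C.q v)) := mul_le_mul_of_nonneg_left hd hθ.le
  have θSσ : 0 < θ * (S * C.σ (C.q v)) := by positivity
  refine ⟨|C.m k - C.m (C.q v)| + 2 * (θ * (S * C.σ (C.q v))), ?_, ?_, ?_, ?_⟩
  · refine hM.trans ?_
    linarith
  · refine σ1.trans ?_
    linarith [abs_nonneg (C.m k - C.m (C.q v))]
  · have : (0:ℝ) ≤ |C.m k - C.m (C.q v)| + 2 * (θ * (S * C.σ (C.q v))) := by positivity
    exact this
  · apply clear_key1 hρ hρ1 hS hR hΓ (abs_nonneg _)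
    have h3 := Q.h1 v k hq hp
    have h4 := Q.h2 v k hq hp
    have h5 : S * (r * C.σ (C.q v)) ≤ S * |C.H v k| :=
      mul_le_mul_of_nonneg_left h4 (by linarith)
    have h6 : θ * (S * (r * C.σ (C.q v))) ≤ 1 / 64 * (S * |C.H v k|) :=
      mul_le_mul hθ1 h5 (by positivity) (by norm_num)
    have h7 : |C.H v k| ≤ S * |C.H v k| := le_mul_of_one_le_left (abs_nonneg _) hS
    have h8 := mul_le_mul_of_nonneg_left h2 (by linarith : (0:ℝ) ≤ S)
    generalize |(ins2 C F o G θ η ε R s' A A' g D E).H (v, n) (Sum.inl (k, b))| = X at *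
    have h9 : 0 ≤ X := by linarith [abs_nonneg (C.H v k)]
    have h10 : 0 ≤ S * X := by positivity
    have h11 : 0 ≤ S * |C.H v k| := by positivity
    have e1 : r * (|C.m k - C.m (C.q v)| + 2 * (θ * (S * C.σ (C.q v)))) =
      r * |C.m k - C.m (C.q v)| + 2 * (θ * (S * (r * C.σ (C.q v)))) := by ring
    rw [e1]
    linarith

/-- far pads -/
theorem clear_far (hF : CelOk C F D E) (Q : QOk C F o z r S T θ W U s Z B)
    (hG : GOk G F' R ρ Γ θ η s' Z' A A' g D' E') (P : Par2 R ρ r S T θ η ε)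
    (sig : SigOk C F o G r θ η ε ρ Γ R s' A A' g D E) (v : υ) (n : ν) (k : ι) (f : Bool) :
    ClearOne (ins2 C F o G θ η ε R s' A A' g D E) (ρ * r / (256 * S ^ 2 * R ^ 2 * Γ)) (v, n)
      (Sum.inl (k, Sum.inr (Sum.inr (Sum.inr f)))) := by
  by_cases hn : F.nr (F.c v) k
  · have h1 := sig.farN (v, n) k f hn
    have o0 : 0 ≤ o k := Q.o0 k
    have h2 : o k / 2 ≤ |(ins2 C F o G θ η ε R s' A A' g D E).H (v, n)
        (Sum.inl (k, Sum.inr (Sum.inr (Sum.inr f))))| := by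
      have h3 : |(bs f : ℝ) * o k| = o k := by
        rw [abs_mul, abs_of_nonneg o0]
        cases f <;> simp [bs]
      have h4 := abs_sub_abs_le_abs_sub ((bs f : ℝ) * o k)
        ((ins2 C F o G θ η ε R s' A A' g D E).H (v, n)
          (Sum.inl (k, Sum.inr (Sum.inr (Sum.inr f)))))
      rw [h3, abs_sub_comm] at h4
      linarith
    by_cases hq : k = C.q v ∨ k = C.p v
    · have hρ := P.ρ0
      have hρ1 := P.ρ1
      have hS := P.S1
      have hR := P.R1
      have hΓ := hG.Γ1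
      have hθ := P.θ0
      have hθ1 := P.θ1
      have hσ : 0 < C.σ (C.q v) := Q.σ_pos v
      have hd : |C.Δ v| ≤ S * C.σ (C.q v) := Q.hi v
      have hd0 : 0 ≤ |C.Δ v| := abs_nonneg _
      have σ1 := clear_σq1 (C := C) hG hθ v
      have hM := clear_hM (C := C) hθ n v k (sig.satC2 (Sum.inl (G.L.q n)))
      have dvθ : θ * |C.Δ v| ≤ 1 / 64 * |C.Δ v| := mul_le_mul_of_nonneg_right hθ1 hd0
      have h5 : r * C.σ (C.q v) ≤ o k := by
        rcases hq with rfl | rfl
        · exact Q.oq v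
        · exact Q.op v
      have h6 : |C.m k - C.m (C.q v)| ≤ |C.Δ v| := by
        rcases hq with rfl | rfl
        · simp
        · exact le_refl _
      refine ⟨2 * (S * C.σ (C.q v)), ?_, ?_, ?_, ?_⟩
      · refine hM.trans ?_
        linarith
      · refine σ1.trans ?_
        linarith
      · have : (0:ℝ) ≤ 2 * (S * C.σ (C.q v)) := by positivity
        exact this
      · apply clear_key1 hρ hρ1 hS hR hΓ (abs_nonneg _)
        generalize |(ins2 C F o G θ η ε R s' A A' g D E).H (v, n)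
          (Sum.inl (k, Sum.inr (Sum.inr (Sum.inr f))))| = X at *
        have h7 : S * (r * C.σ (C.q v)) ≤ S * (2 * X) :=
          mul_le_mul_of_nonneg_left (by linarith) (by linarith)
        have h8 : 0 ≤ X := by linarith
        have h9 : 0 ≤ S * X := by positivity
        have e1 : r * (2 * (S * C.σ (C.q v))) = 2 * (S * (r * C.σ (C.q v))) := by ring
        rw [e1]
        linarith
    · push Not at hq
      apply clear_gen Q hG P sig v n k _ hq.1 hq.2
      have h5 := Q.o1 v k hn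
      have := abs_nonneg (C.H v k)
      linarith
  · have h1 := sig.farF (v, n) k f hn
    have hq : k ≠ C.q v := fun h => hn (h ▸ hF.nq v)
    have hp : k ≠ C.p v := fun h => hn (h ▸ hF.np v)
    apply clear_gen Q hG P sig v n k _ hq hp
    have h4 := abs_sub_abs_le_abs_sub (C.H v k)
        ((ins2 C F o G θ η ε R s' A A' g D E).H (v, n)
          (Sum.inl (k, Sum.inr (Sum.inr (Sum.inr f)))))
    rw [abs_sub_comm] at h4
    simp only at h1
    linarith

/-- parallels that are not far pads -/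
theorem clear_par (Q : QOk C F o z r S T θ W U s Z B)
    (hG : GOk G F' R ρ Γ θ η s' Z' A A' g D' E') (P : Par2 R ρ r S T θ η ε)
    (sig : SigOk C F o G r θ η ε ρ Γ R s' A A' g D E) (v : υ) (n : ν) (k : ι) (b : Pr βQ βP)
    (hfar : ∀ f, b ≠ Sum.inr (Sum.inr (Sum.inr f))) :
    ClearOne (ins2 C F o G θ η ε R s' A A' g D E) (ρ * r / (256 * S ^ 2 * R ^ 2 * Γ)) (v, n)
      (Sum.inl (k, b)) := by
  have hρ := P.ρ0
  have hρ1 := P.ρ1
  have hS := P.S1
  have hR := P.R1
  have hΓ := hG.Γ1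
  have hθ := P.θ0
  have hθ1 := P.θ1
  have hσ : 0 < C.σ (C.q v) := Q.σ_pos v
  have hd : |C.Δ v| ≤ S * C.σ (C.q v) := Q.hi v
  have hd0 : 0 ≤ |C.Δ v| := abs_nonneg _
  have e0 : 0 < C.e ε v := sig.e0 v
  have re := clear_re (C := C) P v
  have σ1 := clear_σq1 (C := C) hG hθ v
  have hM := clear_hM (C := C) hθ n v k (sig.satC2 (Sum.inl (G.L.q n)))
  have dvθ : θ * |C.Δ v| ≤ 1 / 64 * |C.Δ v| := mul_le_mul_of_nonneg_right hθ1 hd0
  have dvS : θ * |C.Δ v| ≤ θ * (S * C.σ (C.q v)) := mul_le_mul_of_nonneg_left hd hθ.le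
  have θSσ : 0 < θ * (S * C.σ (C.q v)) := by positivity
  by_cases hq : k = C.q v
  · subst hq
    have h1 : θ * C.e ε v * ρ ≤
        |(ins2 C F o G θ η ε R s' A A' g D E).H (v, n) (Sum.inl (C.q v, b))| := by
      have hx : θ * C.e ε v * ρ ≤ C.e ε v * R := by
        have h3 : θ * ρ ≤ 1 * 1 := mul_le_mul (by linarith) (by linarith) hρ.le (by norm_num)
        have h4 : C.e ε v * (θ * ρ) ≤ C.e ε v * R :=
          mul_le_mul_of_nonneg_left (by linarith) e0.le
        linarith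
      rcases b with b | b | b | b
      · exact (sig.thinQ (v, n) b).2
      · exact hx.trans (sig.thinP (v, n) b)
      · exact hx.trans (sig.thinN (v, n) b).2
      · exact absurd rfl (hfar b)
    refine ⟨2 * (θ * (S * C.σ (C.q v))), ?_, ?_, ?_, ?_⟩
    · refine hM.trans ?_
      rw [sub_self, abs_zero]; linarith
    · refine σ1.trans ?_
      linarith
    · have : (0:ℝ) ≤ 2 * (θ * (S * C.σ (C.q v))) := by positivity
      exact this
    · apply clear_key (X := θ * C.e ε v) hρ hS hR hΓ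
      · have h2 : r * (2 * (θ * (S * C.σ (C.q v)))) = 128 * R * S ^ 2 * (θ * C.e ε v) := by
          linear_combination 2 * θ * S * re
        rw [h2]
        apply mul_le_mul_of_nonneg_right _ (by positivity)
        apply mul_le_mul_of_nonneg_right _ (by positivity)
        nlinarith
      · have h3 := le_mul_of_one_le_left (abs_nonneg
          ((ins2 C F o G θ η ε R s' A A' g D E).H (v, n) (Sum.inl (C.q v, b)))) hΓ
        have h4 := abs_nonneg
          ((ins2 C F o G θ η ε R s' A A' g D E).H (v, n) (Sum.inl (C.q v, b)))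
        linarith
  · by_cases hp : k = C.p v
    · subst hp
      have h1 : C.e ε v / 8 ≤
          |(ins2 C F o G θ η ε R s' A A' g D E).H (v, n) (Sum.inl (C.p v, b))| := by
        have hx : C.e ε v / 8 ≤ C.e ε v * R := by nlinarith
        rcases b with b | b | b | b
        · exact hx.trans (sig.thickQ (v, n) b)
        · exact (sig.thickP (v, n) b).2
        · exact hx.trans (sig.thickN (v, n) b).2
        · exact absurd rfl (hfar b)
      refine ⟨2 * (S * C.σ (C.q v)), ?_, ?_, ?_, ?_⟩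
      · refine hM.trans ?_
        have h6 : |C.m (C.p v) - C.m (C.q v)| ≤ |C.Δ v| := le_refl _
        linarith
      · refine σ1.trans ?_
        linarith
      · have : (0:ℝ) ≤ 2 * (S * C.σ (C.q v)) := by positivity
        exact this
      · apply clear_key (X := C.e ε v) hρ hS hR hΓ
        · have h2 : r * (2 * (S * C.σ (C.q v))) = 128 * R * S ^ 2 * C.e ε v := by
            linear_combination 2 * S * re
          rw [h2]
          apply mul_le_mul_of_nonneg_right _ (by positivity)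
          apply mul_le_mul_of_nonneg_right _ (by positivity)
          nlinarith
        · have h3 := le_mul_of_one_le_left (abs_nonneg
            ((ins2 C F o G θ η ε R s' A A' g D E).H (v, n) (Sum.inl (C.p v, b)))) hΓ
          have h4 := abs_nonneg
            ((ins2 C F o G θ η ε R s' A A' g D E).H (v, n) (Sum.inl (C.p v, b)))
          have h5 : ρ * C.e ε v ≤ 1 / 8 * C.e ε v := mul_le_mul_of_nonneg_right hρ1 e0.le
          linarith
    · apply clear_gen Q hG P sig v n k _ hq hp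
      have h1 := sig.par (v, n) k b hfar hq hp
      have h4 := abs_sub_abs_le_abs_sub (C.H v k)
        ((ins2 C F o G θ η ε R s' A A' g D E).H (v, n) (Sum.inl (k, b)))
      rw [abs_sub_comm] at h4
      simp only at h1
      have := abs_nonneg (C.H v k)
      linarith

/-- own gadget lines -/
theorem clear_ownG (Q : QOk C F o z r S T θ W U s Z B)
    (hG : GOk G F' R ρ Γ θ η s' Z' A A' g D' E') (P : Par2 R ρ r S T θ η ε)
    (sig : SigOk C F o G r θ η ε ρ Γ R s' A A' g D E) (u : υ) (n : ν) (j : κ)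
    (hjq : j ≠ G.L.q n) (hjp : j ≠ G.L.p n) :
    ClearOne (ins2 C F o G θ η ε R s' A A' g D E) (ρ * r / (256 * S ^ 2 * R ^ 2 * Γ)) (u, n)
      (Sum.inr (u, Sum.inl j)) := by
  have hρ := P.ρ0
  have hρ1 := P.ρ1
  have hS := P.S1
  have hR := P.R1
  have hΓ := hG.Γ1
  have hθ := P.θ0
  have hη := P.η0
  have hσ : 0 < C.σ (C.q u) := Q.σ_pos u
  have hd : |C.Δ u| ≤ S * C.σ (C.q u) := Q.hi u
  have hd0 : 0 ≤ |C.Δ u| := abs_nonneg _
  have e0 : 0 < C.e ε u := sig.e0 u
  have re := clear_re (C := C) P u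
  have σ2 := clear_σq2 (C := C) hG hθ u n
  have h1 := sig.ownG (u, n) j hjq hjp
  have h2 : 2 * R * (θ * η * |C.Δ u|) ≤ 2 * R * (θ * η * (S * C.σ (C.q u))) := by
    apply mul_le_mul_of_nonneg_left _ (by linarith)
    exact mul_le_mul_of_nonneg_left hd (by positivity)
  refine ⟨2 * R * (θ * η * (S * C.σ (C.q u))), ?_, ?_, ?_, ?_⟩
  · have e1 : (ins2 C F o G θ η ε R s' A A' g D E).m (Sum.inr (u, Sum.inl j)) -
        (ins2 C F o G θ η ε R s' A A' g D E).m
          ((ins2 C F o G θ η ε R s' A A' g D E).q (u, n)) =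
        θ * η * C.Δ u * (G.L.m j - G.L.m (G.L.q n)) := by
      simp only [ins2, Sum.elim_inr, satC]; ring
    rw [e1, abs_mul, abs_mul, abs_of_pos (mul_pos hθ hη)]
    have h3 := abs_sub (G.L.m j) (G.L.m (G.L.q n))
    have h4 := hG.mb j
    have h5 := hG.mb (G.L.q n)
    calc θ * η * |C.Δ u| * |G.L.m j - G.L.m (G.L.q n)|
        ≤ θ * η * |C.Δ u| * (2 * R) := by
          apply mul_le_mul_of_nonneg_left (by linarith) (by positivity)
      _ = 2 * R * (θ * η * |C.Δ u|) := by ring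
      _ ≤ _ := h2
  · exact σ2.trans h2
  · exact σ2.trans h2
  · apply clear_key (X := θ * η * C.e ε u) hρ hS hR hΓ
    · apply le_of_eq
      linear_combination 2 * R * θ * η * S * re
    · have h2 : ρ * (θ * η * C.e ε u) ≤ 1 * (θ * η * C.e ε u) :=
        mul_le_mul_of_nonneg_right (by linarith) (by positivity)
      have h3 : 0 ≤ Γ * |(ins2 C F o G θ η ε R s' A A' g D E).H (u, n)
        (Sum.inr (u, Sum.inl j))| := by positivity
      simp only at h1
      linarith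

/-- own pads -/
theorem clear_ownP (Q : QOk C F o z r S T θ W U s Z B)
    (hG : GOk G F' R ρ Γ θ η s' Z' A A' g D' E') (P : Par2 R ρ r S T θ η ε)
    (sig : SigOk C F o G r θ η ε ρ Γ R s' A A' g D E) (u : υ) (n : ν) (b : Bool) :
    ClearOne (ins2 C F o G θ η ε R s' A A' g D E) (ρ * r / (256 * S ^ 2 * R ^ 2 * Γ)) (u, n)
      (Sum.inr (u, Sum.inr b)) := by
  have hρ := P.ρ0
  have hρ1 := P.ρ1
  have hS := P.S1
  have hR := P.R1
  have hΓ := hG.Γ1
  have hθ := P.θ0
  have hη := P.η0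
  have hσ : 0 < C.σ (C.q u) := Q.σ_pos u
  have hd : |C.Δ u| ≤ S * C.σ (C.q u) := Q.hi u
  have hd0 : 0 ≤ |C.Δ u| := abs_nonneg _
  have e0 : 0 < C.e ε u := sig.e0 u
  have re := clear_re (C := C) P u
  have σ1 := clear_σq1 (C := C) hG hθ u
  have c1 := sig.satC2 (Sum.inl (G.L.q n))
  have c2 := sig.satC2 (Sum.inr b)
  have dvS : θ * |C.Δ u| ≤ θ * (S * C.σ (C.q u)) := mul_le_mul_of_nonneg_left hd hθ.le
  have θSσ : 0 < θ * (S * C.σ (C.q u)) := by positivity
  have h1 := (sig.ownF (u, n) b).2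
  refine ⟨4 * (θ * (S * C.σ (C.q u))), ?_, ?_, ?_, ?_⟩
  · have e1 : (ins2 C F o G θ η ε R s' A A' g D E).m (Sum.inr (u, Sum.inr b)) -
        (ins2 C F o G θ η ε R s' A A' g D E).m
          ((ins2 C F o G θ η ε R s' A A' g D E).q (u, n)) =
        θ * C.Δ u * (satC G η (Sum.inr b) - satC G η (Sum.inl (G.L.q n))) := by
      simp only [ins2, Sum.elim_inr]; ring
    rw [e1, abs_mul, abs_mul, abs_of_pos hθ]
    have h3 := abs_sub (satC G η (Sum.inr b)) (satC G η (Sum.inl (G.L.q n)))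
    calc θ * |C.Δ u| * |satC G η (Sum.inr b) - satC G η (Sum.inl (G.L.q n))|
        ≤ θ * (S * C.σ (C.q u)) * (5 / 2) := by
          apply mul_le_mul dvS (by linarith) (abs_nonneg _) (by positivity)
      _ ≤ _ := by linarith
  · refine σ1.trans ?_
    linarith
  · have : (0:ℝ) ≤ 4 * (θ * (S * C.σ (C.q u))) := by positivity
    exact this
  · apply clear_key (X := 2 * (θ * C.e ε u)) hρ hS hR hΓ
    · have h2 : r * (4 * (θ * (S * C.σ (C.q u)))) =
          128 * R * S ^ 2 * (2 * (θ * C.e ε u)) := by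
        linear_combination 4 * θ * S * re
      rw [h2]
      apply mul_le_mul_of_nonneg_right _ (by positivity)
      apply mul_le_mul_of_nonneg_right _ (by positivity)
      nlinarith
    · have h3 := le_mul_of_one_le_left (abs_nonneg
        ((ins2 C F o G θ η ε R s' A A' g D E).H (u, n) (Sum.inr (u, Sum.inr b)))) hΓ
      have h6 := abs_nonneg
        ((ins2 C F o G θ η ε R s' A A' g D E).H (u, n) (Sum.inr (u, Sum.inr b)))
      have h4 : θ * C.e ε u ≤ θ * C.e ε u * R :=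
        le_mul_of_one_le_right (by positivity) hR
      have h5 : ρ * (2 * (θ * C.e ε u)) ≤ 1 / 8 * (2 * (θ * C.e ε u)) :=
        mul_le_mul_of_nonneg_right hρ1 (by positivity)
      simp only at h1
      linarith

/-- satellites of other vertices -/
theorem clear_sat (hC : C.Good) (Q : QOk C F o z r S T θ W U s Z B)
    (hG : GOk G F' R ρ Γ θ η s' Z' A A' g D' E') (P : Par2 R ρ r S T θ η ε)
    (sig : SigOk C F o G r θ η ε ρ Γ R s' A A' g D E) (v : υ) (n : ν) (u : υ) (j : κ ⊕ Bool)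
    (huv : u ≠ v) :
    ClearOne (ins2 C F o G θ η ε R s' A A' g D E) (ρ * r / (256 * S ^ 2 * R ^ 2 * Γ)) (v, n)
      (Sum.inr (u, j)) := by
  have hρ := P.ρ0
  have hρ1 := P.ρ1
  have hS := P.S1
  have hR := P.R1
  have hΓ := hG.Γ1
  have hθ := P.θ0
  have hη := P.η0
  have hσ : 0 < C.σ (C.q v) := Q.σ_pos v
  have hd : |C.Δ v| ≤ S * C.σ (C.q v) := Q.hi v
  have hu : |C.Δ u| ≤ S * C.σ (C.q u) := Q.hi u
  have hσu : 0 < C.σ (C.q u) := Q.σ_pos u
  have σ1 := clear_σq1 (C := C) hG hθ v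
  have σ2 := clear_σq1 (C := C) hG hθ u
  have c1 := sig.satC2 (Sum.inl (G.L.q n))
  have c2 := sig.satC2 j
  have dvS : θ * |C.Δ v| ≤ θ * (S * C.σ (C.q v)) := mul_le_mul_of_nonneg_left hd hθ.le
  have duS : θ * |C.Δ u| ≤ θ * (S * C.σ (C.q u)) := mul_le_mul_of_nonneg_left hu hθ.le
  have p1 : 0 < θ * (S * C.σ (C.q v)) := by positivity
  have p2 : 0 < θ * (S * C.σ (C.q u)) := by positivity
  have f1 := sig.fan1 (v, n) u j huv
  have f2 := sig.fan2 (v, n) u j huv
  have f3 := sig.fan3 (v, n) u j huv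
  simp only at f1 f2 f3
  have hm : r * |C.m (C.q u) - C.m (C.q v)| ≤
      4 * |(ins2 C F o G θ η ε R s' A A' g D E).H (v, n) (Sum.inr (u, j))| := by
    have hh := abs_nonneg ((ins2 C F o G θ η ε R s' A A' g D E).H (v, n) (Sum.inr (u, j)))
    by_cases hq : C.q u = C.q v
    · rw [hq, sub_self, abs_zero, mul_zero]; linarith
    · have hp : C.q u ≠ C.p v := hC.bip u v
      refine (Q.h1 v (C.q u) hq hp).trans ?_
      by_cases hs : ¬ F.nr (F.c v) (C.q u) ∨ F.c u = F.c v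
      · have h1 := sig.fanS (v, n) u j hq hs
        have h4 := abs_sub_abs_le_abs_sub (C.H v (C.q u))
          ((ins2 C F o G θ η ε R s' A A' g D E).H (v, n) (Sum.inr (u, j)))
        rw [abs_sub_comm] at h4
        simp only at h1
        have := abs_nonneg (C.H v (C.q u))
        linarith
      · push Not at hs
        have h1 := Q.t2 v u hs.1 hs.2
        have := abs_nonneg (C.H v (C.q u))
        linarith
  refine ⟨|C.m (C.q u) - C.m (C.q v)| +
    2 * (θ * (S * C.σ (C.q u)) + θ * (S * C.σ (C.q v))), ?_, ?_, ?_, ?_⟩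
  · have e1 : (ins2 C F o G θ η ε R s' A A' g D E).m (Sum.inr (u, j)) -
        (ins2 C F o G θ η ε R s' A A' g D E).m
          ((ins2 C F o G θ η ε R s' A A' g D E).q (v, n)) =
        (C.m (C.q u) - C.m (C.q v)) + (θ * C.Δ u * satC G η j -
            θ * C.Δ v * satC G η (Sum.inl (G.L.q n))) := by
      simp only [ins2, Sum.elim_inr]; ring
    rw [e1]
    refine (abs_add_le _ _).trans ?_
    have h3 := abs_sub (θ * C.Δ u * satC G η j)
      (θ * C.Δ v * satC G η (Sum.inl (G.L.q n)))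
    have h4 : |θ * C.Δ u * satC G η j| ≤ θ * (S * C.σ (C.q u)) * (5 / 4) := by
      rw [abs_mul, abs_mul, abs_of_pos hθ]
      exact mul_le_mul duS c2 (abs_nonneg _) (by positivity)
    have h5 : |θ * C.Δ v * satC G η (Sum.inl (G.L.q n))| ≤
        θ * (S * C.σ (C.q v)) * (5 / 4) := by
      rw [abs_mul, abs_mul, abs_of_pos hθ]
      exact mul_le_mul dvS c1 (abs_nonneg _) (by positivity)
    linarith
  · refine σ1.trans ?_
    linarith [abs_nonneg (C.m (C.q u) - C.m (C.q v))]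
  · rcases j with j | j
    · refine σ2.trans ?_
      linarith [abs_nonneg (C.m (C.q u) - C.m (C.q v))]
    · have : (0:ℝ) ≤ |C.m (C.q u) - C.m (C.q v)| +
        2 * (θ * (S * C.σ (C.q u)) + θ * (S * C.σ (C.q v))) := by positivity
      exact this
  · apply clear_key1 hρ hρ1 hS hR hΓ (abs_nonneg _)
    generalize |(ins2 C F o G θ η ε R s' A A' g D E).H (v, n) (Sum.inr (u, j))| = X at *
    have h4 := mul_le_mul_of_nonneg_left f2 (by linarith : (0:ℝ) ≤ S)
    have h5 := mul_le_mul_of_nonneg_left f3 (by linarith : (0:ℝ) ≤ S)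
    have p3 : 0 < θ * (r * C.σ (C.q u)) := by have := P.r0; positivity
    have hX : 0 ≤ X := by linarith
    have h6 : X ≤ S * X := le_mul_of_one_le_left hX hS
    have e1 : r * (|C.m (C.q u) - C.m (C.q v)| +
      2 * (θ * (S * C.σ (C.q u)) + θ * (S * C.σ (C.q v)))) =
      r * |C.m (C.q u) - C.m (C.q v)| + 2 * (S * (θ * (r * C.σ (C.q u))) +
        S * (θ * (r * C.σ (C.q v)))) := by ring
    rw [e1]
    linarith

end

theorem clear : ClearStmt := by
  intro ι υ γ κ ν βQ βP γ' _ _ _ _ _ _ C F o z G F' R ρ Γ r S T θ η ε W U s Z B s' Z' A A' g D E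
    D' E' hC hF Q hG P sig
  have a0 : 0 ≤ ρ * r / (256 * S ^ 2 * R ^ 2 * Γ) := by
    have h1 := P.ρ0
    have h2 := P.r0
    have h3 := P.S1
    have h4 := P.R1
    have h5 := hG.Γ1
    positivity
  have main : ∀ v k, k ≠ (ins2 C F o G θ η ε R s' A A' g D E).q v →
      k ≠ (ins2 C F o G θ η ε R s' A A' g D E).p v →
      ClearOne (ins2 C F o G θ η ε R s' A A' g D E) (ρ * r / (256 * S ^ 2 * R ^ 2 * Γ)) v k := by
    rintro ⟨v, n⟩ k hkq hkp
    rcases k with ⟨k, b⟩ | ⟨u, j⟩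
    · by_cases hfar : ∃ f, b = Sum.inr (Sum.inr (Sum.inr f))
      · obtain ⟨f, rfl⟩ := hfar
        exact clear_far hF Q hG P sig v n k f
      · push Not at hfar
        exact clear_par Q hG P sig v n k b hfar
    · by_cases huv : u = v
      · subst huv
        rcases j with j | b
        · exact clear_ownG Q hG P sig u n j (fun h => hkq (by rw [h]; rfl))
            (fun h => hkp (by rw [h]; rfl))
        · exact clear_ownP Q hG P sig u n b
      · exact clear_sat hC Q hG P sig v n u j huv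
  refine ⟨fun v k h1 h2 => ?_, fun v k h1 h2 => ?_, fun v k h1 h2 => ?_⟩
  · obtain ⟨M0, m1, m2, m3, m4⟩ := main v k h1 h2
    exact (mul_le_mul_of_nonneg_left m1 a0).trans m4
  · obtain ⟨M0, m1, m2, m3, m4⟩ := main v k h1 h2
    exact (mul_le_mul_of_nonneg_left m2 a0).trans m4
  · obtain ⟨M0, m1, m2, m3, m4⟩ := main v k h1 h2
    exact (mul_le_mul_of_nonneg_left m3 a0).trans m4

end Vale.Agent.P065.W
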