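import Vale.Agent.P065.W.Est0

/-!
P065, wide fans, block P2a: the sign facts.
-/

set_option linter.all false

namespace Vale.Agent.P065.W

open Vale.Agent.P065

section

variable {ι υ γ κ ν βQ βP γ' : Type} [Fintype ι] [Fintype υ] [Fintype κ] [Fintype ν] [Fintype βQ]
    [Fintype βP] {C : Cfg ι υ} {F : Cel ι υ γ} {o z : ι → ℝ} {G : Gad κ ν βQ βP}
    {F' : Cel κ ν γ'} {R ρ Γ r S T θ η ε W U s Z B s' Z' : ℝ} {A A' g D E D' E' : ℕ}

theorem Par2.ep (P : Par2 R ρ r S T θ η ε) : EP r S θ ε R :=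
  ⟨P.r0, P.r1, P.S1, P.θ0, P.θ1, P.R1, P.ε0, P.εR⟩

/-- the displacement of the new vertices -/
theorem dsp (P : Par2 R ρ r S T θ η ε) (Q : QOk C F o z r S T θ W U s Z B)
    (hG : GOk G F' R ρ Γ θ η s' Z' A A' g D' E') (v : υ × ν) :
    Dsp C v.1 θ ε R (C.e ε v.1 / C.Δ v.1 * G.L.x v.2) (θ * η * C.e ε v.1 * G.L.y v.2) := by
  have he := e_pos P.ep Q v.1
  have hΔ := Δ_pos Q v.1
  have hx := hG.xb v.2
  refine ⟨?_, ?_, ?_⟩
  · rw [abs_mul, abs_div, abs_of_pos he]
    have h1 : C.e ε v.1 / |C.Δ v.1| ≤ ε := by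
      rw [div_le_iff₀ hΔ]
      exact mul_le_mul_of_nonneg_left (Q.lo v.1) P.ε0.le
    exact mul_le_mul h1 hx (abs_nonneg _) P.ε0.le
  · have h0 : C.Δ v.1 ≠ 0 := abs_pos.1 hΔ
    have e1 : C.Δ v.1 * (C.e ε v.1 / C.Δ v.1 * G.L.x v.2) = C.e ε v.1 * G.L.x v.2 := by
      field_simp
    rw [e1, abs_mul, abs_of_pos he]
    exact mul_le_mul_of_nonneg_left hx he.le
  · have hy := hG.ηy v.2
    have e1 : |θ * η * C.e ε v.1 * G.L.y v.2| = θ * C.e ε v.1 * (η * |G.L.y v.2|) := by
      rw [abs_mul, abs_mul, abs_mul, abs_of_pos P.θ0, abs_of_pos P.η0, abs_of_pos he]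
      ring
    rw [e1]
    have h2 := mul_le_mul_of_nonneg_left hy (mul_nonneg P.θ0.le he.le)
    linarith

theorem satC_close (P : Par2 R ρ r S T θ η ε) (hG : GOk G F' R ρ Γ θ η s' Z' A A' g D' E')
    (j : κ ⊕ Bool) : |satC G η j| ≤ 17 / 16 ∧ 15 / 16 ≤ |satC G η j| := by
  rcases j with j | b
  · have h1 := hG.ηm j
    have h2 : |η * G.L.m j| ≤ 1 / 16 := by rw [abs_mul, abs_of_pos P.η0]; exact h1
    have h3 := abs_le.1 h2
    simp only [satC]
    rw [abs_of_pos (by linarith)]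
    constructor <;> linarith
  · simp only [satC, abs_neg, abs_one]
    constructor <;> norm_num

theorem satF_le (P : Par2 R ρ r S T θ η ε) (hG : GOk G F' R ρ Γ θ η s' Z' A A' g D' E')
    (j : κ ⊕ Bool) : |satF G η R j| ≤ 4 * R := by
  have hR := P.R1
  rcases j with j | b
  · have h1 := hG.ηt j
    simp only [satF]
    rw [abs_mul, abs_of_pos P.η0]
    linarith
  · cases b
    · simp only [satF, abs_neg]
      rw [abs_of_nonneg (by linarith)]
    · simp only [satF]
      rw [abs_of_nonneg (by linarith)]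

/-- the height of a fan line -/
theorem H_fan (hC : C.Good) (v : υ × ν) (u : υ) (j : κ ⊕ Bool) :
    (ins2 C F o G θ η ε R s' A A' g D E).H v (Sum.inr (u, j)) =
      hFan C θ ε v.1 u (C.e ε v.1 / C.Δ v.1 * G.L.x v.2) (θ * η * C.e ε v.1 * G.L.y v.2)
        (satC G η j) (satF G η R j) := by
  rw [ins2_H_inr hC]
  rfl

theorem not_thick (hC : C.Good) (u : υ) : ¬ C.Thick (C.q u) := by
  rintro ⟨v, hv⟩
  exact hC.bip u v hv.symm

theorem not_thin (hC : C.Good) (u : υ) : ¬ C.Thin (C.p u) := by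
  rintro ⟨v, hv⟩
  exact hC.bip v u hv

/-- offsets of the parallels that are not far pads -/
theorem off2_near (P : Par2 R ρ r S T θ η ε) (hG : GOk G F' R ρ Γ θ η s' Z' A A' g D' E')
    (k : ι) (b : Pr βQ βP) (hb : ∀ f, b ≠ Sum.inr (Sum.inr (Sum.inr f))) :
    ∃ f, |f| ≤ 4 * R ∧ off2 C o G θ ε R k b = ε * C.σ k * f := by
  have hR := P.R1
  have h4 : |4 * R| ≤ 4 * R := by rw [abs_of_nonneg (by linarith)]
  have hθ := P.θ0
  have hθ1 := P.θ1
  rcases b with b | b | b | b
  · simp only [off2]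
    refine ⟨_, ?_, rfl⟩
    split_ifs
    · rw [abs_mul, abs_of_pos P.θ0]
      have := mul_le_mul P.θ1 (hG.oQb b) (abs_nonneg _) (by norm_num : (0:ℝ) ≤ 1 / 64)
      linarith
    · exact h4
  · simp only [off2]
    refine ⟨_, ?_, rfl⟩
    split_ifs
    · rw [abs_mul, abs_of_nonneg (by linarith : (0:ℝ) ≤ 1 - θ)]
      have := mul_le_mul (by linarith : 1 - θ ≤ 1) (hG.oPb b) (abs_nonneg _) (by norm_num)
      linarith
    · exact h4
  · simp only [off2]
    refine ⟨_, ?_, rfl⟩
    cases b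
    · simp only [bs, Bool.false_eq_true, if_false, Int.cast_neg, Int.cast_one, neg_mul, one_mul,
        abs_neg]
      exact h4
    · simp only [bs, if_true, Int.cast_one, one_mul]
      exact h4
  · exact absurd rfl (hb b)

theorem bs_mul (b : Bool) (x : ℝ) : (bs b : ℝ) * x = if b then x else -x := by
  cases b <;> simp [bs]

theorem sg_bs {b : Bool} {c x y : ℝ} (hc : 0 < c) (h : |y - (bs b : ℝ) * x| ≤ x - c) (hx : 0 ≤ x) :
    sg y = bs b ∧ c ≤ |y| := by
  rw [bs_mul] at h
  cases b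
  · simp only [Bool.false_eq_true, if_false] at h
    have h1 := abs_le.1 h
    have h2 : y ≤ -c := by linarith
    refine ⟨?_, ?_⟩
    · rw [sg_of_neg (by linarith)]; rfl
    · rw [abs_of_neg (by linarith)]; linarith
  · simp only [if_true] at h
    have h1 := abs_le.1 h
    have h2 : c ≤ y := by linarith
    refine ⟨?_, ?_⟩
    · rw [sg_of_pos (by linarith)]; rfl
    · rw [abs_of_pos (by linarith)]; exact h2

end

theorem sigOk : SigStmt := by
  intro ι υ γ κ ν βQ βP γ' _ _ _ _ _ _ C F o z G F' R ρ Γ r S T θ η ε W U s Z B s' Z' A A' g D E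
    D' E' hC hF Q hG P
  have hR := P.R1
  have hθ := P.θ0
  have hθ1 := P.θ1
  refine
    { par := ?_
      farF := ?_
      farN := ?_
      fanS := ?_
      fanD := ?_
      fan1 := ?_
      fan2 := ?_
      fan3 := ?_
      satC1 := ?_
      satC2 := ?_
      Δx := ?_
      e0 := e_pos P.ep Q
      thinQ := ?_
      thinP := ?_
      thinN := ?_
      thickQ := ?_
      thickP := ?_
      thickN := ?_
      ownF := ?_
      ownG := ?_ }
  · -- par
    intro v k b hb hq hp
    obtain ⟨f, hf, e⟩ := off2_near (C := C) (o := o) P hG k b hb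
    rw [ins2_H_inl, e]
    have h := par_far P.ep Q (dsp P Q hG v) hq hp hf
    have h0 := abs_nonneg (C.H v.1 k)
    linarith
  · -- farF
    intro v k b hn
    have hq : k ≠ C.q v.1 := fun h => hn (h ▸ hF.nq v.1)
    have hp : k ≠ C.p v.1 := fun h => hn (h ▸ hF.np v.1)
    rw [ins2_H_inl]
    have h := pad_not P.ep Q (dsp P Q hG v) hq hp hn b
    have e : off2 C o G θ ε R k (Sum.inr (Sum.inr (Sum.inr b))) = if b then o k else - o k :=
      bs_mul b (o k)
    rw [e]
    have h0 := abs_nonneg (C.H v.1 k)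
    linarith
  · -- farN
    intro v k b hn
    rw [ins2_H_inl]
    have e : off2 C o G θ ε R k (Sum.inr (Sum.inr (Sum.inr b))) = if b then o k else - o k :=
      bs_mul b (o k)
    rw [e, bs_mul]
    have h0 := Q.o0 k
    by_cases hq : k = C.q v.1
    · subst hq
      have h := pad_q P.ep Q (dsp P Q hG v) (hC.on_q v.1) b
      linarith
    · by_cases hp : k = C.p v.1
      · subst hp
        have h := pad_p P.ep Q (dsp P Q hG v) (hC.on_p v.1) b
        linarith
      · have h := pad_nr P.ep Q (dsp P Q hG v) hq hp hn b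
        linarith
  · -- fanS
    intro v u j hk hn
    rw [H_fan hC]
    exact (fan_t1 P.ep Q (dsp P Q hG v) hk (hC.bip u v.1) hn (satC_close P hG j).1
      (satF_le P hG j)).1
  · -- fanD
    intro v u j hu h
    rw [H_fan hC]
    by_cases hk : C.q u = C.q v.1
    · have h1 := (fan_same P.ep Q (dsp P Q hG v) hC hk hu (satC_close P hG j).1 (satF_le P hG j)).1
      linarith
    · rcases h with h | h
      · exact absurd h hk
      · have h1 := (fan_t2 P.ep Q (dsp P Q hG v) hk (hC.bip u v.1) h.1 h.2 (satC_close P hG j).1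
          (satF_le P hG j)).1
        have h0 := mul_nonneg P.θ0.le (abs_nonneg (C.Δ u * (C.x v.1 - C.x u)))
        linarith
  · -- fan1
    intro v u j hu
    rw [H_fan hC]
    have h := (fan_lower P.ep Q (dsp P Q hG v) hC hu (satC_close P hG j).1 (satC_close P hG j).2
      (satF_le P hG j)).1
    rw [abs_mul] at h
    linarith
  · -- fan2
    intro v u j hu
    rw [H_fan hC]
    have h := (fan_lower P.ep Q (dsp P Q hG v) hC hu (satC_close P hG j).1 (satC_close P hG j).2
      (satF_le P hG j)).2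
    linarith
  · -- fan3
    intro v u j hu
    by_cases hk : C.q u = C.q v.1
    · rw [H_fan hC]
      have h := (fan_lower P.ep Q (dsp P Q hG v) hC hu (satC_close P hG j).1 (satC_close P hG j).2
        (satF_le P hG j)).2
      rw [hk] at h
      linarith
    · have hp : C.q u ≠ C.p v.1 := hC.bip u v.1
      have h2 := Q.h2 v.1 (C.q u) hk hp
      have h7 : θ * (r * C.σ (C.q v.1)) ≤ 1 / 64 * |C.H v.1 (C.q u)| :=
        mul_le_mul P.θ1 h2 (mul_nonneg P.r0.le (Q.σ_pos v.1).le) (by norm_num)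
      have h0 := abs_nonneg (C.H v.1 (C.q u))
      rw [H_fan hC]
      by_cases hn : ¬ F.nr (F.c v.1) (C.q u) ∨ F.c u = F.c v.1
      · have h := (fan_t1 P.ep Q (dsp P Q hG v) hk hp hn (satC_close P hG j).1
          (satF_le P hG j)).1
        have h4 := abs_ge_of_close h
        linarith
      · push Not at hn
        have h := fan_t2 P.ep Q (dsp P Q hG v) hk hp hn.1 hn.2 (satC_close P hG j).1
          (satF_le P hG j)
        have h5 := (fan_lower P.ep Q (dsp P Q hG v) hC hu (satC_close P hG j).1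
          (satC_close P hG j).2 (satF_le P hG j)).1
        linarith [h.2.2]
  · -- satC1
    intro j
    have h1 := hG.ηm j
    have h2 : |η * G.L.m j| ≤ 1 / 16 := by rw [abs_mul, abs_of_pos P.η0]; exact h1
    have h3 := abs_le.1 h2
    simp only [satC]
    linarith
  · -- satC2
    intro j
    have := (satC_close P hG j).1
    linarith
  · -- Δx
    intro u v hu h
    by_cases hk : C.q u = C.q v
    · have n1 : C.p u ≠ C.q v := fun h => hC.bip v u h.symm
      have n2 : C.p u ≠ C.p v := fun h => hu (hC.inj u v hk h)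
      have h2 := Q.h2 v (C.p u) n1 n2
      rw [hC.H_p hk] at h2
      exact (mul_pos P.r0 (Q.σ_pos v)).trans_le h2
    · rcases h with h | h
      · exact absurd h hk
      · have hp : C.q u ≠ C.p v := hC.bip u v
        have h2 := Q.h2 v (C.q u) hk hp
        have h3 := Q.t2 v u h.1 h.2
        rw [← abs_mul] at h3
        have h4 := mul_pos P.r0 (Q.σ_pos v)
        have h5 : 0 < θ * |C.Δ u * (C.x v - C.x u)| := by linarith
        exact (mul_pos_iff_of_pos_left hθ).1 h5
  · -- thinQ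
    intro v b
    have he := e_pos P.ep Q v.1
    rw [ins2_H_thin hC]
    have e : off2 C o G θ ε R (C.q v.1) (Sum.inl b)
        - C.e ε v.1 * (θ * (G.L.x v.2 + η * G.L.y v.2)) =
        θ * C.e ε v.1 * (G.oQ b - (G.L.x v.2 + η * G.L.y v.2)) := by
      simp only [off2]
      rw [if_pos ⟨v.1, rfl⟩]
      simp only [Cfg.e]
      ring
    rw [e]
    refine ⟨sg_mul_pos (mul_pos hθ he), ?_⟩
    rw [abs_mul, abs_of_pos (mul_pos hθ he)]
    exact mul_le_mul_of_nonneg_left (hG.sepQ v.2 b) (mul_pos hθ he).le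
  · -- thinP
    intro v b
    have he := e_pos P.ep Q v.1
    rw [ins2_H_thin hC]
    have e : off2 C o G θ ε R (C.q v.1) (Sum.inr (Sum.inl b))
        - C.e ε v.1 * (θ * (G.L.x v.2 + η * G.L.y v.2)) =
        C.e ε v.1 * (4 * R - θ * (G.L.x v.2 + η * G.L.y v.2)) := by
      simp only [off2]
      rw [if_neg (not_thick hC v.1)]
      simp only [Cfg.e]
      ring
    rw [e, abs_mul, abs_of_pos he]
    refine mul_le_mul_of_nonneg_left ?_ he.le
    have h1 := abs_le.1 (hG.xb v.2)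
    have h2 : |η * G.L.y v.2| ≤ 1 / 16 := by rw [abs_mul, abs_of_pos P.η0]; exact hG.ηy v.2
    have h3 := abs_le.1 h2
    have h4 : θ * (G.L.x v.2 + η * G.L.y v.2) ≤ 1 / 64 * (R + 1 / 16) := by
      have a : G.L.x v.2 + η * G.L.y v.2 ≤ R + 1 / 16 := by linarith
      have b1 := mul_le_mul_of_nonneg_left a hθ.le
      have b2 := mul_le_mul_of_nonneg_right hθ1 (by linarith : (0:ℝ) ≤ R + 1 / 16)
      linarith
    exact le_trans (by linarith) (le_abs_self _)
  · -- thinN
    intro v b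
    have he := e_pos P.ep Q v.1
    rw [ins2_H_thin hC]
    have h1 := abs_le.1 (hG.xb v.2)
    have h2 : |η * G.L.y v.2| ≤ 1 / 16 := by rw [abs_mul, abs_of_pos P.η0]; exact hG.ηy v.2
    have h3 := abs_le.1 h2
    have h4 : |θ * (G.L.x v.2 + η * G.L.y v.2)| ≤ 1 / 64 * (R + 1 / 16) := by
      rw [abs_mul, abs_of_pos hθ]
      exact mul_le_mul hθ1 (abs_le.2 ⟨by linarith, by linarith⟩) (abs_nonneg _) (by norm_num)
    have e : off2 C o G θ ε R (C.q v.1) (Sum.inr (Sum.inr (Sum.inl b)))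
        - C.e ε v.1 * (θ * (G.L.x v.2 + η * G.L.y v.2)) =
        C.e ε v.1 * ((bs b : ℝ) * (4 * R) - θ * (G.L.x v.2 + η * G.L.y v.2)) := by
      simp only [off2, Cfg.e]
      ring
    rw [e]
    have h5 := sg_bs (b := b) (c := R) (x := 4 * R)
      (y := (bs b : ℝ) * (4 * R) - θ * (G.L.x v.2 + η * G.L.y v.2)) (by linarith) (by
        have e2 : (bs b : ℝ) * (4 * R) - θ * (G.L.x v.2 + η * G.L.y v.2) - (bs b : ℝ) * (4 * R) =
          - (θ * (G.L.x v.2 + η * G.L.y v.2)) := by ring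
        rw [e2, abs_neg]
        linarith) (by linarith)
    refine ⟨by rw [sg_mul_pos he]; exact h5.1, ?_⟩
    rw [abs_mul, abs_of_pos he]
    exact mul_le_mul_of_nonneg_left h5.2 he.le
  · -- thickQ
    intro v b
    have he := e_pos P.ep Q v.1
    rw [ins2_H_thick hC]
    have e : off2 C o G θ ε R (C.p v.1) (Sum.inl b)
        + C.e ε v.1 * ((1 - θ) * G.L.x v.2 - θ * (η * G.L.y v.2)) =
        C.e ε v.1 * (4 * R + ((1 - θ) * G.L.x v.2 - θ * (η * G.L.y v.2))) := by
      simp only [off2]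
      rw [if_neg (not_thin hC v.1)]
      simp only [Cfg.e, Q.σ_eq v.1]
      ring
    rw [e, abs_mul, abs_of_pos he]
    refine mul_le_mul_of_nonneg_left ?_ he.le
    have h2 : |η * G.L.y v.2| ≤ 1 / 16 := by rw [abs_mul, abs_of_pos P.η0]; exact hG.ηy v.2
    have h4 : |θ * (η * G.L.y v.2)| ≤ 1 / 64 * (1 / 16) := by
      rw [abs_mul, abs_of_pos hθ]
      exact mul_le_mul hθ1 h2 (abs_nonneg _) (by norm_num)
    have h5 : |(1 - θ) * G.L.x v.2| ≤ 1 * R := by
      rw [abs_mul, abs_of_nonneg (by linarith : (0:ℝ) ≤ 1 - θ)]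
      exact mul_le_mul (by linarith) (hG.xb v.2) (abs_nonneg _) (by norm_num)
    have h6 := abs_le.1 h4
    have h7 := abs_le.1 h5
    exact le_trans (by linarith) (le_abs_self _)
  · -- thickP
    intro v b
    have he := e_pos P.ep Q v.1
    rw [ins2_H_thick hC]
    have e : off2 C o G θ ε R (C.p v.1) (Sum.inr (Sum.inl b))
        + C.e ε v.1 * ((1 - θ) * G.L.x v.2 - θ * (η * G.L.y v.2)) =
        C.e ε v.1 * ((1 - θ) * (G.L.x v.2 + G.oP b) - θ * (η * G.L.y v.2)) := by
      simp only [off2]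
      rw [if_pos ⟨v.1, rfl⟩]
      simp only [Cfg.e, Q.σ_eq v.1]
      ring
    rw [e]
    have h2 : |η * G.L.y v.2| ≤ 1 / 16 := by rw [abs_mul, abs_of_pos P.η0]; exact hG.ηy v.2
    have h4 : |θ * (η * G.L.y v.2)| ≤ 1 / 64 * (1 / 16) := by
      rw [abs_mul, abs_of_pos hθ]
      exact mul_le_mul hθ1 h2 (abs_nonneg _) (by norm_num)
    have h8 := hG.sepP v.2 b
    have hm : (0:ℝ) < 1 - θ := by linarith
    have hne : (1 - θ) * (G.L.x v.2 + G.oP b) ≠ 0 := by
      refine mul_ne_zero hm.ne' ?_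
      intro h0
      rw [h0, abs_zero] at h8
      linarith
    have h9 : 63 / 256 ≤ |(1 - θ) * (G.L.x v.2 + G.oP b)| := by
      rw [abs_mul, abs_of_pos hm]
      have := mul_le_mul (by linarith : 63 / 64 ≤ 1 - θ) h8 (by norm_num) hm.le
      linarith
    have hcl : |((1 - θ) * (G.L.x v.2 + G.oP b) - θ * (η * G.L.y v.2))
        - (1 - θ) * (G.L.x v.2 + G.oP b)| ≤ 1 / 1024 := by
      have e2 : ((1 - θ) * (G.L.x v.2 + G.oP b) - θ * (η * G.L.y v.2))
        - (1 - θ) * (G.L.x v.2 + G.oP b) = - (θ * (η * G.L.y v.2)) := by ring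
      rw [e2, abs_neg]
      linarith
    refine ⟨?_, ?_⟩
    · rw [sg_mul_pos he, sg_of_close hne (by linarith), sg_mul_pos hm]
    · rw [abs_mul, abs_of_pos he]
      have h10 := abs_ge_of_close hcl
      have h11 : C.e ε v.1 * (1 / 8) ≤
          C.e ε v.1 * |(1 - θ) * (G.L.x v.2 + G.oP b) - θ * (η * G.L.y v.2)| :=
        mul_le_mul_of_nonneg_left (by linarith) he.le
      linarith
  · -- thickN
    intro v b
    have he := e_pos P.ep Q v.1
    rw [ins2_H_thick hC]
    have h2 : |η * G.L.y v.2| ≤ 1 / 16 := by rw [abs_mul, abs_of_pos P.η0]; exact hG.ηy v.2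
    have h4 : |θ * (η * G.L.y v.2)| ≤ 1 / 64 * (1 / 16) := by
      rw [abs_mul, abs_of_pos hθ]
      exact mul_le_mul hθ1 h2 (abs_nonneg _) (by norm_num)
    have h5 : |(1 - θ) * G.L.x v.2| ≤ 1 * R := by
      rw [abs_mul, abs_of_nonneg (by linarith : (0:ℝ) ≤ 1 - θ)]
      exact mul_le_mul (by linarith) (hG.xb v.2) (abs_nonneg _) (by norm_num)
    have h6 := abs_le.1 h4
    have h7 := abs_le.1 h5
    have e : off2 C o G θ ε R (C.p v.1) (Sum.inr (Sum.inr (Sum.inl b)))
        + C.e ε v.1 * ((1 - θ) * G.L.x v.2 - θ * (η * G.L.y v.2)) =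
        C.e ε v.1 * ((bs b : ℝ) * (4 * R) + ((1 - θ) * G.L.x v.2 - θ * (η * G.L.y v.2))) := by
      simp only [off2, Cfg.e, Q.σ_eq v.1]
      ring
    rw [e]
    have h8 := sg_bs (b := b) (c := R) (x := 4 * R)
      (y := (bs b : ℝ) * (4 * R) + ((1 - θ) * G.L.x v.2 - θ * (η * G.L.y v.2))) (by linarith) (by
        have e2 : (bs b : ℝ) * (4 * R) + ((1 - θ) * G.L.x v.2 - θ * (η * G.L.y v.2))
            - (bs b : ℝ) * (4 * R) = (1 - θ) * G.L.x v.2 - θ * (η * G.L.y v.2) := by ring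
        rw [e2, abs_le]
        constructor <;> linarith) (by linarith)
    refine ⟨by rw [sg_mul_pos he]; exact h8.1, ?_⟩
    rw [abs_mul, abs_of_pos he]
    exact mul_le_mul_of_nonneg_left h8.2 he.le
  · -- ownF
    intro v b
    have he := e_pos P.ep Q v.1
    rw [ins2_H_own hC]
    have h2 : |η * G.L.y v.2| ≤ 1 / 16 := by rw [abs_mul, abs_of_pos P.η0]; exact hG.ηy v.2
    have h3 := abs_le.1 h2
    have h1 := abs_le.1 (hG.xb v.2)
    have e : (satC G η (Sum.inr b) - 1) * G.L.x v.2 + satF G η R (Sum.inr b) - η * G.L.y v.2 =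
        (bs b : ℝ) * (4 * R) - (2 * G.L.x v.2 + η * G.L.y v.2) := by
      cases b <;> simp [satC, satF, bs] <;> ring
    rw [e]
    have hp := mul_pos hθ he
    have h8 := sg_bs (b := b) (c := R) (x := 4 * R)
      (y := (bs b : ℝ) * (4 * R) - (2 * G.L.x v.2 + η * G.L.y v.2)) (by linarith) (by
        have e2 : (bs b : ℝ) * (4 * R) - (2 * G.L.x v.2 + η * G.L.y v.2)
            - (bs b : ℝ) * (4 * R) = - (2 * G.L.x v.2 + η * G.L.y v.2) := by ring
        rw [e2, abs_neg, abs_le]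
        constructor <;> linarith) (by linarith)
    refine ⟨by rw [sg_mul_pos hp]; exact h8.1, ?_⟩
    rw [abs_mul, abs_of_pos hp]
    exact mul_le_mul_of_nonneg_left h8.2 hp.le
  · -- ownG
    intro v j hq hp
    have he := e_pos P.ep Q v.1
    have hη := P.η0
    rw [ins2_H_gad hC]
    have hpos : 0 < θ * η * C.e ε v.1 := mul_pos (mul_pos hθ hη) he
    rw [abs_mul, abs_of_pos hpos]
    have h1 := mul_le_mul_of_nonneg_left (hG.off v.2 j hq hp) hpos.le
    linarith

end Vale.Agent.P065.W
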