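import Vale.Agent.P065.W.Ins

/-!
P065, wide fans: estimates for the insertion that do not depend on the definition of the inserted
configuration.
-/

set_option linter.all false

namespace Vale.Agent.P065.W

open Vale.Agent.P065

/-- relations between the parameters of an insertion -/
structure EP (r S θ ε R : ℝ) : Prop where
  r0 : 0 < r
  r1 : r ≤ 1
  S1 : 1 ≤ S
  θ0 : 0 < θ
  θ1 : θ ≤ 1 / 64
  R1 : 1 ≤ R
  ε0 : 0 < ε
  εR : 64 * S * (ε * R) = r

/-- displacement of a new vertex -/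
structure Dsp {ι υ : Type} (C : Cfg ι υ) (v : υ) (θ ε R dx dy : ℝ) : Prop where
  dx1 : |dx| ≤ ε * R
  dx2 : |C.Δ v * dx| ≤ C.e ε v * R
  dy1 : |dy| ≤ θ * C.e ε v / 16

namespace EP

variable {r S θ ε R : ℝ}

theorem SεR (P : EP r S θ ε R) : S * (ε * R) = r / 64 := by
  have := P.εR; linarith

theorem εR0 (P : EP r S θ ε R) : 0 < ε * R := mul_pos P.ε0 (by linarith [P.R1])

theorem εR' (P : EP r S θ ε R) : ε * R ≤ r / 64 := by
  have h1 := P.SεR
  have h2 := P.εR0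
  have h3 : ε * R ≤ S * (ε * R) := le_mul_of_one_le_left h2.le P.S1
  linarith

theorem ε_le (P : EP r S θ ε R) : ε ≤ r / 64 := by
  have h1 := P.εR'
  have h2 : ε ≤ ε * R := le_mul_of_one_le_right P.ε0.le P.R1
  linarith

end EP

section

variable {ι υ γ : Type} {C : Cfg ι υ} {F : Cel ι υ γ} {o z : ι → ℝ}
  {r S T θ W U s Z B ε R dx dy : ℝ} {v u : υ}

theorem e_pos (P : EP r S θ ε R) (Q : QOk C F o z r S T θ W U s Z B) (u : υ) : 0 < C.e ε u :=
  mul_pos P.ε0 (Q.σ_pos u)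

theorem Δ_pos (Q : QOk C F o z r S T θ W U s Z B) (u : υ) : 0 < |C.Δ u| :=
  (Q.σ_pos u).trans_le (Q.lo u)

/-- `e R ≤ r σ / 64` -/
theorem eR_le (P : EP r S θ ε R) (Q : QOk C F o z r S T θ W U s Z B) (u : υ) :
    C.e ε u * R ≤ r * C.σ (C.q u) / 64 := by
  have h := P.εR'
  have h2 := mul_le_mul_of_nonneg_right h (Q.σ_pos u).le
  simp only [Cfg.e]
  have e1 : ε * C.σ (C.q u) * R = ε * R * C.σ (C.q u) := by ring
  rw [e1]
  linarith

theorem e_le_eR (P : EP r S θ ε R) (Q : QOk C F o z r S T θ W U s Z B) (u : υ) :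
    C.e ε u ≤ C.e ε u * R := le_mul_of_one_le_right (e_pos P Q u).le P.R1

/-- `S e R = r σ / 64` -/
theorem SeR (P : EP r S θ ε R) (u : υ) : S * (C.e ε u * R) = r * C.σ (C.q u) / 64 := by
  have h := P.SεR
  simp only [Cfg.e]
  have e1 : S * (ε * C.σ (C.q u) * R) = S * (ε * R) * C.σ (C.q u) := by ring
  rw [e1, h]
  ring

/-- the size of the new gadget against the heights -/
theorem eR_le_H (P : EP r S θ ε R) (Q : QOk C F o z r S T θ W U s Z B) {k : ι}
    (hq : k ≠ C.q v) (hp : k ≠ C.p v) : C.e ε v * R ≤ |C.H v k| / 64 := by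
  have h1 := eR_le P Q v
  have h2 := Q.h2 v k hq hp
  linarith

theorem base_err (P : EP r S θ ε R) (Q : QOk C F o z r S T θ W U s Z B)
    (D : Dsp C v θ ε R dx dy) {k : ι} (hq : k ≠ C.q v) (hp : k ≠ C.p v) :
    |(C.m k - C.m (C.q v) - θ * C.Δ v) * dx - dy| ≤ |C.H v k| / 60 := by
  have h1 : |(C.m k - C.m (C.q v)) * dx| ≤ |C.H v k| / 64 := by
    rw [abs_mul]
    have h2 := Q.h1 v k hq hp
    have h3 : |C.m k - C.m (C.q v)| * |dx| ≤ |C.m k - C.m (C.q v)| * (r / 64) :=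
      mul_le_mul_of_nonneg_left (D.dx1.trans P.εR') (abs_nonneg _)
    linarith
  have h4 : |θ * (C.Δ v * dx)| ≤ |C.H v k| / 64 / 64 := by
    rw [abs_mul, abs_of_pos P.θ0]
    have h5 := eR_le_H P Q hq hp
    have h6 : θ * |C.Δ v * dx| ≤ (1 / 64) * (|C.H v k| / 64) :=
      mul_le_mul P.θ1 (D.dx2.trans h5) (abs_nonneg _) (by norm_num)
    linarith
  have h7 : |dy| ≤ |C.H v k| / 64 / 64 / 16 := by
    have h5 := eR_le_H P Q hq hp
    have h8 := e_le_eR P Q v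
    have h9 : θ * C.e ε v ≤ (1 / 64) * (|C.H v k| / 64) :=
      mul_le_mul P.θ1 (h8.trans h5) (e_pos P Q v).le (by norm_num)
    have := D.dy1
    linarith
  have e : (C.m k - C.m (C.q v) - θ * C.Δ v) * dx - dy =
      (C.m k - C.m (C.q v)) * dx - θ * (C.Δ v * dx) - dy := by ring
  rw [e]
  have h0 := abs_nonneg (C.H v k)
  rw [abs_le] at *
  constructor <;> linarith [h1.1, h1.2, h4.1, h4.2, h7.1, h7.2]

/-- parallels of a line that does not pass through the vertex -/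
theorem par_far (P : EP r S θ ε R) (Q : QOk C F o z r S T θ W U s Z B)
    (D : Dsp C v θ ε R dx dy) {k : ι} (hq : k ≠ C.q v) (hp : k ≠ C.p v) {f : ℝ}
    (hf : |f| ≤ 4 * R) :
    |(C.H v k + (C.m k - C.m (C.q v) - θ * C.Δ v) * dx - dy + ε * C.σ k * f) - C.H v k|
      ≤ |C.H v k| / 12 := by
  have h1 := base_err P Q D hq hp
  have h2 : |ε * C.σ k * f| ≤ |C.H v k| / 16 := by
    rw [abs_mul, abs_of_nonneg (mul_nonneg P.ε0.le (Q.σ_nonneg k))]
    have h3 : ε * C.σ k * |f| ≤ ε * C.σ k * (4 * R) :=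
      mul_le_mul_of_nonneg_left hf (mul_nonneg P.ε0.le (Q.σ_nonneg k))
    have h4 : ε * C.σ k * (4 * R) = 4 * (ε * R * C.σ k) := by ring
    have h5 := mul_le_mul_of_nonneg_right P.εR' (Q.σ_nonneg k)
    have h6 := Q.h3 v k hq hp
    linarith
  have e : (C.H v k + (C.m k - C.m (C.q v) - θ * C.Δ v) * dx - dy + ε * C.σ k * f) - C.H v k =
    ((C.m k - C.m (C.q v) - θ * C.Δ v) * dx - dy) + ε * C.σ k * f := by ring
  rw [e]
  have h0 := abs_nonneg (C.H v k)
  have h7 := abs_add_le ((C.m k - C.m (C.q v) - θ * C.Δ v) * dx - dy) (ε * C.σ k * f)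
  linarith

/-- far pads of a line which passes through the cell but not through the vertex -/
theorem pad_nr (P : EP r S θ ε R) (Q : QOk C F o z r S T θ W U s Z B)
    (D : Dsp C v θ ε R dx dy) {k : ι} (hq : k ≠ C.q v) (hp : k ≠ C.p v)
    (hn : F.nr (F.c v) k) (b : Bool) :
    |(C.H v k + (C.m k - C.m (C.q v) - θ * C.Δ v) * dx - dy + (if b then o k else - o k))
      - (if b then o k else - o k)| ≤ o k * (3 / 10) := by
  have h1 := base_err P Q D hq hp
  have h2 := Q.o1 v k hn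
  have h3 := Q.o0 k
  have e : (C.H v k + (C.m k - C.m (C.q v) - θ * C.Δ v) * dx - dy + (if b then o k else - o k))
      - (if b then o k else - o k) = C.H v k + ((C.m k - C.m (C.q v) - θ * C.Δ v) * dx - dy) := by
    ring
  rw [e]
  have h0 := abs_nonneg (C.H v k)
  have h7 := abs_add_le (C.H v k) ((C.m k - C.m (C.q v) - θ * C.Δ v) * dx - dy)
  linarith

/-- far pads of a line which does not pass through the cell -/
theorem pad_not (P : EP r S θ ε R) (Q : QOk C F o z r S T θ W U s Z B)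
    (D : Dsp C v θ ε R dx dy) {k : ι} (hq : k ≠ C.q v) (hp : k ≠ C.p v)
    (hn : ¬ F.nr (F.c v) k) (b : Bool) :
    |(C.H v k + (C.m k - C.m (C.q v) - θ * C.Δ v) * dx - dy + (if b then o k else - o k))
      - C.H v k| ≤ |C.H v k| * (3 / 10) := by
  have h1 := base_err P Q D hq hp
  have h2 := Q.o2 v k hn
  have h3 := Q.o0 k
  have h4 : |(if b then o k else - o k : ℝ)| ≤ |C.H v k| / 4 := by
    cases b
    · simp only [Bool.false_eq_true, if_false, abs_neg, abs_of_nonneg h3]; linarith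
    · simp only [if_true, abs_of_nonneg h3]; linarith
  have e : (C.H v k + (C.m k - C.m (C.q v) - θ * C.Δ v) * dx - dy + (if b then o k else - o k))
      - C.H v k = ((C.m k - C.m (C.q v) - θ * C.Δ v) * dx - dy) + (if b then o k else - o k) := by
    ring
  rw [e]
  have h0 := abs_nonneg (C.H v k)
  have h7 := abs_add_le ((C.m k - C.m (C.q v) - θ * C.Δ v) * dx - dy) (if b then o k else - o k : ℝ)
  linarith


/-- far pads of the thin line of the vertex -/
theorem pad_q (P : EP r S θ ε R) (Q : QOk C F o z r S T θ W U s Z B)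
    (D : Dsp C v θ ε R dx dy) (hC : C.H v (C.q v) = 0) (b : Bool) :
    |(C.H v (C.q v) + (C.m (C.q v) - C.m (C.q v) - θ * C.Δ v) * dx - dy
        + (if b then o (C.q v) else - o (C.q v)))
      - (if b then o (C.q v) else - o (C.q v))| ≤ o (C.q v) * (3 / 10) := by
  have h1 := Q.oq v
  have h3 := eR_le P Q v
  have h4 := e_le_eR P Q v
  have h5 : |θ * (C.Δ v * dx)| ≤ 1 / 64 * (C.e ε v * R) := by
    rw [abs_mul, abs_of_pos P.θ0]
    exact mul_le_mul P.θ1 D.dx2 (abs_nonneg _) (by norm_num)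
  have h6 : θ * C.e ε v ≤ 1 / 64 * (C.e ε v * R) :=
    mul_le_mul P.θ1 h4 (e_pos P Q v).le (by norm_num)
  have h7 := D.dy1
  have e : (C.H v (C.q v) + (C.m (C.q v) - C.m (C.q v) - θ * C.Δ v) * dx - dy
        + (if b then o (C.q v) else - o (C.q v)))
      - (if b then o (C.q v) else - o (C.q v)) = - (θ * (C.Δ v * dx)) - dy := by
    rw [hC]; ring
  rw [e]
  have h8 := Q.o0 (C.q v)
  rw [abs_le] at *
  constructor <;> linarith [h5.1, h5.2, h7.1, h7.2]

/-- far pads of the thick line of the vertex -/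
theorem pad_p (P : EP r S θ ε R) (Q : QOk C F o z r S T θ W U s Z B)
    (D : Dsp C v θ ε R dx dy) (hC : C.H v (C.p v) = 0) (b : Bool) :
    |(C.H v (C.p v) + (C.m (C.p v) - C.m (C.q v) - θ * C.Δ v) * dx - dy
        + (if b then o (C.p v) else - o (C.p v)))
      - (if b then o (C.p v) else - o (C.p v))| ≤ o (C.p v) * (3 / 10) := by
  have h1 := Q.op v
  have h3 := eR_le P Q v
  have h4 := e_le_eR P Q v
  have h5 : |θ * (C.Δ v * dx)| ≤ 1 / 64 * (C.e ε v * R) := by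
    rw [abs_mul, abs_of_pos P.θ0]
    exact mul_le_mul P.θ1 D.dx2 (abs_nonneg _) (by norm_num)
  have h6 : θ * C.e ε v ≤ 1 / 64 * (C.e ε v * R) :=
    mul_le_mul P.θ1 h4 (e_pos P Q v).le (by norm_num)
  have h7 := D.dy1
  have h9 := D.dx2
  have e : (C.H v (C.p v) + (C.m (C.p v) - C.m (C.q v) - θ * C.Δ v) * dx - dy
        + (if b then o (C.p v) else - o (C.p v)))
      - (if b then o (C.p v) else - o (C.p v)) = C.Δ v * dx - θ * (C.Δ v * dx) - dy := by
    rw [hC]; simp only [Cfg.Δ]; ring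
  rw [e]
  have h8 := Q.o0 (C.p v)
  rw [abs_le] at *
  constructor <;> linarith [h5.1, h5.2, h7.1, h7.2, h9.1, h9.2]

/-- the height of a fan line of `u` (slope coefficient `c`, offset `f`) near the vertex `v` -/
noncomputable def hFan (C : Cfg ι υ) (θ ε : ℝ) (v u : υ) (dx dy c f : ℝ) : ℝ :=
  C.H v (C.q u) + (C.m (C.q u) - C.m (C.q v) - θ * C.Δ v) * dx - dy
    + θ * c * (C.Δ u * (C.x v - C.x u) + C.Δ u * dx) + θ * C.e ε u * f

/-- fans on the same thin line -/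
theorem fan_same (P : EP r S θ ε R) (Q : QOk C F o z r S T θ W U s Z B)
    (D : Dsp C v θ ε R dx dy) [Fintype ι] (hC : C.Good) (hk : C.q u = C.q v) (hu : u ≠ v)
    {c f : ℝ} (hc : |c| ≤ 17 / 16) (hf : |f| ≤ 4 * R) :
    |hFan C θ ε v u dx dy c f - θ * c * (C.Δ u * (C.x v - C.x u))|
      ≤ θ * |C.Δ u * (C.x v - C.x u)| / 4 ∧
    r * C.σ (C.q u) ≤ |C.Δ u * (C.x v - C.x u)| := by
  have hp := hC.H_p hk
  have n1 : C.p u ≠ C.q v := fun h => hC.bip v u h.symm
  have n2 : C.p u ≠ C.p v := fun h => hu (hC.inj u v hk h)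
  have h1 := Q.h1 v (C.p u) n1 n2
  have h2 := Q.h2 v (C.p u) n1 n2
  rw [hp] at h1 h2
  have hσ : C.σ (C.q u) = C.σ (C.q v) := by rw [hk]
  refine ⟨?_, by rw [hσ]; exact h2⟩
  have hm : C.m (C.p u) - C.m (C.q v) = C.Δ u := by rw [← hk]; rfl
  rw [hm] at h1
  have eu : C.e ε u = C.e ε v := by simp only [Cfg.e, hσ]
  set X := |C.Δ u * (C.x v - C.x u)| with hX
  have a1 : |C.Δ u * dx| ≤ X / 64 := by
    rw [abs_mul]
    have : |C.Δ u| * |dx| ≤ |C.Δ u| * (r / 64) :=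
      mul_le_mul_of_nonneg_left (D.dx1.trans P.εR') (abs_nonneg _)
    linarith
  have a2 : C.e ε v * R ≤ X / 64 := by
    have := eR_le P Q v
    linarith
  have a3 : |θ * (C.Δ v * dx)| ≤ θ * (X / 64) := by
    rw [abs_mul, abs_of_pos P.θ0]
    exact mul_le_mul_of_nonneg_left (D.dx2.trans a2) P.θ0.le
  have a4 : |dy| ≤ θ * (X / 64) := by
    have h4 := e_le_eR P Q v
    have h5 : θ * C.e ε v ≤ θ * (X / 64) := mul_le_mul_of_nonneg_left (h4.trans a2) P.θ0.le
    have h6 := D.dy1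
    have h7 := mul_nonneg P.θ0.le (e_pos P Q v).le
    linarith
  have a5 : |θ * c * (C.Δ u * dx)| ≤ θ * (17 / 16 * (X / 64)) := by
    rw [mul_assoc, abs_mul, abs_of_pos P.θ0, abs_mul]
    exact mul_le_mul_of_nonneg_left (mul_le_mul hc a1 (abs_nonneg _) (by norm_num)) P.θ0.le
  have a6 : |θ * C.e ε u * f| ≤ θ * (X / 16) := by
    rw [mul_assoc, abs_mul, abs_of_pos P.θ0, abs_mul, eu, abs_of_pos (e_pos P Q v)]
    refine mul_le_mul_of_nonneg_left ?_ P.θ0.le
    have : C.e ε v * |f| ≤ C.e ε v * (4 * R) := mul_le_mul_of_nonneg_left hf (e_pos P Q v).le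
    linarith
  have e : hFan C θ ε v u dx dy c f - θ * c * (C.Δ u * (C.x v - C.x u)) =
      - (θ * (C.Δ v * dx)) - dy + θ * c * (C.Δ u * dx) + θ * C.e ε u * f := by
    simp only [hFan]
    have h0 : C.H v (C.q u) = 0 := by rw [hk]; exact hC.on_q v
    rw [h0, hk]
    ring
  rw [e]
  have hθ := P.θ0
  have hX0 : 0 ≤ θ * X := mul_nonneg P.θ0.le (abs_nonneg _)
  rw [abs_le] at *
  constructor <;> linarith [a3.1, a3.2, a4.1, a4.2, a5.1, a5.2, a6.1, a6.2]

/-- common part of the two cases with a different thin line -/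
theorem fan_err (P : EP r S θ ε R) (Q : QOk C F o z r S T θ W U s Z B)
    (D : Dsp C v θ ε R dx dy) (hk : C.q u ≠ C.q v) (hp : C.q u ≠ C.p v)
    {c f : ℝ} (hc : |c| ≤ 17 / 16) (hf : |f| ≤ 4 * R) :
    |hFan C θ ε v u dx dy c f - C.H v (C.q u) - θ * c * (C.Δ u * (C.x v - C.x u))|
      ≤ |C.H v (C.q u)| / 50 ∧
    r * C.σ (C.q u) ≤ |C.H v (C.q u)| := by
  have h3 := Q.h3 v (C.q u) hk hp
  refine ⟨?_, h3⟩
  have b1 := base_err P Q D hk hp
  set X := |C.H v (C.q u)| with hX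
  have hX0 : 0 ≤ X := abs_nonneg _
  have a1 : |C.Δ u * dx| ≤ X / 64 := by
    rw [abs_mul]
    have h4 : |C.Δ u| * |dx| ≤ (S * C.σ (C.q u)) * (ε * R) :=
      mul_le_mul (Q.hi u) D.dx1 (abs_nonneg _) ((abs_nonneg _).trans (Q.hi u))
    have h5 := mul_le_mul_of_nonneg_right P.SεR.le (Q.σ_pos u).le
    have h6 : (S * C.σ (C.q u)) * (ε * R) = S * (ε * R) * C.σ (C.q u) := by ring
    linarith
  have a5 : |θ * c * (C.Δ u * dx)| ≤ 1 / 64 * (17 / 16 * (X / 64)) := by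
    rw [mul_assoc, abs_mul, abs_of_pos P.θ0, abs_mul]
    exact mul_le_mul P.θ1 (mul_le_mul hc a1 (abs_nonneg _) (by norm_num))
      (mul_nonneg (abs_nonneg _) (abs_nonneg _)) (by norm_num)
  have a6 : |θ * C.e ε u * f| ≤ 1 / 64 * (X / 16) := by
    rw [mul_assoc, abs_mul, abs_of_pos P.θ0, abs_mul, abs_of_pos (e_pos P Q u)]
    refine mul_le_mul P.θ1 ?_ (mul_nonneg (e_pos P Q u).le (abs_nonneg _)) (by norm_num)
    have h7 : C.e ε u * |f| ≤ C.e ε u * (4 * R) := mul_le_mul_of_nonneg_left hf (e_pos P Q u).le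
    have h8 := eR_le P Q u
    linarith
  have e : hFan C θ ε v u dx dy c f - C.H v (C.q u) - θ * c * (C.Δ u * (C.x v - C.x u)) =
      ((C.m (C.q u) - C.m (C.q v) - θ * C.Δ v) * dx - dy) + θ * c * (C.Δ u * dx)
        + θ * C.e ε u * f := by
    simp only [hFan]
    ring
  rw [e]
  rw [abs_le] at *
  constructor <;> linarith [b1.1, b1.2, a5.1, a5.2, a6.1, a6.2]

/-- fans seen from a vertex of another cell, or from the same cell -/
theorem fan_t1 (P : EP r S θ ε R) (Q : QOk C F o z r S T θ W U s Z B)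
    (D : Dsp C v θ ε R dx dy) (hk : C.q u ≠ C.q v) (hp : C.q u ≠ C.p v)
    (hn : ¬ F.nr (F.c v) (C.q u) ∨ F.c u = F.c v)
    {c f : ℝ} (hc : |c| ≤ 17 / 16) (hf : |f| ≤ 4 * R) :
    |hFan C θ ε v u dx dy c f - C.H v (C.q u)| ≤ |C.H v (C.q u)| / 4 ∧
    r * C.σ (C.q u) ≤ |C.H v (C.q u)| ∧
    32 * θ * |C.Δ u * (C.x v - C.x u)| ≤ |C.H v (C.q u)| := by
  obtain ⟨h1, h2⟩ := fan_err P Q D hk hp hc hf
  have h3 := Q.t1 v u hk hn
  rw [← abs_mul] at h3
  refine ⟨?_, h2, h3⟩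
  have h4 : |θ * c * (C.Δ u * (C.x v - C.x u))| ≤ |C.H v (C.q u)| / 16 := by
    rw [mul_assoc, abs_mul, abs_of_pos P.θ0, abs_mul]
    have h5 : θ * (|c| * |C.Δ u * (C.x v - C.x u)|) ≤
        θ * (17 / 16 * |C.Δ u * (C.x v - C.x u)|) :=
      mul_le_mul_of_nonneg_left (mul_le_mul_of_nonneg_right hc (abs_nonneg _)) P.θ0.le
    have h6 := mul_nonneg P.θ0.le (abs_nonneg (C.Δ u * (C.x v - C.x u)))
    linarith
  have h0 := abs_nonneg (C.H v (C.q u))
  rw [abs_le] at *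
  constructor <;> linarith [h1.1, h1.2, h4.1, h4.2]

/-- fans of another cell through which the thin line passes -/
theorem fan_t2 (P : EP r S θ ε R) (Q : QOk C F o z r S T θ W U s Z B)
    (D : Dsp C v θ ε R dx dy) (hk : C.q u ≠ C.q v) (hp : C.q u ≠ C.p v)
    (hn : F.nr (F.c v) (C.q u)) (hu : F.c u ≠ F.c v)
    {c f : ℝ} (hc : |c| ≤ 17 / 16) (hf : |f| ≤ 4 * R) :
    |hFan C θ ε v u dx dy c f - θ * c * (C.Δ u * (C.x v - C.x u))|
      ≤ θ * |C.Δ u * (C.x v - C.x u)| / 16 ∧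
    r * C.σ (C.q u) ≤ |C.H v (C.q u)| ∧
    32 * |C.H v (C.q u)| ≤ θ * |C.Δ u * (C.x v - C.x u)| := by
  obtain ⟨h1, h2⟩ := fan_err P Q D hk hp hc hf
  have h3 := Q.t2 v u hn hu
  rw [← abs_mul] at h3
  refine ⟨?_, h2, h3⟩
  have h0 := abs_nonneg (C.H v (C.q u))
  have h4 : hFan C θ ε v u dx dy c f - θ * c * (C.Δ u * (C.x v - C.x u)) =
    (hFan C θ ε v u dx dy c f - C.H v (C.q u) - θ * c * (C.Δ u * (C.x v - C.x u)))
      + C.H v (C.q u) := by ring
  rw [h4]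
  have h5 := abs_add_le (hFan C θ ε v u dx dy c f - C.H v (C.q u)
    - θ * c * (C.Δ u * (C.x v - C.x u))) (C.H v (C.q u))
  linarith

/-- lower bounds for fans of other vertices, in all cases -/
theorem fan_lower (P : EP r S θ ε R) (Q : QOk C F o z r S T θ W U s Z B)
    (D : Dsp C v θ ε R dx dy) [Fintype ι] (hC : C.Good) (hu : u ≠ v)
    {c f : ℝ} (hc : |c| ≤ 17 / 16) (hc' : 15 / 16 ≤ |c|) (hf : |f| ≤ 4 * R) :
    θ * |C.Δ u * (C.x v - C.x u)| / 2 ≤ |hFan C θ ε v u dx dy c f| ∧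
    θ * (r * C.σ (C.q u)) / 2 ≤ |hFan C θ ε v u dx dy c f| := by
  have hθ := P.θ0
  by_cases hk : C.q u = C.q v
  · obtain ⟨h1, h2⟩ := fan_same P Q D hC hk hu hc hf
    have h3 : |θ * c * (C.Δ u * (C.x v - C.x u))| = θ * |c| * |C.Δ u * (C.x v - C.x u)| := by
      rw [abs_mul, abs_mul, abs_of_pos P.θ0]
    have h4 := abs_sub_abs_le_abs_sub (θ * c * (C.Δ u * (C.x v - C.x u)))
      (hFan C θ ε v u dx dy c f)
    rw [abs_sub_comm] at h4
    rw [h3] at h4
    have h5 : θ * (15 / 16) * |C.Δ u * (C.x v - C.x u)| ≤ θ * |c| * |C.Δ u * (C.x v - C.x u)| :=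
      mul_le_mul_of_nonneg_right (mul_le_mul_of_nonneg_left hc' hθ.le) (abs_nonneg _)
    have h6 := mul_nonneg P.θ0.le (abs_nonneg (C.Δ u * (C.x v - C.x u)))
    have h7 : θ * (r * C.σ (C.q u)) ≤ θ * |C.Δ u * (C.x v - C.x u)| :=
      mul_le_mul_of_nonneg_left h2 hθ.le
    constructor <;> linarith
  · have hp : C.q u ≠ C.p v := hC.bip u v
    by_cases hn : ¬ F.nr (F.c v) (C.q u) ∨ F.c u = F.c v
    · obtain ⟨h1, h2, h3⟩ := fan_t1 P Q D hk hp hn hc hf
      have h4 := abs_ge_of_close h1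
      have h0 := abs_nonneg (C.H v (C.q u))
      have h6 := mul_nonneg P.θ0.le (abs_nonneg (C.Δ u * (C.x v - C.x u)))
      have h7 : θ * (r * C.σ (C.q u)) ≤ 1 / 64 * |C.H v (C.q u)| :=
        mul_le_mul P.θ1 h2 (mul_nonneg P.r0.le (Q.σ_pos u).le) (by norm_num)
      constructor <;> linarith
    · push Not at hn
      obtain ⟨h1, h2, h3⟩ := fan_t2 P Q D hk hp hn.1 hn.2 hc hf
      have h3' : |θ * c * (C.Δ u * (C.x v - C.x u))| = θ * |c| * |C.Δ u * (C.x v - C.x u)| := by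
        rw [abs_mul, abs_mul, abs_of_pos P.θ0]
      have h4 := abs_sub_abs_le_abs_sub (θ * c * (C.Δ u * (C.x v - C.x u)))
        (hFan C θ ε v u dx dy c f)
      rw [abs_sub_comm] at h4
      rw [h3'] at h4
      have h5 : θ * (15 / 16) * |C.Δ u * (C.x v - C.x u)| ≤
          θ * |c| * |C.Δ u * (C.x v - C.x u)| :=
        mul_le_mul_of_nonneg_right (mul_le_mul_of_nonneg_left hc' hθ.le) (abs_nonneg _)
      have h6 := mul_nonneg P.θ0.le (abs_nonneg (C.Δ u * (C.x v - C.x u)))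
      have h0 := abs_nonneg (C.H v (C.q u))
      have h7 : θ * (r * C.σ (C.q u)) ≤ 1 / 64 * |C.H v (C.q u)| :=
        mul_le_mul P.θ1 h2 (mul_nonneg P.r0.le (Q.σ_pos u).le) (by norm_num)
      constructor <;> linarith

end

end Vale.Agent.P065.W
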