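import Mathlib
import Vale.Agent.P065.W.Defs

/-!
P065, wide fans, block F: centering of the slopes and the final replication.
-/

set_option linter.all false

namespace Vale.Agent.P065.W

open Vale.Agent.P065

/-! ### centering and the final replication -/

/-- integer configuration with centered slopes -/
def Cfg.cen {ι υ : Type} (C : Cfg ι υ) (c S : ℝ) : Cfg ι υ where
  m := fun k => c * C.m k - S
  t := fun k => c * C.t k
  w := C.w
  σ := C.σ
  q := C.q
  p := C.p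
  x := C.x
  y := fun v => c * C.y v - S * C.x v

theorem cen_H {ι υ : Type} (C : Cfg ι υ) (c S : ℝ) (v : υ) (k : ι) :
    (Cfg.cen C c S).H v k = c * C.H v k := by
  simp only [Cfg.H, Cfg.cen]; ring

theorem cen_good {ι υ : Type} [Fintype ι] {C : Cfg ι υ} (hC : C.Good) {c : ℝ} (hc : 0 < c)
    (S : ℝ) : (Cfg.cen C c S).Good := by
  constructor
  · intro v; rw [cen_H]; exact mul_eq_zero_of_right _ (hC.on_q v)
  · intro v; rw [cen_H]; exact mul_eq_zero_of_right _ (hC.on_p v)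
  · intro v
    have : (Cfg.cen C c S).Δ v = c * C.Δ v := by simp only [Cfg.Δ, Cfg.cen]; ring
    rw [this]; exact mul_ne_zero hc.ne' (hC.ne v)
  · exact hC.w_q
  · exact hC.w_p
  · exact hC.bip
  · exact hC.inj
  · intro v k h1 h2
    rw [cen_H]; exact mul_ne_zero hc.ne' (hC.off v k h1 h2)
  · intro v
    have h : ∀ k, ((Cfg.cen C c S).w k : ℤ) * sg ((Cfg.cen C c S).H v k) =
        (C.w k : ℤ) * sg (C.H v k) := by
      intro k; rw [cen_H, sg_mul_pos hc]; rfl
    rw [Finset.sum_congr rfl fun k _ => h k]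
    exact hC.bal v

theorem IC2.center {h d V A : ℕ} {B Γ T s Z : ℝ} (H : IC2 h d V A B Γ T s Z) (hh : 1 ≤ h)
    (hB : 1 ≤ B) : IC h d V (4 * h * A) (4 * h * A * B + 2 * h * B) Γ := by
  obtain ⟨ι, υ, _, _, C, a, hC, hm, ha, ht, hx, hy, hΓ, _, _, _, hd, hw, hV⟩ := H
  set S : ℤ := ∑ k, (C.w k : ℤ) * a k with hS
  have hw' : ∑ k, (C.w k : ℤ) = 2 * (h : ℤ) := by
    have : ∑ k, C.w k = 2 * h := hw
    exact_mod_cast this
  have hSb : |S| ≤ 2 * h * A := by
    calc |S| ≤ ∑ k, |(C.w k : ℤ) * a k| := Finset.abs_sum_le_sum_abs _ _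
      _ ≤ ∑ k, (C.w k : ℤ) * A := by
        apply Finset.sum_le_sum
        intro k _
        rw [abs_mul, abs_of_nonneg (Int.natCast_nonneg _)]
        exact mul_le_mul_of_nonneg_left (ha k) (Int.natCast_nonneg _)
      _ = 2 * h * A := by rw [← Finset.sum_mul, hw']
  have hh0 : (0 : ℝ) < 2 * h := by
    have : (1 : ℝ) ≤ h := by exact_mod_cast hh
    linarith
  have hSbR : |(S : ℝ)| ≤ 2 * h * A := by
    have : ((|S| : ℤ) : ℝ) ≤ ((2 * h * A : ℤ) : ℝ) := by exact_mod_cast hSb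
    push_cast at this
    exact this
  have hA0 : (0 : ℝ) ≤ A := Nat.cast_nonneg _
  refine ⟨ι, υ, inferInstance, inferInstance, Cfg.cen C (2 * h) S, fun k => 2 * h * a k - S,
    cen_good hC hh0 S, ?_, ?_, ?_, ?_, ?_, ?_, ?_, ?_, ?_, hV⟩
  · intro k
    simp only [Cfg.cen, hm]
    push_cast
    ring
  · intro k
    have h1 : |2 * (h : ℤ) * a k| ≤ 2 * h * A := by
      rw [abs_mul, abs_of_nonneg (by positivity)]
      exact mul_le_mul_of_nonneg_left (ha k) (by positivity)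
    have h2 := abs_sub (2 * (h : ℤ) * a k) S
    push_cast
    calc |2 * (h : ℤ) * a k - S| ≤ |2 * (h : ℤ) * a k| + |S| := abs_sub _ _
      _ ≤ 2 * h * A + 2 * h * A := add_le_add h1 hSb
      _ = 4 * h * A := by ring
  · show ∑ k, (C.w k : ℤ) * (2 * h * a k - S) = 0
    have e1 : ∀ k, (C.w k : ℤ) * (2 * h * a k - S) = 2 * h * ((C.w k : ℤ) * a k) - (C.w k : ℤ) * S :=
      fun k => by ring
    rw [Finset.sum_congr rfl fun k _ => e1 k, Finset.sum_sub_distrib, ← Finset.mul_sum,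
      ← Finset.sum_mul, hw', ← hS]
    ring
  · intro k
    show |2 * (h : ℝ) * C.t k| ≤ _
    rw [abs_mul, abs_of_pos hh0]
    have h1 : 2 * (h : ℝ) * |C.t k| ≤ 2 * h * B := mul_le_mul_of_nonneg_left (ht k) hh0.le
    have h2 : 0 ≤ 4 * (h : ℝ) * A * B := by positivity
    linarith only [h1, h2]
  · intro v
    refine (hx v).trans ?_
    have h1 : (1 : ℝ) ≤ 2 * h := by
      have : (1 : ℝ) ≤ h := by exact_mod_cast hh
      linarith
    have h2 : 0 ≤ 4 * (h : ℝ) * A * B := by positivity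
    have h3 : 1 * B ≤ 2 * h * B := mul_le_mul_of_nonneg_right h1 (by linarith only [hB])
    linarith only [h2, h3]
  · intro v
    show |2 * (h : ℝ) * C.y v - S * C.x v| ≤ _
    have h1 : |2 * (h : ℝ) * C.y v| ≤ 2 * h * B := by
      rw [abs_mul, abs_of_pos hh0]
      exact mul_le_mul_of_nonneg_left (hy v) hh0.le
    have h2 : |(S : ℝ) * C.x v| ≤ 2 * h * A * B := by
      rw [abs_mul]
      exact mul_le_mul hSbR (hx v) (abs_nonneg _) (by positivity)
    have h3 : |2 * (h : ℝ) * C.y v - S * C.x v| ≤ |2 * (h : ℝ) * C.y v| + |(S : ℝ) * C.x v| :=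
      abs_sub _ _
    have h4 : 0 ≤ 2 * (h : ℝ) * A * B := by positivity
    linarith only [h1, h2, h3, h4]
  · intro v k h1 h2
    rw [cen_H, abs_mul, abs_of_pos hh0]
    have h3 := hΓ v k h1 h2
    have h4 : (1 : ℝ) ≤ 2 * h := by
      have : (1 : ℝ) ≤ h := by exact_mod_cast hh
      linarith
    have h5 : 0 ≤ Γ * |C.H v k| := by linarith only [h3]
    calc (1 : ℝ) ≤ Γ * |C.H v k| := h3
      _ = 1 * (Γ * |C.H v k|) := (one_mul _).symm
      _ ≤ 2 * h * (Γ * |C.H v k|) := mul_le_mul_of_nonneg_right h4 h5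
      _ = Γ * (2 * h * |C.H v k|) := by ring
  · exact hd
  · exact hw

theorem final : FinalStmt2 := by
  obtain ⟨c, hc⟩ := final_rep
  refine ⟨8 * c + 1, by have : (0 : ℝ) ≤ c := Nat.cast_nonneg _; linarith, ?_⟩
  intro n a g q p d x hLC hn ha hg hx m hm hle
  obtain ⟨h, D, V, A, B, Γ, T, s, Z, hIC, h1, hhn, A1, hAa, B1, Γ1, hBΓ, T1, hTq, s1, hsZ, hZ, D1,
    hD, hxV⟩ := hLC
  -- the bound `P`
  have P0 : (0 : ℝ) < 2 ^ n := by positivity
  have h1R : (1 : ℝ) ≤ h := by exact_mod_cast h1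
  have A1R : (1 : ℝ) ≤ A := by exact_mod_cast A1
  have e1 : (1 : ℝ) ≤ 2 ^ n := Real.one_le_rpow (by norm_num) hn
  have e2 : (1 : ℝ) ≤ 2 ^ a := Real.one_le_rpow (by norm_num) ha
  have e3 : (1 : ℝ) ≤ 2 ^ g := Real.one_le_rpow (by norm_num) hg
  have hB : B ≤ 2 ^ g := le_trans (by nlinarith only [B1, Γ1]) hBΓ
  have hΓ : Γ ≤ 2 ^ g := le_trans (by nlinarith only [B1, Γ1]) hBΓ
  set Q : ℝ := 2 ^ n * 2 ^ a * 2 ^ g with hQ
  have hQ1 : 1 ≤ Q := by
    have : (1 : ℝ) ≤ 2 ^ n * 2 ^ a := by nlinarith only [e1, e2]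
    nlinarith only [this, e3, hQ]
  have hhA : (h : ℝ) * A ≤ 2 ^ n * 2 ^ a := mul_le_mul hhn hAa (by linarith only [A1R]) (by positivity)
  have hhAB : (h : ℝ) * A * B ≤ Q := mul_le_mul hhA hB (by linarith only [B1]) (by positivity)
  have k1 : (h : ℝ) ≤ Q := by
    have : (h : ℝ) * 1 * 1 ≤ h * A * B := by
      apply mul_le_mul _ B1 (by norm_num) (by positivity)
      exact mul_le_mul_of_nonneg_left A1R (by positivity)
    linarith only [this, hhAB]
  have k2 : 4 * (h : ℝ) * A ≤ 4 * Q := by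
    have : (h : ℝ) * A * 1 ≤ h * A * B := mul_le_mul_of_nonneg_left B1 (by positivity)
    linarith only [this, hhAB]
  have k3 : 4 * (h : ℝ) * A * B + 2 * h * B ≤ 6 * Q := by
    have : (h : ℝ) * 1 * B ≤ h * A * B :=
      mul_le_mul_of_nonneg_right (mul_le_mul_of_nonneg_left A1R (by positivity))
        (by linarith only [B1])
    linarith only [this, hhAB]
  have k4 : Γ ≤ Q := by
    have : (1 : ℝ) * 2 ^ g ≤ 2 ^ n * 2 ^ a * 2 ^ g :=
      mul_le_mul_of_nonneg_right (by nlinarith only [e1, e2]) (by positivity)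
    linarith only [this, hΓ]
  set P : ℕ := ⌈6 * Q⌉₊ with hP
  have hPle : 6 * Q ≤ P := Nat.le_ceil _
  have hPlt : (P : ℝ) ≤ 7 * Q := by
    have := (Nat.ceil_lt_add_one (by linarith only [hQ1] : (0 : ℝ) ≤ 6 * Q)).le
    linarith only [this, hQ1]
  have hIC' : IC' P D (2 ^ x) := by
    refine ⟨h, V, 4 * h * A, 4 * h * A * B + 2 * h * B, Γ, hIC.center h1 B1, h1, ?_, ?_, ?_, ?_,
      ?_, Γ1, ?_, hxV⟩
    · have : (h : ℝ) ≤ P := by linarith only [k1, hPle, hQ1]
      exact_mod_cast this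
    · have : 1 ≤ h * A := Nat.mul_pos h1 A1
      nlinarith only [this]
    · have : ((4 * h * A : ℕ) : ℝ) ≤ P := by push_cast; linarith only [k2, hPle, hQ1]
      exact_mod_cast this
    · have : 0 ≤ 4 * (h : ℝ) * A * B := by positivity
      nlinarith only [this, h1R, B1]
    · linarith only [k3, hPle]
    · linarith only [k4, hPle, hQ1]
  have hP1 : 1 ≤ P := by
    have : (1 : ℝ) ≤ P := by linarith only [hPle, hQ1]
    exact_mod_cast this
  have hx1 : (1 : ℝ) ≤ 2 ^ x := Real.one_le_rpow (by norm_num) hx.le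
  have hfin : P ^ c ≤ m := by
    have hc0 : (0 : ℝ) ≤ c := Nat.cast_nonneg _
    have f1 : (7 : ℝ) ≤ 2 ^ (3 : ℝ) := by
      have : (2 : ℝ) ^ (3 : ℝ) = 8 := by norm_num
      rw [this]; norm_num
    have f2 : (P : ℝ) ≤ 2 ^ (n + a + g + 3) := by
      have : (2 : ℝ) ^ (n + a + g + 3) = 2 ^ n * 2 ^ a * 2 ^ g * 2 ^ (3 : ℝ) := by
        rw [Real.rpow_add (by norm_num), Real.rpow_add (by norm_num), Real.rpow_add (by norm_num)]
      rw [this]
      have : (2 : ℝ) ^ n * 2 ^ a * 2 ^ g * 7 ≤ 2 ^ n * 2 ^ a * 2 ^ g * 2 ^ (3 : ℝ) :=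
        mul_le_mul_of_nonneg_left f1 (by positivity)
      linarith only [this, hPlt, hQ]
    have f3 : ((P ^ c : ℕ) : ℝ) ≤ m := by
      push_cast
      calc (P : ℝ) ^ c ≤ ((2 : ℝ) ^ (n + a + g + 3)) ^ c :=
            pow_le_pow_left₀ (Nat.cast_nonneg _) f2 c
        _ = (2 : ℝ) ^ ((n + a + g + 3) * c) := by
            rw [← Real.rpow_natCast, ← Real.rpow_mul (by norm_num)]
        _ ≤ (2 : ℝ) ^ ((8 * c + 1) * (n + a + g + 1)) := by
            apply Real.rpow_le_rpow_of_exponent_le (by norm_num)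
            nlinarith only [hc0, hn, ha, hg, mul_nonneg hc0 (add_nonneg (add_nonneg hn ha) hg)]
        _ ≤ m := hle
    exact_mod_cast f3
  obtain ⟨V', hG, hV'⟩ := hc P D (2 ^ x) hP1 hx1 hIC' m hm hfin
  exact ⟨V', hG, hV'⟩

end Vale.Agent.P065.W
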