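import Vale.Agent.P065.W.Defs

/-!
P065, wide fans: the insertion of a gadget, definition and height formulas, and the structure
`SigOk` of sign facts (proved in Est.lean, used in Bal.lean and Tol.lean).
-/

set_option linter.all false

namespace Vale.Agent.P065.W

open Vale.Agent.P065

variable {ι υ γ κ ν βQ βP γ' : Type}

/-- kinds of parallels of an old line: Q-lines, P-lines, near pads, far pads -/
abbrev Pr (βQ βP : Type) : Type := βQ ⊕ (βP ⊕ (Bool ⊕ Bool))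

/-- sign of a pad -/
def bs (b : Bool) : ℤ := if b then 1 else -1

open scoped Classical in
/-- vertical offsets of the parallels of line `k` -/
noncomputable def off2 (C : Cfg ι υ) (o : ι → ℝ) (G : Gad κ ν βQ βP) (θ ε R : ℝ) (k : ι) :
    Pr βQ βP → ℝ
  | Sum.inl b => ε * C.σ k * (if C.Thin k then θ * G.oQ b else 4 * R)
  | Sum.inr (Sum.inl b) => ε * C.σ k * (if C.Thick k then (1 - θ) * G.oP b else 4 * R)
  | Sum.inr (Sum.inr (Sum.inl b)) => ε * C.σ k * ((bs b : ℝ) * (4 * R))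
  | Sum.inr (Sum.inr (Sum.inr b)) => (bs b : ℝ) * o k

open scoped Classical in
/-- weights of the parallels of line `k` -/
noncomputable def wt2 [Fintype υ] (C : Cfg ι υ) (F : Cel ι υ γ) (G : Gad κ ν βQ βP)
    (A A' g D E : ℕ) (k : ι) : Pr βQ βP → ℕ
  | Sum.inl b => if C.Thin k then G.wQ b else 0
  | Sum.inr (Sum.inl b) => if C.Thick k then G.wP b else 0
  | Sum.inr (Sum.inr (Sum.inl _)) => if C.Thin k then 2 * g * (D - F.D k) else
      if C.Thick k then (A + 2 * g * D) - A' else (A + 2 * g * D) * C.w k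
  | Sum.inr (Sum.inr (Sum.inr _)) => if C.Thin k then 2 * g * (E - (C.deg k - F.D k)) else
      2 * g * E * C.w k

/-- insertion of the gadget `G` at all used vertices of `C` -/
noncomputable def ins2 [Fintype υ] (C : Cfg ι υ) (F : Cel ι υ γ) (o : ι → ℝ) (G : Gad κ ν βQ βP)
    (θ η ε R s' : ℝ) (A A' g D E : ℕ) :
    Cfg ((ι × Pr βQ βP) ⊕ (υ × (κ ⊕ Bool))) (υ × ν) where
  m := Sum.elim (fun k => C.m k.1) (fun u => C.m (C.q u.1) + θ * C.Δ u.1 * satC G η u.2)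
  t := Sum.elim (fun k => C.t k.1 + off2 C o G θ ε R k.1 k.2)
    (fun u => C.y u.1 + θ * C.e ε u.1 * satF G η R u.2
      - (C.m (C.q u.1) + θ * C.Δ u.1 * satC G η u.2) * C.x u.1)
  w := Sum.elim (fun k => wt2 C F G A A' g D E k.1 k.2) (fun u => satW G g u.2)
  σ := Sum.elim (fun _ => 0)
    (fun u => Sum.elim (fun _ => θ * η * |C.Δ u.1| * s' / 2) (fun _ => 0) u.2)
  q := fun v => Sum.inr (v.1, Sum.inl (G.L.q v.2))
  p := fun v => Sum.inr (v.1, Sum.inl (G.L.p v.2))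
  x := fun v => C.x v.1 + C.e ε v.1 / C.Δ v.1 * G.L.x v.2
  y := fun v => C.y v.1 + (C.m (C.q v.1) + θ * C.Δ v.1) * (C.e ε v.1 / C.Δ v.1 * G.L.x v.2)
    + θ * η * C.e ε v.1 * G.L.y v.2

/-- cells of the new configuration: the cells of the gadget copies -/
def cel2 (F' : Cel κ ν γ') :
    Cel ((ι × Pr βQ βP) ⊕ (υ × (κ ⊕ Bool))) (υ × ν) (υ × γ') where
  c v := (v.1, F'.c v.2)
  nr g k := match k with
    | Sum.inr (u, Sum.inl j) => u = g.1 ∧ F'.nr g.2 j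
    | _ => False
  D k := match k with
    | Sum.inr (_, Sum.inl j) => F'.D j
    | _ => 0

/-- pad offsets of the new configuration -/
noncomputable def o2 (C : Cfg ι υ) (θ η ε : ℝ) : (ι × Pr βQ βP) ⊕ (υ × (κ ⊕ Bool)) → ℝ
  | Sum.inr (u, Sum.inl _) => θ * η * C.e ε u / 16
  | _ => 0

/-- home abscissas of the new configuration -/
def z2 (C : Cfg ι υ) (z : ι → ℝ) : (ι × Pr βQ βP) ⊕ (υ × (κ ⊕ Bool)) → ℝ :=
  Sum.elim (fun k => z k.1) (fun u => C.x u.1)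

/-- relations between the parameters of an insertion -/
structure Par2 (R ρ r S T θ η ε : ℝ) : Prop where
  R1 : 1 ≤ R
  ρ0 : 0 < ρ
  ρ1 : ρ ≤ 1 / 8
  r0 : 0 < r
  r1 : r ≤ 1
  S1 : 1 ≤ S
  T1 : 1 ≤ T
  θ0 : 0 < θ
  θ1 : θ ≤ 1 / 64
  η0 : 0 < η
  η1 : η ≤ 1 / 4
  ε0 : 0 < ε
  εR : 64 * S * (ε * R) = r

section formulas

variable [Fintype υ] {C : Cfg ι υ} {F : Cel ι υ γ} {o : ι → ℝ} {G : Gad κ ν βQ βP}
  {θ η ε R s' : ℝ} {A A' g D E : ℕ}

/-- height of the old line `k` at the new vertex `v`, relative to the height at the old vertex -/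
theorem ins2_H_inl (v : υ × ν) (k : ι) (b : Pr βQ βP) :
    (ins2 C F o G θ η ε R s' A A' g D E).H v (Sum.inl (k, b)) =
      C.H v.1 k + (C.m k - C.m (C.q v.1) - θ * C.Δ v.1) * (C.e ε v.1 / C.Δ v.1 * G.L.x v.2)
        - θ * η * C.e ε v.1 * G.L.y v.2 + off2 C o G θ ε R k b := by
  simp only [ins2, Cfg.H, Sum.elim_inl]
  ring

/-- height of a satellite at a new vertex -/
theorem ins2_H_inr [Fintype ι] (hC : C.Good) (v : υ × ν) (u : υ) (j : κ ⊕ Bool) :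
    (ins2 C F o G θ η ε R s' A A' g D E).H v (Sum.inr (u, j)) =
      C.H v.1 (C.q u)
        + (C.m (C.q u) - C.m (C.q v.1) - θ * C.Δ v.1) * (C.e ε v.1 / C.Δ v.1 * G.L.x v.2)
        - θ * η * C.e ε v.1 * G.L.y v.2
        + θ * satC G η j * (C.Δ u * (C.x v.1 - C.x u)
          + C.Δ u * (C.e ε v.1 / C.Δ v.1 * G.L.x v.2))
        + θ * C.e ε u * satF G η R j := by
  have h := hC.on_q u
  simp only [Cfg.H] at h
  simp only [ins2, Cfg.H, Sum.elim_inr]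
  linear_combination -h

/-- heights of the parallels of the thin line at its own vertex -/
theorem ins2_H_thin [Fintype ι] (hC : C.Good) (v : υ × ν) (b : Pr βQ βP) :
    (ins2 C F o G θ η ε R s' A A' g D E).H v (Sum.inl (C.q v.1, b)) =
      off2 C o G θ ε R (C.q v.1) b - C.e ε v.1 * (θ * (G.L.x v.2 + η * G.L.y v.2)) := by
  rw [ins2_H_inl, hC.on_q]
  have h := hC.ne v.1
  have h2 : (C.m (C.q v.1) - C.m (C.q v.1) - θ * C.Δ v.1) * (C.e ε v.1 / C.Δ v.1 * G.L.x v.2)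
      = - θ * (C.e ε v.1 * G.L.x v.2) := by
    field_simp
    ring
  rw [h2]
  ring

/-- heights of the parallels of the thick line at its own vertex -/
theorem ins2_H_thick [Fintype ι] (hC : C.Good) (v : υ × ν) (b : Pr βQ βP) :
    (ins2 C F o G θ η ε R s' A A' g D E).H v (Sum.inl (C.p v.1, b)) =
      off2 C o G θ ε R (C.p v.1) b
        + C.e ε v.1 * ((1 - θ) * G.L.x v.2 - θ * (η * G.L.y v.2)) := by
  rw [ins2_H_inl, hC.on_p]
  have h := hC.ne v.1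
  have h2 : (C.m (C.p v.1) - C.m (C.q v.1) - θ * C.Δ v.1) * (C.e ε v.1 / C.Δ v.1 * G.L.x v.2)
      = (1 - θ) * (C.e ε v.1 * G.L.x v.2) := by
    have h3 : C.m (C.p v.1) - C.m (C.q v.1) = C.Δ v.1 := rfl
    rw [h3]
    field_simp
  rw [h2]
  ring

/-- heights of the own satellites -/
theorem ins2_H_own [Fintype ι] (hC : C.Good) (v : υ × ν) (j : κ ⊕ Bool) :
    (ins2 C F o G θ η ε R s' A A' g D E).H v (Sum.inr (v.1, j)) =
      θ * C.e ε v.1 * ((satC G η j - 1) * G.L.x v.2 + satF G η R j - η * G.L.y v.2) := by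
  rw [ins2_H_inr hC, hC.on_q]
  have h := hC.ne v.1
  have h2 : (C.m (C.q v.1) - C.m (C.q v.1) - θ * C.Δ v.1) * (C.e ε v.1 / C.Δ v.1 * G.L.x v.2)
      = - θ * (C.e ε v.1 * G.L.x v.2) := by
    field_simp
    ring
  have h3 : C.Δ v.1 * (C.e ε v.1 / C.Δ v.1 * G.L.x v.2) = C.e ε v.1 * G.L.x v.2 := by
    (clear * - h; field_simp)
  rw [h2, h3]
  ring

/-- heights of the gadget lines at their own vertices -/
theorem ins2_H_gad [Fintype ι] (hC : C.Good) (v : υ × ν) (j : κ) :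
    (ins2 C F o G θ η ε R s' A A' g D E).H v (Sum.inr (v.1, Sum.inl j)) =
      θ * η * C.e ε v.1 * G.L.H v.2 j := by
  rw [ins2_H_own hC]
  simp only [satC, satF, Cfg.H]
  ring

theorem ins2_Δ (v : υ × ν) : (ins2 C F o G θ η ε R s' A A' g D E).Δ v =
    θ * η * C.Δ v.1 * G.L.Δ v.2 := by
  simp only [ins2, Cfg.Δ, Sum.elim_inr, satC]
  ring

end formulas

/-- All sign facts about the heights in the new configuration (proved in Est.lean). -/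
structure SigOk [Fintype υ] (C : Cfg ι υ) (F : Cel ι υ γ) (o : ι → ℝ) (G : Gad κ ν βQ βP)
    (r θ η ε ρ Γ R s' : ℝ) (A A' g D E : ℕ) : Prop where
  /-- parallels (no far pads) of lines not through the vertex -/
  par : ∀ (v : υ × ν) (k : ι) (b : Pr βQ βP), (∀ f, b ≠ Sum.inr (Sum.inr (Sum.inr f))) →
    k ≠ C.q v.1 → k ≠ C.p v.1 →
    |(ins2 C F o G θ η ε R s' A A' g D E).H v (Sum.inl (k, b)) - C.H v.1 k| ≤ |C.H v.1 k| / 4
  /-- far pads of far lines -/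
  farF : ∀ (v : υ × ν) (k : ι) (b : Bool), ¬ F.nr (F.c v.1) k →
    |(ins2 C F o G θ η ε R s' A A' g D E).H v (Sum.inl (k, Sum.inr (Sum.inr (Sum.inr b))))
      - C.H v.1 k| ≤ |C.H v.1 k| / 2
  /-- far pads of near lines (including the thin and the thick line of the vertex) -/
  farN : ∀ (v : υ × ν) (k : ι) (b : Bool), F.nr (F.c v.1) k →
    |(ins2 C F o G θ η ε R s' A A' g D E).H v (Sum.inl (k, Sum.inr (Sum.inr (Sum.inr b))))
      - (bs b : ℝ) * o k| ≤ o k / 2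
  /-- fans on the side of their thin line -/
  fanS : ∀ (v : υ × ν) (u : υ) (j : κ ⊕ Bool), C.q u ≠ C.q v.1 →
    (¬ F.nr (F.c v.1) (C.q u) ∨ F.c u = F.c v.1) →
    |(ins2 C F o G θ η ε R s' A A' g D E).H v (Sum.inr (u, j)) - C.H v.1 (C.q u)|
      ≤ |C.H v.1 (C.q u)| / 4
  /-- diverging fans -/
  fanD : ∀ (v : υ × ν) (u : υ) (j : κ ⊕ Bool), u ≠ v.1 →
    (C.q u = C.q v.1 ∨ (F.nr (F.c v.1) (C.q u) ∧ F.c u ≠ F.c v.1)) →
    |(ins2 C F o G θ η ε R s' A A' g D E).H v (Sum.inr (u, j))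
        - θ * satC G η j * (C.Δ u * (C.x v.1 - C.x u))|
      ≤ θ * (|C.Δ u * (C.x v.1 - C.x u)| / 4)
  /-- lower bounds for all fans of other vertices -/
  fan1 : ∀ (v : υ × ν) (u : υ) (j : κ ⊕ Bool), u ≠ v.1 →
    θ * (|C.Δ u| * |C.x v.1 - C.x u|) ≤
      2 * |(ins2 C F o G θ η ε R s' A A' g D E).H v (Sum.inr (u, j))|
  fan2 : ∀ (v : υ × ν) (u : υ) (j : κ ⊕ Bool), u ≠ v.1 →
    θ * (r * C.σ (C.q u)) ≤
      2 * |(ins2 C F o G θ η ε R s' A A' g D E).H v (Sum.inr (u, j))|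
  fan3 : ∀ (v : υ × ν) (u : υ) (j : κ ⊕ Bool), u ≠ v.1 →
    θ * (r * C.σ (C.q v.1)) ≤
      2 * |(ins2 C F o G θ η ε R s' A A' g D E).H v (Sum.inr (u, j))|
  satC1 : ∀ j : κ, 3 / 4 ≤ satC G η (Sum.inl j)
  satC2 : ∀ j : κ ⊕ Bool, |satC G η j| ≤ 5 / 4
  Δx : ∀ u v : υ, u ≠ v → (C.q u = C.q v ∨ (F.nr (F.c v) (C.q u) ∧ F.c u ≠ F.c v)) →
    0 < |C.Δ u * (C.x v - C.x u)|
  e0 : ∀ u, 0 < C.e ε u
  /-- own group -/
  thinQ : ∀ (v : υ × ν) (b : βQ),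
    sg ((ins2 C F o G θ η ε R s' A A' g D E).H v (Sum.inl (C.q v.1, Sum.inl b))) =
      sg (G.oQ b - (G.L.x v.2 + η * G.L.y v.2)) ∧
    θ * C.e ε v.1 * ρ ≤
      |(ins2 C F o G θ η ε R s' A A' g D E).H v (Sum.inl (C.q v.1, Sum.inl b))|
  thinP : ∀ (v : υ × ν) (b : βP), C.e ε v.1 * R ≤
      |(ins2 C F o G θ η ε R s' A A' g D E).H v (Sum.inl (C.q v.1, Sum.inr (Sum.inl b)))|
  thinN : ∀ (v : υ × ν) (b : Bool),
    sg ((ins2 C F o G θ η ε R s' A A' g D E).H v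
      (Sum.inl (C.q v.1, Sum.inr (Sum.inr (Sum.inl b))))) = bs b ∧
    C.e ε v.1 * R ≤ |(ins2 C F o G θ η ε R s' A A' g D E).H v
      (Sum.inl (C.q v.1, Sum.inr (Sum.inr (Sum.inl b))))|
  thickQ : ∀ (v : υ × ν) (b : βQ), C.e ε v.1 * R ≤
      |(ins2 C F o G θ η ε R s' A A' g D E).H v (Sum.inl (C.p v.1, Sum.inl b))|
  thickP : ∀ (v : υ × ν) (b : βP),
    sg ((ins2 C F o G θ η ε R s' A A' g D E).H v (Sum.inl (C.p v.1, Sum.inr (Sum.inl b)))) =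
      sg (G.L.x v.2 + G.oP b) ∧
    C.e ε v.1 / 8 ≤
      |(ins2 C F o G θ η ε R s' A A' g D E).H v (Sum.inl (C.p v.1, Sum.inr (Sum.inl b)))|
  thickN : ∀ (v : υ × ν) (b : Bool),
    sg ((ins2 C F o G θ η ε R s' A A' g D E).H v
      (Sum.inl (C.p v.1, Sum.inr (Sum.inr (Sum.inl b))))) = bs b ∧
    C.e ε v.1 * R ≤ |(ins2 C F o G θ η ε R s' A A' g D E).H v
      (Sum.inl (C.p v.1, Sum.inr (Sum.inr (Sum.inl b))))|
  ownF : ∀ (v : υ × ν) (b : Bool),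
    sg ((ins2 C F o G θ η ε R s' A A' g D E).H v (Sum.inr (v.1, Sum.inr b))) = bs b ∧
    θ * C.e ε v.1 * R ≤ |(ins2 C F o G θ η ε R s' A A' g D E).H v (Sum.inr (v.1, Sum.inr b))|
  ownG : ∀ (v : υ × ν) (j : κ), j ≠ G.L.q v.2 → j ≠ G.L.p v.2 → θ * η * C.e ε v.1 ≤
      Γ * |(ins2 C F o G θ η ε R s' A A' g D E).H v (Sum.inr (v.1, Sum.inl j))|

/-- BLOCK P2a (Est.lean): the sign facts. -/
def SigStmt : Prop :=
  ∀ {ι υ γ κ ν βQ βP γ' : Type} [Fintype ι] [Fintype υ] [Fintype κ] [Fintype ν] [Fintype βQ]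
    [Fintype βP] {C : Cfg ι υ} {F : Cel ι υ γ} {o z : ι → ℝ} {G : Gad κ ν βQ βP}
    {F' : Cel κ ν γ'} {R ρ Γ r S T θ η ε W U s Z B s' Z' : ℝ} {A A' g D E D' E' : ℕ},
    C.Good → CelOk C F D E → QOk C F o z r S T θ W U s Z B →
    GOk G F' R ρ Γ θ η s' Z' A A' g D' E' → Par2 R ρ r S T θ η ε →
    SigOk C F o G r θ η ε ρ Γ R s' A A' g D E

/-- BLOCK P1 (Bal.lean): the new configuration is good, has good cells, its weight. -/
def BalStmt : Prop :=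
  ∀ {ι υ γ κ ν βQ βP γ' : Type} [Fintype ι] [Fintype υ] [Fintype κ] [Fintype ν] [Fintype βQ]
    [Fintype βP] {C : Cfg ι υ} {F : Cel ι υ γ} {o z : ι → ℝ} {G : Gad κ ν βQ βP}
    {F' : Cel κ ν γ'} {R ρ Γ r S T θ η ε W U s Z B s' Z' : ℝ} {A A' g D E D' E' : ℕ},
    C.Good → CelOk C F D E → QOk C F o z r S T θ W U s Z B →
    GOk G F' R ρ Γ θ η s' Z' A A' g D' E' → Par2 R ρ r S T θ η ε →
    SigOk C F o G r θ η ε ρ Γ R s' A A' g D E →
    (ins2 C F o G θ η ε R s' A A' g D E).Good ∧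
    CelOk (ins2 C F o G θ η ε R s' A A' g D E) (cel2 F') D' E' ∧
    (ins2 C F o G θ η ε R s' A A' g D E).wt = C.wt * (2 * (A + 2 * g * (D + E)))

/-- the fields h1, h2, h3 of the new configuration -/
structure QA [Fintype υ] (C : Cfg ι υ) (r : ℝ) : Prop where
  h1 : ∀ v k, k ≠ C.q v → k ≠ C.p v → r * |C.m k - C.m (C.q v)| ≤ |C.H v k|
  h2 : ∀ v k, k ≠ C.q v → k ≠ C.p v → r * C.σ (C.q v) ≤ |C.H v k|
  h3 : ∀ v k, k ≠ C.q v → k ≠ C.p v → r * C.σ k ≤ |C.H v k|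

/-- BLOCK P2b (Clear.lean): clearances. -/
def ClearStmt : Prop :=
  ∀ {ι υ γ κ ν βQ βP γ' : Type} [Fintype ι] [Fintype υ] [Fintype κ] [Fintype ν] [Fintype βQ]
    [Fintype βP] {C : Cfg ι υ} {F : Cel ι υ γ} {o z : ι → ℝ} {G : Gad κ ν βQ βP}
    {F' : Cel κ ν γ'} {R ρ Γ r S T θ η ε W U s Z B s' Z' : ℝ} {A A' g D E D' E' : ℕ},
    C.Good → CelOk C F D E → QOk C F o z r S T θ W U s Z B →
    GOk G F' R ρ Γ θ η s' Z' A A' g D' E' → Par2 R ρ r S T θ η ε →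
    SigOk C F o G r θ η ε ρ Γ R s' A A' g D E →
    QA (ins2 C F o G θ η ε R s' A A' g D E) (ρ * r / (256 * S ^ 2 * R ^ 2 * Γ))

/-- BLOCK P3 (Tol.lean): all other fields of `QOk` for the new configuration. -/
def TolStmt : Prop :=
  ∀ {ι υ γ κ ν βQ βP γ' : Type} [Fintype ι] [Fintype υ] [Fintype κ] [Fintype ν] [Fintype βQ]
    [Fintype βP] {C : Cfg ι υ} {F : Cel ι υ γ} {o z : ι → ℝ} {G : Gad κ ν βQ βP}
    {F' : Cel κ ν γ'} {R ρ Γ r S T θ η ε W U s Z B s' Z' : ℝ} {A A' g D E D' E' : ℕ},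
    C.Good → CelOk C F D E → QOk C F o z r S T θ W U s Z B →
    GOk G F' R ρ Γ θ η s' Z' A A' g D' E' → Par2 R ρ r S T θ η ε →
    SigOk C F o G r θ η ε ρ Γ R s' A A' g D E →
    QA (ins2 C F o G θ η ε R s' A A' g D E) (ρ * r / (256 * S ^ 2 * R ^ 2 * Γ)) →
    0 ≤ W → 0 < s → 1 ≤ B →
    4 * Z' ≤ S * s' → 4 * R ^ 2 * Γ ≤ T → 4 * S * R ^ 2 * Γ / ρ ≤ W →
    4 + 64 * R ^ 2 * Γ + 64 * S * R * (W + 1) / ρ ≤ U →
    QOk (ins2 C F o G θ η ε R s' A A' g D E) (cel2 F') (o2 C θ η ε) (z2 C z)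
      (ρ * r / (256 * S ^ 2 * R ^ 2 * Γ)) S T θ W U (θ * η * s' * s / 2) (2 * θ * η * Z' * Z)
      (3 * B)

/-- assembly of block P -/
theorem product_of (hS : SigStmt) (hB : BalStmt) (hC : ClearStmt) (hT : TolStmt) :
    ProductStmt2 := by
  intro N D E V r S T θ W U s Z B hRC hr0 hr1 hS1 hT1 hθ0 hθ1 hW hs hB1 κ ν βQ βP γ' _ _ _ _ G F'
    R ρ Γ η s' Z' A A' g D' E' hG h4 hT' hW' hU'
  obtain ⟨ι, υ, γ, _, _, C, F, o, z, hg, hc, hq, hN, hV⟩ := hRC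
  have hR := hG.R1
  have P : Par2 R ρ r S T θ η (r / (64 * S * R)) :=
    { R1 := hR, ρ0 := hG.ρ0, ρ1 := hG.ρ1, r0 := hr0, r1 := hr1, S1 := hS1, T1 := hT1, θ0 := hθ0,
      θ1 := hθ1, η0 := hG.η0, η1 := hG.η1, ε0 := by positivity, εR := by field_simp }
  have sig := hS hg hc hq hG P
  obtain ⟨b1, b2, b3⟩ := hB hg hc hq hG P sig
  have cl := hC hg hc hq hG P sig
  have tl := hT hg hc hq hG P sig cl hW hs hB1 h4 hT' hW' hU'
  refine ⟨_, _, υ × γ', inferInstance, inferInstance, _, _, _, _, b1, b2, tl, ?_, ?_⟩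
  · rw [b3, hN]
  · rw [Fintype.card_prod, hV]

end Vale.Agent.P065.W
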