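import Vale.Agent.P065.W.Defs

/-!
P065, wide fans, block M, part 1 (helper177): the `k`-fold insertion with explicit parameters.
-/

set_option autoImplicit false

namespace Vale.Agent.P065.W

open Vale.Agent.P065

/-- one insertion of the lattice gadget -/
theorem step2 (hP : ProductStmt2) (hL : LatticeStmt2) {h D V A : ℕ} {B Γ T s Z : ℝ}
    (hI : IC2 h D V A B Γ T s Z) (h1 : 1 ≤ h) (A1 : 1 ≤ A) (B1 : 1 ≤ B) (Γ1 : 1 ≤ Γ) (T1 : 1 ≤ T)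
    (s0 : 0 < s) (V1 : 1 ≤ V) {X Xm Y : ℕ} {θ η : ℝ} (hXm : 1 ≤ Xm) (hX : 2 * X + 1 ≤ Xm)
    (hY : 8 * A * Xm ≤ Y) (θ0 : 0 < θ) (η0 : 0 < η) (c1 : 1024 * θ * T ≤ 1)
    (c2 : 2048 * θ * Xm * Z ≤ 1) (c3 : 8192 * A * η ≤ θ * s) (c4 : 128 * Y * η ≤ 1)
    (θ64 : θ ≤ 1 / 64) {S TR W U : ℝ} (S1 : 1 ≤ S) (TR1 : 1 ≤ TR) (W0 : 0 ≤ W)
    (hS : 4 * Z ≤ S * s) (hTR : 4 * (8 * (Y : ℝ)) ^ 2 * (32 * A * B * Γ / η) ≤ TR)
    (hW : 4 * S * (8 * (Y : ℝ)) ^ 2 * (32 * A * B * Γ / η) / (η / 4) ≤ W)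
    (hU : 4 + 64 * (8 * (Y : ℝ)) ^ 2 * (32 * A * B * Γ / η) +
      64 * S * (8 * (Y : ℝ)) * (W + 1) / (η / 4) ≤ U)
    {N D₁ E₁ V₁ : ℕ} {r s₁ Z₁ B₁ : ℝ} (hRC : RC2 N D₁ E₁ V₁ r S TR θ W U s₁ Z₁ B₁) (r0 : 0 < r)
    (r1 : r ≤ 1) (s10 : 0 < s₁) (B11 : 1 ≤ B₁) :
    RC2 (N * (2 * (2 * h * (2 * X + 1) * Y + 2 * (h * (2 * (Y + A * X) + 1)) * (D₁ + E₁)))) D
      (2 * X * D) (V₁ * ((2 * X + 1) * (2 * Y + 1) * V))
      (η / 4 * r / (256 * S ^ 2 * (8 * (Y : ℝ)) ^ 2 * (32 * A * B * Γ / η))) S TR θ W U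
      (θ * η * s * s₁ / 2) (2 * θ * η * Z * Z₁) (3 * B₁) := by
  obtain ⟨κ, ν, βQ, βP, γ, _, _, _, _, G, F, A', hG, hcard⟩ :=
    hL hI h1 A1 B1 Γ1 T1 s0 V1 hXm hX hY θ0 η0 c1 c2 c3 c4
  have := hP hRC r0 r1 S1 TR1 θ0 θ64 W0 s10 B11 G F hG hS hTR hW hU
  rw [hcard] at this
  exact this

/-- the numbers of columns -/
theorem ncol {K D y : ℕ} (hK : 1 ≤ K) (hD : 1 ≤ D) (hy : 1 ≤ y) :
    2 * (2 * K * y) + 1 ≤ 5 * K * D * y ∧ 1 ≤ D + 2 * (2 * K * y) * D ∧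
      D + 2 * (2 * K * y) * D ≤ 5 * K * D * y ∧ y ≤ 5 * K * D * y := by
  have h1 : 1 ≤ K * y := Nat.one_le_iff_ne_zero.mpr (by positivity)
  have h2 : K * y ≤ K * D * y := by
    have : K * y * 1 ≤ K * y * D := Nat.mul_le_mul_left _ hD
    calc K * y = K * y * 1 := by ring
      _ ≤ K * y * D := this
      _ = K * D * y := by ring
  have h3 : D ≤ K * D * y := by
    calc D = 1 * D := by ring
      _ ≤ (K * y) * D := Nat.mul_le_mul_right _ h1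
      _ = K * D * y := by ring
  have h4 : y ≤ K * y := Nat.le_mul_of_pos_left _ hK
  refine ⟨?_, ?_, ?_, ?_⟩
  · have e : 5 * K * D * y = 5 * (K * D * y) := by ring
    have e' : 2 * (2 * K * y) = 4 * (K * y) := by ring
    omega
  · omega
  · have e : 5 * K * D * y = 5 * (K * D * y) := by ring
    have e' : 2 * (2 * K * y) * D = 4 * (K * D * y) := by ring
    omega
  · have e : 5 * K * D * y = 5 * (K * D * y) := by ring
    omega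

/-- the factor of the weight in one step -/
theorem fac_le {h A X Xm y : ℝ} (h0 : 0 ≤ h) (A1 : 1 ≤ A) (_ : 0 ≤ X) (Xm1 : 1 ≤ Xm)
    (hX : 2 * X + 1 ≤ Xm) (y0 : 0 ≤ y) (hy : y ≤ Xm) :
    2 * (2 * h * (2 * X + 1) * (8 * A * Xm) + 2 * (h * (2 * (8 * A * Xm + A * X) + 1)) * y) ≤
      128 * h * A * Xm ^ 2 := by
  have e1 : 2 * h * (2 * X + 1) * (8 * A * Xm) ≤ 16 * (h * A * Xm ^ 2) := by
    have : h * A * Xm * (2 * X + 1) ≤ h * A * Xm * Xm :=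
      mul_le_mul_of_nonneg_left hX (by positivity)
    nlinarith [this]
  have e2 : 2 * (8 * A * Xm + A * X) + 1 ≤ 18 * (A * Xm) := by
    have h1 : A * (2 * X) ≤ A * Xm := mul_le_mul_of_nonneg_left (by linarith) (by linarith)
    have h2 : 1 ≤ A * Xm := by nlinarith
    nlinarith
  have e3 : h * (2 * (8 * A * Xm + A * X) + 1) * y ≤ h * (18 * (A * Xm)) * Xm := by
    apply mul_le_mul _ hy y0 (by positivity)
    exact mul_le_mul_of_nonneg_left e2 h0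
  nlinarith [e1, e3, (by positivity : 0 ≤ h * A * Xm ^ 2)]

/-- the gain in one step -/
theorem gain_le {K h A X Xm Y y V x : ℝ} (K1 : 1 ≤ K) (h0 : 0 ≤ h) (A1 : 1 ≤ A)
    (hX : X = 2 * K * y) (y0 : 0 ≤ y) (hXm : 2 * X + 1 ≤ Xm) (hY : Y = 8 * A * Xm) (x0 : 0 ≤ x)
    (hx : x * (2 * h) ≤ V) :
    x / (1 + 1 / K) * (2 * (2 * h * (2 * X + 1) * Y + 2 * (h * (2 * (Y + A * X) + 1)) * y)) ≤
      (2 * X + 1) * (2 * Y + 1) * V := by
  have K0 : 0 < K := by linarith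
  have X0 : 0 ≤ X := by rw [hX]; positivity
  have Y0 : 0 ≤ Y := by rw [hY]; nlinarith
  have V0 : 0 ≤ V := le_trans (by positivity) hx
  have hAX : 2 * (A * X) ≤ Y := by
    rw [hY]
    have : A * (2 * X) ≤ A * Xm := mul_le_mul_of_nonneg_left (by linarith) (by linarith)
    have h2 : 0 ≤ A * Xm := by
      apply mul_nonneg (by linarith); linarith
    nlinarith
  have e1 : 2 * ((2 * (Y + A * X) + 1) * y) ≤ 1 / K * ((2 * X + 1) * (2 * Y + 1)) := by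
    rw [one_div, ← div_eq_inv_mul, le_div_iff₀ K0]
    have h1 : 2 * (Y + A * X) + 1 ≤ 2 * (2 * Y + 1) := by linarith
    have h2 : 2 * ((2 * (Y + A * X) + 1) * y) * K ≤ 2 * ((2 * (2 * Y + 1)) * y) * K := by
      gcongr
    refine h2.trans ?_
    have h3 : 2 * ((2 * (2 * Y + 1)) * y) * K = (2 * (2 * K * y)) * (2 * Y + 1) := by ring
    rw [h3, ← hX]
    apply mul_le_mul_of_nonneg_right _ (by linarith)
    linarith
  have e2 : 2 * ((2 * X + 1) * Y) + 2 * ((2 * (Y + A * X) + 1) * y) ≤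
      (1 + 1 / K) * ((2 * X + 1) * (2 * Y + 1)) := by
    have : 0 ≤ 2 * X + 1 := by linarith
    nlinarith [e1]
  have e3 : 2 * (2 * h * (2 * X + 1) * Y + 2 * (h * (2 * (Y + A * X) + 1)) * y) =
      (2 * h) * (2 * ((2 * X + 1) * Y) + 2 * ((2 * (Y + A * X) + 1) * y)) := by ring
  have hK' : 0 < 1 + 1 / K := by positivity
  rw [e3]
  calc x / (1 + 1 / K) * ((2 * h) * (2 * ((2 * X + 1) * Y) + 2 * ((2 * (Y + A * X) + 1) * y)))
      ≤ x / (1 + 1 / K) * ((2 * h) * ((1 + 1 / K) * ((2 * X + 1) * (2 * Y + 1)))) := by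
        gcongr
    _ = (2 * X + 1) * (2 * Y + 1) * (x * (2 * h)) := by
        field_simp
    _ ≤ (2 * X + 1) * (2 * Y + 1) * V := by
        gcongr

theorem one_le_Γg {A B Γ η : ℝ} (A1 : 1 ≤ A) (B1 : 1 ≤ B) (Γ1 : 1 ≤ Γ) (η0 : 0 < η) (η1 : η ≤ 1) :
    1 ≤ 32 * A * B * Γ / η := by
  rw [le_div_iff₀ η0]
  have h2 : 1 ≤ A * B := one_le_mul_of_one_le_of_one_le A1 B1
  have h3 : 1 ≤ A * B * Γ := one_le_mul_of_one_le_of_one_le h2 Γ1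
  linarith

theorem one_le_den {S Y G : ℝ} (S1 : 1 ≤ S) (Y1 : 1 ≤ Y) (G1 : 1 ≤ G) :
    1 ≤ 256 * S ^ 2 * (8 * Y) ^ 2 * G := by
  have h2 : (1 : ℝ) ≤ S ^ 2 := one_le_pow₀ S1
  have h4 : (1 : ℝ) ≤ (8 * Y) ^ 2 := one_le_pow₀ (by linarith)
  have h6 : (1 : ℝ) ≤ 256 * S ^ 2 * (8 * Y) ^ 2 :=
    one_le_mul_of_one_le_of_one_le (by linarith) h4
  exact one_le_mul_of_one_le_of_one_le h6 G1

/-- **The `k`-fold insertion.** -/
theorem iter2 (hP : ProductStmt2) (hL : LatticeStmt2) (hT : TrivStmt2) {h D V A : ℕ}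
    {B Γ T s Z x : ℝ} (hI : IC2 h D V A B Γ T s Z) (h1 : 1 ≤ h) (A1 : 1 ≤ A) (B1 : 1 ≤ B)
    (Γ1 : 1 ≤ Γ) (T1 : 1 ≤ T) (s0 : 0 < s) (D1 : 1 ≤ D) (x0 : 0 < x)
    (hx : x * (2 * h) ≤ V) {K Xm k : ℕ} {θ η : ℝ} (hK : 1 ≤ K) (hXm : (5 * K * D) ^ k ≤ Xm)
    (θ0 : 0 < θ) (η0 : 0 < η) (c1 : 1024 * θ * T ≤ 1) (c2 : 2048 * θ * Xm * Z ≤ 1)
    (c3 : 8192 * A * η ≤ θ * s) (c4 : 128 * (8 * (A : ℝ) * Xm) * η ≤ 1) (θ64 : θ ≤ 1 / 64)
    {S TR W U : ℝ} (S1 : 1 ≤ S) (TR1 : 1 ≤ TR) (W0 : 0 ≤ W) (U0 : 0 ≤ U) (hS : 4 * Z ≤ S * s)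
    (hTR : 4 * (8 * (8 * (A : ℝ) * Xm)) ^ 2 * (32 * A * B * Γ / η) ≤ TR)
    (hW : 4 * S * (8 * (8 * (A : ℝ) * Xm)) ^ 2 * (32 * A * B * Γ / η) / (η / 4) ≤ W)
    (hU : 4 + 64 * (8 * (8 * (A : ℝ) * Xm)) ^ 2 * (32 * A * B * Γ / η) +
      64 * S * (8 * (8 * (A : ℝ) * Xm)) * (W + 1) / (η / 4) ≤ U) :
    ∀ j ≤ k, ∃ N D₁ E₁ V₁ : ℕ,
      RC2 (2 * N) D₁ E₁ V₁
        ((η / 4 / (256 * S ^ 2 * (8 * (8 * (A : ℝ) * Xm)) ^ 2 * (32 * A * B * Γ / η))) ^ j)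
        S TR θ W U ((θ * η * s / 2) ^ j) ((2 * θ * η * Z) ^ j) (3 ^ j) ∧
      1 ≤ N ∧ (N : ℝ) ≤ (128 * h * A * (Xm : ℝ) ^ 2) ^ j ∧ 1 ≤ D₁ + E₁ ∧
      D₁ + E₁ ≤ (5 * K * D) ^ j ∧ (x / (1 + 1 / (K : ℝ))) ^ j * N ≤ V₁ := by
  have hV : 1 ≤ V := by
    have h2 : (0 : ℝ) < V := lt_of_lt_of_le (by positivity) hx
    exact_mod_cast h2
  have hKD : 1 ≤ 5 * K * D := Nat.one_le_iff_ne_zero.mpr (by positivity)
  have Xm1 : 1 ≤ Xm := (Nat.one_le_pow _ _ hKD).trans hXm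
  have Xm1r : (1 : ℝ) ≤ Xm := by exact_mod_cast Xm1
  have A1r : (1 : ℝ) ≤ A := by exact_mod_cast A1
  have K1r : (1 : ℝ) ≤ K := by exact_mod_cast hK
  have h1r : (1 : ℝ) ≤ h := by exact_mod_cast h1
  have hY1 : (1 : ℝ) ≤ 8 * (A : ℝ) * Xm :=
    one_le_mul_of_one_le_of_one_le (by linarith) Xm1r
  have hη1 : η ≤ 1 := by
    have h2 : 1 * η ≤ 128 * (8 * (A : ℝ) * Xm) * η :=
      mul_le_mul_of_nonneg_right (by linarith) η0.le
    linarith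
  have hYc : ((8 * A * Xm : ℕ) : ℝ) = 8 * (A : ℝ) * Xm := by push_cast; ring
  have hΓg : 1 ≤ 32 * A * B * Γ / η := one_le_Γg A1r B1 Γ1 η0 hη1
  have hden := one_le_den (S := S) S1 hY1 hΓg
  obtain ⟨ρ0, hρ0⟩ : ∃ ρ0 : ℝ, ρ0 =
    η / 4 / (256 * S ^ 2 * (8 * (8 * (A : ℝ) * Xm)) ^ 2 * (32 * A * B * Γ / η)) := ⟨_, rfl⟩
  have hρpos : 0 < ρ0 := by
    rw [hρ0]; exact div_pos (by positivity) (lt_of_lt_of_le one_pos hden)
  have hρle : ρ0 ≤ 1 := by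
    rw [hρ0, div_le_one (lt_of_lt_of_le one_pos hden)]
    exact le_trans (by linarith) hden
  rw [← hρ0]
  intro j
  induction j with
  | zero =>
    intro _
    refine ⟨1, 1, 0, 1, ?_, le_rfl, ?_, by norm_num, ?_, ?_⟩
    · have := hT (S := S) (T := TR) (θ := θ) (W := W) (U := U) S1 TR1 θ0 W0 U0
      rw [pow_zero, pow_zero, pow_zero, pow_zero]
      exact this
    · rw [pow_zero, Nat.cast_one]
    · norm_num
    · rw [pow_zero, Nat.cast_one, one_mul]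
  | succ j ih =>
    intro hj
    obtain ⟨N, D₁, E₁, V₁, hRC, hN1, hN, hy1, hy, hg⟩ := ih (by omega)
    obtain ⟨y, hyd⟩ : ∃ y, y = D₁ + E₁ := ⟨_, rfl⟩
    rw [← hyd] at hy1 hy
    obtain ⟨n1, n2, n3, n4⟩ := ncol hK D1 hy1
    have hpow : 5 * K * D * y ≤ (5 * K * D) ^ (j + 1) := by
      rw [pow_succ, mul_comm ((5 * K * D) ^ j)]
      exact Nat.mul_le_mul_left _ hy
    have hXmj : (5 * K * D) ^ (j + 1) ≤ Xm := (Nat.pow_le_pow_right hKD (by omega)).trans hXm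
    have hXn : 2 * (2 * K * y) + 1 ≤ Xm := n1.trans (hpow.trans hXmj)
    have hyXm : y ≤ Xm := n4.trans (hpow.trans hXmj)
    have hst := step2 hP hL hI h1 A1 B1 Γ1 T1 s0 hV (X := 2 * K * y) (Xm := Xm)
      (Y := 8 * A * Xm) Xm1 hXn le_rfl θ0 η0 c1 c2 c3 (by rw [hYc]; exact c4) θ64 S1 TR1 W0 hS
      (by rw [hYc]; exact hTR) (by rw [hYc]; exact hW) (by rw [hYc]; exact hU) hRC
      (by positivity) (pow_le_one₀ hρpos.le hρle) (by positivity)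
      (one_le_pow₀ (by norm_num))
    rw [hYc, ← hyd] at hst
    refine ⟨N * (2 * (2 * h * (2 * (2 * K * y) + 1) * (8 * A * Xm) +
      2 * (h * (2 * ((8 * A * Xm) + A * (2 * K * y)) + 1)) * y)), D, 2 * (2 * K * y) * D,
      V₁ * ((2 * (2 * K * y) + 1) * (2 * (8 * A * Xm) + 1) * V), ?_, ?_, ?_, n2, ?_, ?_⟩
    · have e1 : η / 4 * ρ0 ^ j /
          (256 * S ^ 2 * (8 * (8 * (A : ℝ) * Xm)) ^ 2 * (32 * A * B * Γ / η)) = ρ0 ^ (j + 1) := by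
        rw [pow_succ, hρ0]; ring
      have e2 : θ * η * s * (θ * η * s / 2) ^ j / 2 = (θ * η * s / 2) ^ (j + 1) := by
        rw [pow_succ]; ring
      have e3 : 2 * θ * η * Z * (2 * θ * η * Z) ^ j = (2 * θ * η * Z) ^ (j + 1) := by
        rw [pow_succ]; ring
      have e4 : (3 : ℝ) * 3 ^ j = 3 ^ (j + 1) := by rw [pow_succ]; ring
      rw [e1, e2, e3, e4] at hst
      have e5 : 2 * N * (2 * (2 * h * (2 * (2 * K * y) + 1) * (8 * A * Xm) +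
          2 * (h * (2 * (8 * A * Xm + A * (2 * K * y)) + 1)) * y)) =
          2 * (N * (2 * (2 * h * (2 * (2 * K * y) + 1) * (8 * A * Xm) +
          2 * (h * (2 * (8 * A * Xm + A * (2 * K * y)) + 1)) * y))) := by ring
      rw [e5] at hst
      exact hst
    · apply Nat.one_le_iff_ne_zero.mpr
      have : 0 < 2 * h * (2 * (2 * K * y) + 1) * (8 * A * Xm) := by positivity
      positivity
    · push_cast
      have hyr : (y : ℝ) ≤ Xm := by exact_mod_cast hyXm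
      have hXr : 2 * (2 * (K : ℝ) * y) + 1 ≤ Xm := by exact_mod_cast hXn
      have hf := fac_le (h := (h : ℝ)) (A := A) (X := 2 * (K : ℝ) * y) (Xm := Xm) (y := y)
        (by positivity) A1r (by positivity) Xm1r hXr (by positivity) hyr
      rw [pow_succ]
      exact mul_le_mul hN hf (by positivity) (by positivity)
    · exact n3.trans hpow
    · push_cast
      have hXr : 2 * (2 * (K : ℝ) * y) + 1 ≤ Xm := by exact_mod_cast hXn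
      have hf := gain_le (K := K) (h := (h : ℝ)) (A := A) (X := 2 * (K : ℝ) * y) (Xm := Xm)
        (Y := 8 * (A : ℝ) * Xm) (y := y) (V := V) (x := x) K1r (by positivity) A1r rfl
        (by positivity) hXr rfl x0.le hx
      have hq : 0 ≤ x / (1 + 1 / (K : ℝ)) := by positivity
      calc (x / (1 + 1 / (K : ℝ))) ^ (j + 1) * ((N : ℝ) * (2 * (2 * h * (2 * (2 * K * y) + 1) *
            (8 * A * Xm) + 2 * (h * (2 * (8 * A * Xm + A * (2 * K * y)) + 1)) * y)))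
          = ((x / (1 + 1 / (K : ℝ))) ^ j * N) * (x / (1 + 1 / (K : ℝ)) *
            (2 * (2 * h * (2 * (2 * K * y) + 1) * (8 * A * Xm) +
            2 * (h * (2 * (8 * A * Xm + A * (2 * K * y)) + 1)) * y))) := by ring
        _ ≤ V₁ * ((2 * (2 * K * y) + 1) * (2 * (8 * A * Xm) + 1) * V) := by
            exact mul_le_mul hg hf (by positivity) (by positivity)

end Vale.Agent.P065.W
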