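import Vale.Agent.P065.W.LatE

/-!
P065, wide fans, block L: the opening of the fans in the lattice gadget.
-/

set_option linter.all false

namespace Vale.Agent.P065.W

open Vale.Agent.P065 LatG

namespace LatW

section gadget

variable {ι υ : Type}

namespace Hyp

variable [Fintype ι] [Fintype υ] {C : Cfg ι υ} {a : ι → ℤ} {h d V A X Xm Y : ℕ}
  {B Γ T s Z θ η δ ζ : ℝ} (hh : Hyp C a h d V A X Xm Y B Γ T s Z θ η δ ζ)

include hh

lemma gO1 (v : Fin (2 * X + 1) × Fin (2 * Y + 1) × υ) (j : ι × Fin (2 * (Y + A * X) + 1))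
    (hj : (FC C a X Y (Y + A * X)).nr ((FC C a X Y (Y + A * X)).c v) j) :
    64 * |(LC C a X Y (Y + A * X) δ ζ).H v j| ≤ 1 := by
  have h1 := (hh.Hcell v j ((nr_iff C a v j).1 hj)).1
  have h2 := hh.Hb v.2.2 j.1
  rw [abs_mul, abs_of_pos hh.hζ0] at h2
  have h3 := hh.ηle
  linarith only [h1, h2, h3]

lemma gO2 (v : Fin (2 * X + 1) × Fin (2 * Y + 1) × υ) (j : ι × Fin (2 * (Y + A * X) + 1))
    (hj : ¬ (FC C a X Y (Y + A * X)).nr ((FC C a X Y (Y + A * X)).c v) j) :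
    1 ≤ 4 * |(LC C a X Y (Y + A * X) δ ζ).H v j| := by
  have h1 := hh.Hrow v j (fun e => hj ((nr_iff C a v j).2 e))
  linarith only [h1]

lemma g2 (v v' : Fin (2 * X + 1) × Fin (2 * Y + 1) × υ)
    (hj : (FC C a X Y (Y + A * X)).nr ((FC C a X Y (Y + A * X)).c v)
      ((LC C a X Y (Y + A * X) δ ζ).q v'))
    (hc : (FC C a X Y (Y + A * X)).c v' ≠ (FC C a X Y (Y + A * X)).c v) :
    64 * |(LC C a X Y (Y + A * X) δ ζ).H v ((LC C a X Y (Y + A * X) δ ζ).q v')|
      ≤ θ * (|(LC C a X Y (Y + A * X) δ ζ).Δ v'|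
        * |(LC C a X Y (Y + A * X) δ ζ).x v - (LC C a X Y (Y + A * X) δ ζ).x v'|) := by
  have hn := (nr_iff C a v _).1 hj
  have h1 := (hh.Hcell v _ hn).1
  have h2 := hh.Hb v.2.2 ((LC C a X Y (Y + A * X) δ ζ).q v').1
  rw [abs_mul, abs_of_pos hh.hζ0] at h2
  -- the columns are different
  have h3 : v.1 ≠ v'.1 := by
    intro e
    apply hc
    have e1 := hh.cen_q v'
    simp only [nn] at hn
    rw [e1, e] at hn
    have e2 : cen v'.2.1 = cen v.2.1 := by
      have e3 : ((LC C a X Y (Y + A * X) δ ζ).q v').1 = C.q v'.2.2 := rfl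
      rw [e3] at hn
      linarith only [hn]
    show (v'.1, v'.2.1) = (v.1, v.2.1)
    rw [e, cen_inj e2]
  have h4 : (1 : ℝ) ≤ |((cen v.1 : ℤ) : ℝ) - ((cen v'.1 : ℤ) : ℝ)| := by
    have : cen v.1 - cen v'.1 ≠ 0 := by
      intro e
      exact h3 (cen_inj (by linarith only [e]))
    have := Int.one_le_abs this
    exact_mod_cast this
  have h5 : 1 / 2 ≤ |(LC C a X Y (Y + A * X) δ ζ).x v - (LC C a X Y (Y + A * X) δ ζ).x v'| := by
    have e1 := abs_le.mp (hh.xcol v)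
    have e2 := abs_le.mp (hh.xcol v')
    rcases le_abs.mp h4 with e3 | e3
    · rw [le_abs]; left; linarith only [e1, e2, e3]
    · rw [le_abs]; right; linarith only [e1, e2, e3]
  have h6 : s / 2 ≤ |(LC C a X Y (Y + A * X) δ ζ).Δ v'| := by
    have := hh.lo v'
    linarith only [this]
  have h7 : s / 2 * (1 / 2) ≤ |(LC C a X Y (Y + A * X) δ ζ).Δ v'|
      * |(LC C a X Y (Y + A * X) δ ζ).x v - (LC C a X Y (Y + A * X) δ ζ).x v'| :=
    mul_le_mul h6 h5 (by norm_num) (abs_nonneg _)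
  have h8 := mul_le_mul_of_nonneg_left h7 hh.θ0.le
  have h9 := hh.ηA
  have h10 : η ≤ A * η := by
    have := mul_le_mul_of_nonneg_right hh.A1R hh.η0.le
    linarith only [this]
  have h11 := hh.η0
  linarith only [h1, h2, h8, h9, h10, h11]

/-- displacement inside of a cell -/
lemma xcell (v v' : Fin (2 * X + 1) × Fin (2 * Y + 1) × υ)
    (hc : (FC C a X Y (Y + A * X)).c v' = (FC C a X Y (Y + A * X)).c v) :
    (LC C a X Y (Y + A * X) δ ζ).x v - (LC C a X Y (Y + A * X) δ ζ).x v'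
      = ζ * ((1 - δ * a (C.q v'.2.2)) * (C.x v.2.2 - C.x v'.2.2)
        + δ * C.H v.2.2 (C.q v'.2.2)) := by
  have h0 : (v'.1, v'.2.1) = (v.1, v.2.1) := hc
  rw [Prod.mk.injEq] at h0
  have h1 := hh.good.on_q v'.2.2
  simp only [Cfg.H, hh.hm] at h1 ⊢
  simp only [LC]
  rw [h0.1, h0.2]
  linear_combination -(ζ * δ * h1)

lemma g1 (v v' : Fin (2 * X + 1) × Fin (2 * Y + 1) × υ)
    (hq : (LC C a X Y (Y + A * X) δ ζ).q v' ≠ (LC C a X Y (Y + A * X) δ ζ).q v)
    (hc : ¬ (FC C a X Y (Y + A * X)).nr ((FC C a X Y (Y + A * X)).c v)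
      ((LC C a X Y (Y + A * X) δ ζ).q v')
      ∨ (FC C a X Y (Y + A * X)).c v' = (FC C a X Y (Y + A * X)).c v) :
    64 * θ * (|(LC C a X Y (Y + A * X) δ ζ).Δ v'|
        * |(LC C a X Y (Y + A * X) δ ζ).x v - (LC C a X Y (Y + A * X) δ ζ).x v'|)
      ≤ |(LC C a X Y (Y + A * X) δ ζ).H v ((LC C a X Y (Y + A * X) δ ζ).q v')| := by
  have hθ := hh.θ0
  by_cases hn : nn a v ((LC C a X Y (Y + A * X) δ ζ).q v') = 0
  · have hcc : (FC C a X Y (Y + A * X)).c v' = (FC C a X Y (Y + A * X)).c v := by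
      rcases hc with hc | hc
      · exact absurd ((nr_iff C a v _).2 hn) hc
      · exact hc
    have e1 : ((LC C a X Y (Y + A * X) δ ζ).q v').1 = C.q v'.2.2 := rfl
    have h1 := (hh.Hcell v _ hn).2
    rw [e1] at h1
    have hqq : C.q v'.2.2 ≠ C.q v.2.2 := by
      intro e
      exact hq (hh.eq_of_nn_q v _ e hn)
    have hT := hh.hT v.2.2 v'.2.2 hqq
    rw [hh.xcell v v' hcc, abs_mul, abs_of_pos hh.hζ0, hh.Δf]
    have d1 := hh.dlo (C.p v'.2.2)
    have d2 := hh.dlo (C.q v'.2.2)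
    have d3 := hh.dhi (C.q v'.2.2)
    have dp := hh.dd (C.p v'.2.2) (C.q v'.2.2)
    have dpos : 0 < (1 - δ * a (C.p v'.2.2)) * (1 - δ * a (C.q v'.2.2)) := by
      linarith only [dp.1]
    rw [abs_div, abs_of_pos dpos]
    obtain ⟨H, hH⟩ : ∃ H, H = |C.H v.2.2 (C.q v'.2.2)| := ⟨_, rfl⟩
    obtain ⟨D, hD⟩ : ∃ D, D = |C.Δ v'.2.2| := ⟨_, rfl⟩
    obtain ⟨x, hx⟩ : ∃ x, x = |C.x v.2.2 - C.x v'.2.2| := ⟨_, rfl⟩
    have H0 : 0 ≤ H := by rw [hH]; exact abs_nonneg _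
    have D0 : 0 ≤ D := by rw [hD]; exact abs_nonneg _
    have x0 : 0 ≤ x := by rw [hx]; exact abs_nonneg _
    rw [← hH, ← hD, ← hx] at hT
    rw [← hH] at h1
    rw [← hD]
    have h2 : |(1 - δ * a (C.q v'.2.2)) * (C.x v.2.2 - C.x v'.2.2)
        + δ * C.H v.2.2 (C.q v'.2.2)| ≤ 513 / 512 * x + δ * H := by
      refine (abs_add_le _ _).trans ?_
      rw [abs_mul, abs_mul, abs_of_pos hh.δ0, abs_of_pos (hh.dpos (C.q v'.2.2)), ← hH, ← hx]
      have := mul_le_mul_of_nonneg_right d3 x0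
      linarith only [this]
    have h3 : D / ((1 - δ * a (C.p v'.2.2)) * (1 - δ * a (C.q v'.2.2))) ≤ 512 / 510 * D := by
      rw [div_le_iff₀ dpos]
      have := mul_le_mul_of_nonneg_left dp.1 D0
      linarith only [this]
    have hDA : δ * D ≤ 1 / 128 := by
      have g2 : D ≤ 2 * A := by
        rw [hD]
        simp only [Cfg.Δ, hh.hm]
        have e1 := abs_le.mp (hh.haR (C.p v'.2.2))
        have e2 := abs_le.mp (hh.haR (C.q v'.2.2))
        rw [abs_le]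
        constructor <;> linarith only [e1, e2]
      have g3 := mul_le_mul_of_nonneg_left g2 hh.δ0.le
      have g4 := hh.ηAR
      have g5 : δ * (2 * A) = 4 * (η * A) := by rw [hh.hδ]; ring
      linarith only [g3, g4, g5]
    have hB0 : 0 ≤ 513 / 512 * x + δ * H :=
      add_nonneg (by positivity) (mul_nonneg hh.δ0.le H0)
    have h4 : D / ((1 - δ * a (C.p v'.2.2)) * (1 - δ * a (C.q v'.2.2)))
        * (ζ * |(1 - δ * a (C.q v'.2.2)) * (C.x v.2.2 - C.x v'.2.2)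
        + δ * C.H v.2.2 (C.q v'.2.2)|) ≤ 512 / 510 * D * (ζ * (513 / 512 * x + δ * H)) :=
      mul_le_mul h3 (mul_le_mul_of_nonneg_left h2 hh.hζ0.le)
        (mul_nonneg hh.hζ0.le (abs_nonneg _)) (by positivity)
    have h5 : 512 / 510 * D * (ζ * (513 / 512 * x + δ * H)) ≤ 2 * T * (ζ * H) := by
      have e2 : 512 / 510 * D * (ζ * (513 / 512 * x + δ * H))
          = ζ * (513 / 510 * (D * x) + 512 / 510 * (δ * D) * H) := by ring
      have e3 : 2 * T * (ζ * H) = ζ * (2 * (T * H)) := by ring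
      rw [e2, e3]
      apply mul_le_mul_of_nonneg_left _ hh.hζ0.le
      have g1 := mul_le_mul_of_nonneg_right hDA H0
      have g2 := mul_le_mul_of_nonneg_right hh.T1 H0
      linarith only [hT, g1, g2, H0]
    have h6 := mul_le_mul_of_nonneg_left (h4.trans h5) (by positivity : 0 ≤ 64 * θ)
    refine h6.trans (le_trans ?_ h1)
    have h7 : 0 ≤ ζ * H := mul_nonneg hh.hζ0.le H0
    have h8 := mul_le_mul_of_nonneg_right hh.θT h7
    linarith only [h7, h8]
  · have h1 := hh.Hrow v _ hn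
    refine le_trans ?_ h1
    have e1 := abs_le.mp (hh.xcol v)
    have e2 := abs_le.mp (hh.xcol v')
    have e3 := abs_le.mp (cen_leR v.1)
    have e4 := abs_le.mp (cen_leR v'.1)
    have h2 : |(LC C a X Y (Y + A * X) δ ζ).x v - (LC C a X Y (Y + A * X) δ ζ).x v'| ≤ Xm := by
      have := hh.XmR
      rw [abs_le]
      constructor <;> linarith only [e1, e2, e3, e4, this]
    have h3 : |(LC C a X Y (Y + A * X) δ ζ).Δ v'| ≤ 2 * Z := by
      refine (hh.hi v').trans ?_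
      have g2 := hh.hZ v'.2.2
      have g3 := abs_nonneg (C.Δ v'.2.2)
      linarith only [g2, g3]
    have h4 := mul_le_mul h3 h2 (abs_nonneg _) ((abs_nonneg _).trans h3)
    have h5 := mul_le_mul_of_nonneg_left h4 hθ.le
    have h6 := hh.θZ
    linarith only [h5, h6]

end Hyp

end gadget

end LatW

end Vale.Agent.P065.W
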