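import Vale.Agent.P065.W.LatC
import Vale.Agent.P065.W.LatG

/-!
P065, wide fans, block L: the lattice gadget.
-/

set_option linter.all false

namespace Vale.Agent.P065.W

open Vale.Agent.P065

open LatW in
/-- the lattice gadget -/
theorem lattice : LatticeStmt2 := by
  intro h d V A B Γ T s Z hIC h1 A1 B1 Γ1 T1 s0 V1 X Xm Y θ η Xm1 XXm AXm θ0 η0 θT θZ ηA ηY
  obtain ⟨ι, υ, _, _, C, a, hG, hm, ha, ht, hx, hy, hH, hT, hs, hZ, hdeg, hwt, hV⟩ := hIC
  have hAR : (1 : ℝ) ≤ A := by exact_mod_cast A1
  have hAB : (0 : ℝ) < 8 * A * B := by positivity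
  have H : Hyp C a h d V A X Xm Y B Γ T s Z θ η (2 * η) (η / (8 * A * B)) :=
    { good := hG, hm := hm, ha := ha, ht := ht, hx := hx, hy := hy, hH := hH, hT := hT, hs := hs,
      hZ := hZ, hdeg := hdeg, hwt := hwt, hV := hV, h1 := h1, A1 := A1, B1 := B1, Γ1 := Γ1,
      T1 := T1, s0 := s0, V1 := V1, Xm1 := Xm1, XXm := XXm, AXm := AXm, θ0 := θ0, η0 := η0,
      θT := θT, θZ := θZ, ηA := ηA, ηY := ηY, hδ := rfl,
      hζ := div_mul_cancel₀ _ hAB.ne', hζ0 := div_pos η0 hAB }
  -- weight of the P-lines
  have hSg := abs_le.mp H.sumwa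
  have hAY : (2 : ℤ) * h * A ≤ 4 * h * Y := by
    have g1 : A ≤ Y := by
      have := Nat.mul_le_mul_left (8 * A) Xm1
      omega
    have g2 : h * A ≤ h * Y := Nat.mul_le_mul_left h g1
    have g3 : (h : ℤ) * A ≤ h * Y := by exact_mod_cast g2
    have g4 : (0 : ℤ) ≤ (h : ℤ) * Y := by positivity
    linarith only [g3, g4]
  obtain ⟨W, hW⟩ : ∃ W : ℕ, (W : ℤ) = 4 * h * Y - ∑ k, (C.w k : ℤ) * a k :=
    ⟨(4 * h * Y - ∑ k, (C.w k : ℤ) * a k).toNat, Int.toNat_of_nonneg (by linarith only [hSg, hAY])⟩
  have hAYs := H.AY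
  have hX0 := H.X0R
  refine ⟨ι × Fin (2 * (Y + A * X) + 1), Fin (2 * X + 1) × Fin (2 * Y + 1) × υ,
    Fin (2 * X + 1) × Fin (2 * Y), Fin (2 * X), Fin (2 * X + 1) × Fin (2 * Y + 1),
    inferInstance, inferInstance, inferInstance, inferInstance,
    GG C a h X Y (Y + A * X) W η (2 * η) (η / (8 * A * B)), FC C a X Y (Y + A * X), X * W, ?_, ?_⟩
  · exact
    { R1 := by linarith only [hAYs.2.1]
      ρ0 := by positivity
      ρ1 := by have := H.ηle; linarith only [this]
      Γ1 := by
        rw [le_div_iff₀ η0]
        have e2 : (1 : ℝ) ≤ (A : ℝ) * B * Γ :=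
          one_le_mul_of_one_le_of_one_le (one_le_mul_of_one_le_of_one_le hAR B1) Γ1
        have h7 := H.ηle
        linarith only [e2, h7]
      s0 := s0
      η0 := η0
      η1 := by have := H.ηle; linarith only [this]
      on_q := H.on_q
      on_p := H.on_p
      w_q := fun v => hG.w_q v.2.2
      w_p := fun v => hG.w_p v.2.2
      bip := fun v v' e => hG.bip v.2.2 v'.2.2 (congrArg Prod.fst e)
      inj := H.inj
      lo := H.lo
      hi := by
        intro v
        have g1 := H.hi v
        have g2 := hZ v.2.2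
        have g3 := abs_nonneg (C.Δ v.2.2)
        refine g1.trans ?_
        linarith only [g2, g3]
      ηs := by
        have hpos : 0 < Fintype.card υ := by rw [hV]; exact V1
        obtain ⟨u⟩ := Fintype.card_pos_iff.mp hpos
        have g1 := hs u
        have g2 : |C.Δ u| ≤ 2 * A := by
          simp only [Cfg.Δ, hm]
          have e1 := abs_le.mp (H.haR (C.p u))
          have e2 := abs_le.mp (H.haR (C.q u))
          rw [abs_le]
          constructor <;> linarith only [e1, e2]
        have g3 := H.ηAR
        have g4 : η * s ≤ η * (2 * A) := mul_le_mul_of_nonneg_left (g1.trans g2) η0.le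
        linarith only [g3, g4]
      mb := by
        intro j
        refine (H.mb' j).trans ?_
        linarith only [hAYs.1, hAYs.2.1]
      tb := by
        intro j
        refine (H.tb' j).trans ?_
        linarith only [hAYs.2.1]
      xb := by
        intro v
        refine (H.xb' v).trans ?_
        linarith only [hAYs.2.1, hAYs.2.2.2, hX0]
      yb := by
        intro v
        refine (H.yb' v).trans ?_
        linarith only [hAYs.2.1]
      ηm := by
        intro j
        have g1 := mul_le_mul_of_nonneg_left (H.mb' j) η0.le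
        have g2 := H.ηAR
        refine g1.trans ?_
        linarith only [g2]
      ηt := by
        intro j
        have g1 := mul_le_mul_of_nonneg_left (H.tb' j) η0.le
        have g2 := H.ηYR
        refine g1.trans ?_
        linarith only [g2]
      ηy := by
        intro v
        have g1 := mul_le_mul_of_nonneg_left (H.yb' v) η0.le
        have g2 := H.ηYR
        have g3 := H.ηle
        refine g1.trans ?_
        linarith only [g2, g3]
      off := H.off
      oQb := by
        intro b
        have e1 := abs_le.mp (cen_leR b.1)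
        have hb1 : ((b.2 : ℕ) : ℝ) + 1 ≤ 2 * (Y : ℝ) := by
          have := b.2.2
          exact_mod_cast (by (clear * - this; omega) : (b.2 : ℕ) + 1 ≤ 2 * Y)
        have hb2 : (0 : ℝ) ≤ ((b.2 : ℕ) : ℝ) := by (clear * -; positivity)
        have g0 := H.ηYR
        have g2 : η * ((((b.2 : ℕ) : ℝ) - Y) + 1 / 2) ≤ η * (2 * Y) :=
          mul_le_mul_of_nonneg_left (by linarith only [hb1, hAYs.2.1]) η0.le
        have g3 : η * (-(2 * Y)) ≤ η * ((((b.2 : ℕ) : ℝ) - Y) + 1 / 2) :=
          mul_le_mul_of_nonneg_left (by linarith only [hb2, hAYs.2.1]) η0.le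
        show |((cen b.1 : ℤ) : ℝ) - η * ((((b.2 : ℕ) : ℝ) - Y) + 1 / 2)| ≤ 8 * Y
        rw [abs_le]
        constructor <;> linarith only [e1, g0, g2, g3, hAYs.2.1, hAYs.2.2.2, hX0]
      oPb := by
        intro b
        have hb3 : ((b : ℕ) : ℝ) + 1 ≤ 2 * (X : ℝ) := by
          have := b.2
          exact_mod_cast (by (clear * - this; omega) : (b : ℕ) + 1 ≤ 2 * X)
        have hb4 : (0 : ℝ) ≤ ((b : ℕ) : ℝ) := by (clear * -; positivity)
        show |-((((b : ℕ) : ℝ) - X) + 1 / 2)| ≤ 8 * Y
        rw [abs_neg, abs_le]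
        constructor <;> linarith only [hb3, hb4, hAYs.2.1, hAYs.2.2.2, hX0]
      sepQ := fun v b => (H.Qline v b).1
      sepP := fun v b => (H.Pline v b).1
      bal := by
        intro v
        rw [H.balQ W v, H.balP W v, hW]
        have := H.balL v
        rw [show (∑ j, ((GG C a h X Y (Y + A * X) W η (2 * η) (η / (8 * A * B))).L.w j : ℤ)
            * sg ((GG C a h X Y (Y + A * X) W η (2 * η) (η / (8 * A * B))).L.H v j))
          = ∑ j, ((LC C a X Y (Y + A * X) (2 * η) (η / (8 * A * B))).w j : ℤ)
            * sg ((LC C a X Y (Y + A * X) (2 * η) (η / (8 * A * B))).H v j) from rfl, this]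
        ring
      sumQ := by
        simp only [GG, Finset.sum_const, Finset.card_univ, Fintype.card_prod, Fintype.card_fin,
          smul_eq_mul]
        ring
      sumP := by
        simp only [GG, Finset.sum_const, Finset.card_univ, Fintype.card_fin,
          smul_eq_mul]
        ring
      le := by
        have g1 : (X : ℤ) * A ≤ Y := by
          have g0 : (8 * A) * (2 * X + 1) ≤ 8 * A * Xm := Nat.mul_le_mul_left (8 * A) XXm
          have g2 : (8 : ℤ) * A * (2 * X + 1) ≤ Y := by exact_mod_cast g0.trans AXm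
          have g3 : (0 : ℤ) ≤ (X : ℤ) * A := by positivity
          have g4 : (0 : ℤ) ≤ (A : ℤ) := by positivity
          linarith only [g2, g3, g4]
        have g2 : (X : ℤ) * (W : ℤ) ≤ 2 * h * (2 * X + 1) * Y := by
          rw [hW]
          have g3 : (X : ℤ) * (-∑ k, (C.w k : ℤ) * a k) ≤ X * (2 * h * A) :=
            mul_le_mul_of_nonneg_left (by linarith only [hSg]) (by positivity)
          have g4 : (2 * (h : ℤ)) * (X * A) ≤ 2 * h * Y :=
            mul_le_mul_of_nonneg_left g1 (by positivity)
          linarith only [g3, g4]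
        exact_mod_cast g2
      sumL := by
        rw [Fintype.sum_prod_type]
        simp only [GG, LC, Finset.sum_const, Finset.card_univ, Fintype.card_fin, smul_eq_mul]
        rw [← Finset.mul_sum]
        have : ∑ i, C.w i = 2 * h := hwt
        rw [this]
        ring
      cel := H.cel
      g1 := H.g1
      g2 := H.g2
      gO1 := H.gO1
      gO2 := H.gO2 }
  · simp only [Fintype.card_prod, Fintype.card_fin, hV]
    ring

end Vale.Agent.P065.W
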