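import Vale.Agent.P065.W.LatE

/-!
P065, wide fans, block L: the cells of the lattice gadget.
-/

set_option linter.all false

namespace Vale.Agent.P065.W

open Vale.Agent.P065 LatG

namespace LatW

section gadget

variable {ι υ : Type}

namespace Hyp

variable [Fintype ι] [Fintype υ] {C : Cfg ι υ} {a : ι → ℤ} {h d V A X Xm Y : ℕ}
  {B Γ T s Z θ η δ ζ : ℝ} (hh : Hyp C a h d V A X Xm Y B Γ T s Z θ η δ ζ)

include hh

open scoped Classical in
lemma baln (v : Fin (2 * X + 1) × Fin (2 * Y + 1) × υ) :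
    ∑ k, (if (FC C a X Y (Y + A * X)).nr ((FC C a X Y (Y + A * X)).c v) k then
      ((LC C a X Y (Y + A * X) δ ζ).w k : ℤ) * sg ((LC C a X Y (Y + A * X) δ ζ).H v k) else 0)
      = 0 := by
  rw [Fintype.sum_prod_type]
  refine Eq.trans ?_ (hh.good.bal v.2.2)
  apply Finset.sum_congr rfl
  intro i _
  have h2 : ∀ c : Fin (2 * (Y + A * X) + 1),
      (if (FC C a X Y (Y + A * X)).nr ((FC C a X Y (Y + A * X)).c v) (i, c) then
        ((LC C a X Y (Y + A * X) δ ζ).w (i, c) : ℤ)
          * sg ((LC C a X Y (Y + A * X) δ ζ).H v (i, c)) else 0)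
      = (if c = idx (Y + A * X) (cen v.2.1 - a i * cen v.1) then
            (C.w i : ℤ) * sg (C.H v.2.2 i) else 0) := by
    intro c
    have e1 : (LC C a X Y (Y + A * X) δ ζ).w (i, c) = C.w i := rfl
    by_cases hc : c = idx (Y + A * X) (cen v.2.1 - a i * cen v.1)
    · have e2 : nn a v ((i, c) : ι × Fin (2 * (Y + A * X) + 1)) = 0 := by
        simp only [nn]
        rw [hc, cen_idx (hh.cb i v)]
        ring
      rw [if_pos hc, if_pos ((nr_iff C a v (i, c)).2 e2), hh.sgH, e1, if_pos e2, e2]
      simp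
    · have e2 : nn a v ((i, c) : ι × Fin (2 * (Y + A * X) + 1)) ≠ 0 := by
        intro e3
        apply hc
        apply idx_unique
        simp only [nn, cen] at e3 ⊢
        linarith only [e3]
      rw [if_neg hc, if_neg (fun e => e2 ((nr_iff C a v (i, c)).1 e))]
  rw [Finset.sum_congr rfl (fun c _ => h2 c), Finset.sum_ite_eq' Finset.univ]
  simp only [Finset.mem_univ, ↓reduceIte]

open scoped Classical in
lemma cnt (v : Fin (2 * X + 1) × Fin (2 * Y + 1) × υ) (k : ι × Fin (2 * (Y + A * X) + 1))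
    (hk : (FC C a X Y (Y + A * X)).nr ((FC C a X Y (Y + A * X)).c v) k) :
    (Finset.univ.filter (fun u => (LC C a X Y (Y + A * X) δ ζ).q u = k ∧
      (FC C a X Y (Y + A * X)).c u = (FC C a X Y (Y + A * X)).c v)).card
      = (FC C a X Y (Y + A * X)).D k := by
  have hk' := (nr_iff C a v k).1 hk
  show _ = C.deg k.1
  simp only [Cfg.deg]
  symm
  apply Finset.card_bij (fun u _ => (v.1, v.2.1, u))
  · intro u hu
    have hu' : C.q u = k.1 := by
      simpa only [Finset.mem_filter, Finset.mem_univ, true_and] using hu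
    simp only [Finset.mem_filter, Finset.mem_univ, true_and]
    refine ⟨?_, rfl⟩
    symm
    exact hh.eq_of_nn_q (v.1, v.2.1, u) k hu'.symm hk'
  · intro u _ u' _ e
    exact congrArg (fun z => z.2.2) e
  · intro u hu
    simp only [Finset.mem_filter, Finset.mem_univ, true_and] at hu
    refine ⟨u.2.2, ?_, ?_⟩
    · simp only [Finset.mem_filter, Finset.mem_univ, true_and]
      rw [← hu.1]
      rfl
    · have h0 : (u.1, u.2.1) = (v.1, v.2.1) := hu.2
      rw [Prod.mk.injEq] at h0
      rw [← h0.1, ← h0.2]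

lemma degle (k : ι × Fin (2 * (Y + A * X) + 1)) :
    (LC C a X Y (Y + A * X) δ ζ).deg k ≤ C.deg k.1 + 2 * X * d := by
  classical
  have h0 : (2 * X + 1) * C.deg k.1 ≤ C.deg k.1 + 2 * X * d := by
    have := Nat.mul_le_mul_left (2 * X) (hh.hdeg k.1)
    calc (2 * X + 1) * C.deg k.1 = C.deg k.1 + 2 * X * C.deg k.1 := by ring
      _ ≤ _ := by omega
  refine le_trans ?_ h0
  simp only [Cfg.deg]
  have h1 : (2 * X + 1) * (Finset.univ.filter (fun v => C.q v = k.1)).card
      = ((Finset.univ : Finset (Fin (2 * X + 1))) ×ˢ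
        (Finset.univ.filter (fun v => C.q v = k.1))).card := by
    rw [Finset.card_product, Finset.card_univ, Fintype.card_fin]
  rw [h1]
  apply Finset.card_le_card_of_injOn (fun v => (v.1, v.2.2))
  · intro v hv
    have hv2 : (LC C a X Y (Y + A * X) δ ζ).q v = k := by
      simpa only [Finset.coe_filter, Finset.mem_univ, true_and, Set.mem_ofPred_eq] using hv
    have : C.q v.2.2 = k.1 := by rw [← hv2]; rfl
    simp only [Finset.coe_product, Finset.coe_univ, Finset.coe_filter, Finset.mem_univ, true_and,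
      Set.mem_prod, Set.mem_univ, Set.mem_ofPred_eq, this, and_self]
  · intro v hv v' hv' e
    have hv2 : (LC C a X Y (Y + A * X) δ ζ).q v = k := by
      simpa only [Finset.coe_filter, Finset.mem_univ, true_and, Set.mem_ofPred_eq] using hv
    have hv2' : (LC C a X Y (Y + A * X) δ ζ).q v' = k := by
      simpa only [Finset.coe_filter, Finset.mem_univ, true_and, Set.mem_ofPred_eq] using hv'
    simp only [Prod.mk.injEq] at e
    have n1 := hh.cen_q v
    have n2 := hh.cen_q v'
    rw [hv2] at n1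
    rw [hv2'] at n2
    rw [← e.1, ← e.2] at n2
    refine Prod.ext e.1 (Prod.ext (cen_inj ?_) e.2)
    linarith only [n1, n2]

lemma cel : CelOk (LC C a X Y (Y + A * X) δ ζ) (FC C a X Y (Y + A * X)) d (2 * X * d) where
  nq v := (nr_iff C a v _).2 (hh.nn_q v)
  np v := (nr_iff C a v _).2 (hh.nn_p v)
  baln := hh.baln
  cnt := fun v k hk => by convert hh.cnt v k hk
  Dle k := hh.hdeg k.1
  degle := hh.degle

end Hyp

end gadget

end LatW

end Vale.Agent.P065.W
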