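import Vale.Agent.P065.W.Defs

/-!
P065, wide fans, block L: the lattice gadget, definitions and basic estimates.
-/

set_option linter.all false

namespace Vale.Agent.P065.W

open Vale.Agent.P065 LatG

namespace LatW

/-- centered value of an index -/
def cen {N : ℕ} (k : Fin (2 * N + 1)) : ℤ := ((k : ℕ) : ℤ) - N

lemma cen_le {N : ℕ} (k : Fin (2 * N + 1)) : |cen k| ≤ (N : ℤ) := by
  have := k.2
  rw [abs_le]
  constructor <;> (simp only [cen]; omega)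

lemma cen_leR {N : ℕ} (k : Fin (2 * N + 1)) : |((cen k : ℤ) : ℝ)| ≤ N := by
  exact_mod_cast cen_le k

lemma cen_inj {N : ℕ} {k k' : Fin (2 * N + 1)} (h : cen k = cen k') : k = k' := by
  apply Fin.ext
  simp only [cen] at h
  omega

lemma cen_idx {N : ℕ} {z : ℤ} (hz : |z| ≤ (N : ℤ)) : cen (idx N z) = z := idx_spec hz

section gadget

variable {ι υ : Type}

/-- the lattice configuration -/
noncomputable def LC (C : Cfg ι υ) (a : ι → ℤ) (X Y N : ℕ) (δ ζ : ℝ) :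
    Cfg (ι × Fin (2 * N + 1)) (Fin (2 * X + 1) × Fin (2 * Y + 1) × υ) where
  m j := (a j.1 : ℝ) / (1 - δ * a j.1)
  t j := (((cen j.2 : ℤ) : ℝ) + ζ * C.t j.1) / (1 - δ * a j.1)
  w j := C.w j.1
  σ _ := 0
  q v := (C.q v.2.2, idx N (cen v.2.1 - a (C.q v.2.2) * cen v.1))
  p v := (C.p v.2.2, idx N (cen v.2.1 - a (C.p v.2.2) * cen v.1))
  x v := (((cen v.1 : ℤ) : ℝ) + ζ * C.x v.2.2) - δ * (((cen v.2.1 : ℤ) : ℝ) + ζ * C.y v.2.2)
  y v := ((cen v.2.1 : ℤ) : ℝ) + ζ * C.y v.2.2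

/-- the cells of the lattice configuration -/
noncomputable def FC [Fintype υ] (C : Cfg ι υ) (a : ι → ℤ) (X Y N : ℕ) :
    Cel (ι × Fin (2 * N + 1)) (Fin (2 * X + 1) × Fin (2 * Y + 1) × υ)
      (Fin (2 * X + 1) × Fin (2 * Y + 1)) where
  c v := (v.1, v.2.1)
  nr g j := cen j.2 = cen g.2 - a j.1 * cen g.1
  D j := C.deg j.1

/-- the integer part of the height -/
def nn (a : ι → ℤ) {X Y N : ℕ} (v : Fin (2 * X + 1) × Fin (2 * Y + 1) × υ)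
    (j : ι × Fin (2 * N + 1)) : ℤ :=
  cen j.2 - (cen v.2.1 - a j.1 * cen v.1)

lemma nr_iff [Fintype υ] (C : Cfg ι υ) (a : ι → ℤ) {X Y N : ℕ}
    (v : Fin (2 * X + 1) × Fin (2 * Y + 1) × υ) (j : ι × Fin (2 * N + 1)) :
    (FC C a X Y N).nr ((FC C a X Y N).c v) j ↔ nn a v j = 0 := by
  simp only [FC, nn]
  rw [sub_eq_zero]

lemma LC_H {C : Cfg ι υ} {a : ι → ℤ} {X Y N : ℕ} {δ ζ : ℝ} (hm : ∀ k, C.m k = a k)
    (v : Fin (2 * X + 1) × Fin (2 * Y + 1) × υ) (j : ι × Fin (2 * N + 1))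
    (hd : 1 - δ * a j.1 ≠ 0) :
    (LC C a X Y N δ ζ).H v j = ((nn a v j : ℤ) + ζ * C.H v.2.2 j.1) / (1 - δ * a j.1) := by
  simp only [Cfg.H, LC, nn, hm]
  push_cast
  rw [eq_div_iff hd]
  have e1 : (a j.1 : ℝ) / (1 - δ * a j.1) * (1 - δ * a j.1) = a j.1 := div_mul_cancel₀ _ hd
  have e2 : (((cen j.2 : ℤ) : ℝ) + ζ * C.t j.1) / (1 - δ * a j.1) * (1 - δ * a j.1)
    = ((cen j.2 : ℤ) : ℝ) + ζ * C.t j.1 := div_mul_cancel₀ _ hd
  generalize (a j.1 : ℝ) / (1 - δ * a j.1) = u at e1 ⊢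
  generalize (((cen j.2 : ℤ) : ℝ) + ζ * C.t j.1) / (1 - δ * a j.1) = w at e2 ⊢
  linear_combination (((cen v.1 : ℤ) : ℝ) + ζ * C.x v.2.2
    - δ * (((cen v.2.1 : ℤ) : ℝ) + ζ * C.y v.2.2)) * e1 + e2

/-- bundled hypotheses: `δ = 2 η`, `ζ = η / (8 A B)`, `N = Y + A X` -/
structure Hyp [Fintype ι] [Fintype υ] (C : Cfg ι υ) (a : ι → ℤ) (h d V A X Xm Y : ℕ)
    (B Γ T s Z θ η δ ζ : ℝ) : Prop where
  good : C.Good
  hm : ∀ k, C.m k = a k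
  ha : ∀ k, |a k| ≤ (A : ℤ)
  ht : ∀ k, |C.t k| ≤ B
  hx : ∀ v, |C.x v| ≤ B
  hy : ∀ v, |C.y v| ≤ B
  hH : ∀ v k, k ≠ C.q v → k ≠ C.p v → 1 ≤ Γ * |C.H v k|
  hT : ∀ v v', C.q v' ≠ C.q v → |C.Δ v'| * |C.x v - C.x v'| ≤ T * |C.H v (C.q v')|
  hs : ∀ v, s ≤ |C.Δ v|
  hZ : ∀ v, |C.Δ v| ≤ Z
  hdeg : ∀ k, C.deg k ≤ d
  hwt : C.wt = 2 * h
  hV : Fintype.card υ = V
  h1 : 1 ≤ h
  A1 : 1 ≤ A
  B1 : 1 ≤ B
  Γ1 : 1 ≤ Γ
  T1 : 1 ≤ T
  s0 : 0 < s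
  V1 : 1 ≤ V
  Xm1 : 1 ≤ Xm
  XXm : 2 * X + 1 ≤ Xm
  AXm : 8 * A * Xm ≤ Y
  θ0 : 0 < θ
  η0 : 0 < η
  θT : 1024 * θ * T ≤ 1
  θZ : 2048 * θ * Xm * Z ≤ 1
  ηA : 8192 * A * η ≤ θ * s
  ηY : 128 * Y * η ≤ 1
  hδ : δ = 2 * η
  hζ : ζ * (8 * A * B) = η
  hζ0 : 0 < ζ

namespace Hyp

variable [Fintype ι] [Fintype υ] {C : Cfg ι υ} {a : ι → ℤ} {h d V A X Xm Y : ℕ}
  {B Γ T s Z θ η δ ζ : ℝ} (hh : Hyp C a h d V A X Xm Y B Γ T s Z θ η δ ζ)

include hh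

lemma A1R : (1 : ℝ) ≤ A := by exact_mod_cast hh.A1

lemma XmR : (2 : ℝ) * X + 1 ≤ Xm := by exact_mod_cast hh.XXm

lemma AXmR : (8 : ℝ) * (A * Xm) ≤ Y := by
  have := hh.AXm
  have h2 : (8 : ℝ) * A * Xm ≤ Y := by exact_mod_cast this
  linarith only [h2]

lemma X0R : (0 : ℝ) ≤ X := by positivity

/-- sizes: everything in terms of `Y` -/
lemma AY : (8 : ℝ) * A ≤ Y ∧ (8 : ℝ) ≤ Y ∧ (16 : ℝ) * (A * X) + 8 * A ≤ Y ∧
    (16 : ℝ) * X + 8 ≤ Y := by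
  have h1 := hh.A1R
  have h2 := hh.XmR
  have h3 := hh.AXmR
  have h4 := hh.X0R
  have h5 : (A : ℝ) * (2 * X + 1) ≤ A * Xm := mul_le_mul_of_nonneg_left h2 (by linarith only [h1])
  have h6 : (0 : ℝ) ≤ A * X := by positivity
  have h7 : 0 ≤ ((A : ℝ) - 1) * X := mul_nonneg (by linarith only [h1]) h4
  refine ⟨by linarith only [h3, h5, h6], by linarith only [h1, h3, h5, h6],
    by linarith only [h3, h5], by linarith only [h1, h3, h5, h7]⟩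

lemma ηYR : η * Y ≤ 1 / 128 := by
  have := hh.ηY
  linarith only [this]

lemma ηAR : η * A ≤ 1 / 1024 := by
  have h1 := hh.ηYR
  have h2 := mul_le_mul_of_nonneg_left hh.AY.1 hh.η0.le
  linarith only [h1, h2]

lemma ηle : η ≤ 1 / 1024 := by
  have h1 := hh.ηYR
  have h2 := mul_le_mul_of_nonneg_left hh.AY.2.1 hh.η0.le
  linarith only [h1, h2]

lemma δ0 : 0 < δ := by rw [hh.hδ]; have := hh.η0; linarith only [this]

lemma haR (k : ι) : |(a k : ℝ)| ≤ A := by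
  have := hh.ha k
  exact_mod_cast this

lemma δa (k : ι) : |δ * a k| ≤ 1 / 512 := by
  rw [abs_mul, abs_of_pos hh.δ0]
  have h1 := mul_le_mul_of_nonneg_left (hh.haR k) hh.δ0.le
  have h2 := hh.ηAR
  have h3 := hh.hδ
  have h4 : δ * A = 2 * (η * A) := by rw [h3]; ring
  linarith only [h1, h2, h4]

lemma dlo (k : ι) : 511 / 512 ≤ 1 - δ * a k := by
  have := abs_le.mp (hh.δa k); linarith only [this]

lemma dhi (k : ι) : 1 - δ * a k ≤ 513 / 512 := by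
  have := abs_le.mp (hh.δa k); linarith only [this]

lemma dpos (k : ι) : 0 < 1 - δ * a k := by
  have := hh.dlo k; linarith only [this]

/-- the copies are small -/
lemma ζB : ζ * B ≤ η / 8 := by
  have h1 := hh.hζ
  have h2 : 0 ≤ ζ * B * (A - 1) := by
    have := hh.A1R
    apply mul_nonneg (mul_nonneg hh.hζ0.le (by have := hh.B1; linarith only [this]))
    linarith only [this]
  linarith only [h1, h2]

lemma ζx (v : υ) : |ζ * C.x v| ≤ η / 8 := by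
  rw [abs_mul, abs_of_pos hh.hζ0]
  have h1 := mul_le_mul_of_nonneg_left (hh.hx v) hh.hζ0.le
  have h2 := hh.ζB
  linarith only [h1, h2]

lemma ζy (v : υ) : |ζ * C.y v| ≤ η / 8 := by
  rw [abs_mul, abs_of_pos hh.hζ0]
  have h1 := mul_le_mul_of_nonneg_left (hh.hy v) hh.hζ0.le
  have h2 := hh.ζB
  linarith only [h1, h2]

lemma ζt (k : ι) : |ζ * C.t k| ≤ η / 8 := by
  rw [abs_mul, abs_of_pos hh.hζ0]
  have h1 := mul_le_mul_of_nonneg_left (hh.ht k) hh.hζ0.le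
  have h2 := hh.ζB
  linarith only [h1, h2]

/-- bound of the scaled heights inside of a copy -/
lemma Hb (v : υ) (k : ι) : |ζ * C.H v k| ≤ 3 / 8 * η := by
  have h1 : |C.H v k| ≤ 3 * (A * B) := by
    have e : C.H v k = a k * C.x v + C.t k - C.y v := by simp [Cfg.H, hh.hm]
    have h2 : |(a k : ℝ) * C.x v| ≤ A * B := by
      rw [abs_mul]
      exact mul_le_mul (hh.haR k) (hh.hx v) (abs_nonneg _) (by have := hh.A1R; linarith only [this])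
    have h3 : B ≤ A * B := by
      have h1 := hh.A1R
      have h2 := hh.B1
      nlinarith only [h1, h2]
    rw [e]
    have h4 := abs_le.mp (hh.ht k)
    have h5 := abs_le.mp (hh.hy v)
    have h2' := abs_le.mp h2
    rw [abs_le]
    constructor <;> linarith only [h2', h3, h4, h5]
  rw [abs_mul, abs_of_pos hh.hζ0]
  have h6 : ζ * |C.H v k| ≤ ζ * (3 * (A * B)) := mul_le_mul_of_nonneg_left h1 hh.hζ0.le
  have h7 := hh.hζ
  linarith only [h6, h7]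

lemma Hf (N : ℕ) (v : Fin (2 * X + 1) × Fin (2 * Y + 1) × υ) (j : ι × Fin (2 * N + 1)) :
    (LC C a X Y N δ ζ).H v j = ((nn a v j : ℤ) + ζ * C.H v.2.2 j.1) / (1 - δ * a j.1) :=
  LC_H hh.hm v j (hh.dpos j.1).ne'

lemma Δf (N : ℕ) (v : Fin (2 * X + 1) × Fin (2 * Y + 1) × υ) :
    (LC C a X Y N δ ζ).Δ v
      = C.Δ v.2.2 / ((1 - δ * a (C.p v.2.2)) * (1 - δ * a (C.q v.2.2))) := by
  simp only [Cfg.Δ, LC, hh.hm]
  have d1 := (hh.dpos (C.p v.2.2)).ne'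
  have d2 := (hh.dpos (C.q v.2.2)).ne'
  rw [div_sub_div _ _ d1 d2]
  congr 1
  ring

lemma cb (k : ι) (v : Fin (2 * X + 1) × Fin (2 * Y + 1) × υ) :
    |cen v.2.1 - a k * cen v.1| ≤ ((Y + A * X : ℕ) : ℤ) := by
  have h1 := abs_le.mp (cen_le v.2.1)
  have h4 : |a k * cen v.1| ≤ A * X := by
    rw [abs_mul]
    exact mul_le_mul (hh.ha k) (cen_le v.1) (abs_nonneg _) (by positivity)
  have h5 := abs_le.mp h4
  rw [abs_le]
  push_cast
  constructor <;> linarith only [h1, h5]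

lemma nn_q (v : Fin (2 * X + 1) × Fin (2 * Y + 1) × υ) :
    nn a v ((LC C a X Y (Y + A * X) δ ζ).q v) = 0 := by
  simp only [nn, LC]
  rw [cen_idx (hh.cb (C.q v.2.2) v)]
  ring

lemma nn_p (v : Fin (2 * X + 1) × Fin (2 * Y + 1) × υ) :
    nn a v ((LC C a X Y (Y + A * X) δ ζ).p v) = 0 := by
  simp only [nn, LC]
  rw [cen_idx (hh.cb (C.p v.2.2) v)]
  ring

/-- the value of the index of the thin line -/
lemma cen_q (v : Fin (2 * X + 1) × Fin (2 * Y + 1) × υ) :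
    cen ((LC C a X Y (Y + A * X) δ ζ).q v).2 = cen v.2.1 - a (C.q v.2.2) * cen v.1 :=
  cen_idx (hh.cb (C.q v.2.2) v)

lemma cen_p (v : Fin (2 * X + 1) × Fin (2 * Y + 1) × υ) :
    cen ((LC C a X Y (Y + A * X) δ ζ).p v).2 = cen v.2.1 - a (C.p v.2.2) * cen v.1 :=
  cen_idx (hh.cb (C.p v.2.2) v)

end Hyp

end gadget

end LatW

end Vale.Agent.P065.W
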