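import Vale.Agent.P065.W.LatD

/-!
P065, wide fans, block L: the lattice gadget, all fields except the opening of the fans.
-/

set_option linter.all false

namespace Vale.Agent.P065.W

open Vale.Agent.P065 LatG

namespace LatW

section gadget

variable {ι υ : Type}

namespace Hyp

variable [Fintype ι] [Fintype υ] {C : Cfg ι υ} {a : ι → ℤ} {h d V A X Xm Y : ℕ}
  {B Γ T s Z θ η δ ζ : ℝ} (hh : Hyp C a h d V A X Xm Y B Γ T s Z θ η δ ζ)

include hh

/-- the sign of the height -/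
lemma sgH (N : ℕ) (v : Fin (2 * X + 1) × Fin (2 * Y + 1) × υ) (j : ι × Fin (2 * N + 1)) :
    sg ((LC C a X Y N δ ζ).H v j)
      = (nn a v j).sign + (if nn a v j = 0 then sg (C.H v.2.2 j.1) else 0) := by
  rw [hh.Hf, LatG.sg_div_pos (hh.dpos j.1)]
  by_cases hn : nn a v j = 0
  · rw [hn]
    simp only [Int.cast_zero, zero_add, Int.sign_zero, if_true]
    exact LatG.sg_mul_pos hh.hζ0
  · rw [if_neg hn, add_zero]
    have h1 := hh.Hb v.2.2 j.1
    have h2 := hh.ηle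
    exact sg_int_add (by linarith only [h1, h2]) hn

lemma eq_of_nn_q (v : Fin (2 * X + 1) × Fin (2 * Y + 1) × υ) (j : ι × Fin (2 * (Y + A * X) + 1))
    (h1 : j.1 = C.q v.2.2) (h2 : nn a v j = 0) : j = (LC C a X Y (Y + A * X) δ ζ).q v := by
  refine Prod.ext h1 (cen_inj ?_)
  rw [hh.cen_q]
  simp only [nn, h1] at h2
  linarith only [h2]

lemma eq_of_nn_p (v : Fin (2 * X + 1) × Fin (2 * Y + 1) × υ) (j : ι × Fin (2 * (Y + A * X) + 1))
    (h1 : j.1 = C.p v.2.2) (h2 : nn a v j = 0) : j = (LC C a X Y (Y + A * X) δ ζ).p v := by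
  refine Prod.ext h1 (cen_inj ?_)
  rw [hh.cen_p]
  simp only [nn, h1] at h2
  linarith only [h2]

lemma on_q (v : Fin (2 * X + 1) × Fin (2 * Y + 1) × υ) :
    (LC C a X Y (Y + A * X) δ ζ).H v ((LC C a X Y (Y + A * X) δ ζ).q v) = 0 := by
  rw [hh.Hf, hh.nn_q]
  have : C.H v.2.2 ((LC C a X Y (Y + A * X) δ ζ).q v).1 = 0 := hh.good.on_q v.2.2
  rw [this]
  simp

lemma on_p (v : Fin (2 * X + 1) × Fin (2 * Y + 1) × υ) :
    (LC C a X Y (Y + A * X) δ ζ).H v ((LC C a X Y (Y + A * X) δ ζ).p v) = 0 := by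
  rw [hh.Hf, hh.nn_p]
  have : C.H v.2.2 ((LC C a X Y (Y + A * X) δ ζ).p v).1 = 0 := hh.good.on_p v.2.2
  rw [this]
  simp

lemma an (v : υ) : a (C.p v) ≠ a (C.q v) := by
  intro h1
  apply hh.good.ne v
  simp only [Cfg.Δ, hh.hm, h1, sub_self]

lemma inj (v v' : Fin (2 * X + 1) × Fin (2 * Y + 1) × υ)
    (h1 : (LC C a X Y (Y + A * X) δ ζ).q v = (LC C a X Y (Y + A * X) δ ζ).q v')
    (h2 : (LC C a X Y (Y + A * X) δ ζ).p v = (LC C a X Y (Y + A * X) δ ζ).p v') : v = v' := by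
  have q1 : C.q v.2.2 = C.q v'.2.2 := congrArg Prod.fst h1
  have p1 : C.p v.2.2 = C.p v'.2.2 := congrArg Prod.fst h2
  have e1 : v.2.2 = v'.2.2 := hh.good.inj _ _ q1 p1
  have n1 := hh.cen_q v
  have n2 := hh.cen_q v'
  have n3 := hh.cen_p v
  have n4 := hh.cen_p v'
  rw [h1] at n1
  rw [h2] at n3
  rw [← q1] at n2
  rw [← p1] at n4
  have hne := hh.an v.2.2
  have g1 : (a (C.p v.2.2) - a (C.q v.2.2)) * (cen v.1 - cen v'.1) = 0 := by
    linear_combination n3 - n4 - n1 + n2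
  have g2 : cen v.1 - cen v'.1 = 0 := by
    rcases mul_eq_zero.mp g1 with g | g
    · exact absurd (by linarith only [g]) hne
    · exact g
  have g3 : cen v.2.1 - cen v'.2.1 = 0 := by
    linear_combination n2 - n1 + a (C.q v.2.2) * g2
  exact Prod.ext (cen_inj (by linarith only [g2])) (Prod.ext (cen_inj (by linarith only [g3])) e1)

/-- bounds of the product of the two denominators -/
lemma dd (k k' : ι) : 510 / 512 ≤ (1 - δ * a k) * (1 - δ * a k') ∧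
    (1 - δ * a k) * (1 - δ * a k') ≤ 515 / 512 := by
  have d1 := hh.dlo k
  have d2 := hh.dlo k'
  have d3 := hh.dhi k
  have d4 := hh.dhi k'
  constructor
  · have := mul_le_mul d1 d2 (by norm_num) (by linarith only [d1])
    linarith only [this]
  · have := mul_le_mul d3 d4 (by linarith only [d2]) (by norm_num)
    linarith only [this]

lemma lo (v : Fin (2 * X + 1) × Fin (2 * Y + 1) × υ) :
    s ≤ 2 * |(LC C a X Y (Y + A * X) δ ζ).Δ v| := by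
  have h1 := hh.dd (C.p v.2.2) (C.q v.2.2)
  have h2 := hh.hs v.2.2
  have h3 := hh.s0
  have h4 : 0 < (1 - δ * a (C.p v.2.2)) * (1 - δ * a (C.q v.2.2)) := by linarith only [h1.1]
  rw [hh.Δf, abs_div, abs_of_pos h4, ← mul_div_assoc, le_div_iff₀ h4]
  have h5 : s * ((1 - δ * a (C.p v.2.2)) * (1 - δ * a (C.q v.2.2))) ≤ s * (515 / 512) :=
    mul_le_mul_of_nonneg_left h1.2 h3.le
  linarith only [h2, h3, h5]

lemma hi (v : Fin (2 * X + 1) × Fin (2 * Y + 1) × υ) :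
    |(LC C a X Y (Y + A * X) δ ζ).Δ v| ≤ 512 / 510 * |C.Δ v.2.2| := by
  have h1 := hh.dd (C.p v.2.2) (C.q v.2.2)
  have h4 : 0 < (1 - δ * a (C.p v.2.2)) * (1 - δ * a (C.q v.2.2)) := by linarith only [h1.1]
  rw [hh.Δf, abs_div, abs_of_pos h4, div_le_iff₀ h4]
  have h5 : (512 / 510 * |C.Δ v.2.2|) * (510 / 512)
      ≤ (512 / 510 * |C.Δ v.2.2|) * ((1 - δ * a (C.p v.2.2)) * (1 - δ * a (C.q v.2.2))) :=
    mul_le_mul_of_nonneg_left h1.1 (by positivity)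
  linarith only [h5]

lemma divb {z : ℝ} (k : ι) : |z / (1 - δ * a k)| ≤ 512 / 511 * |z| := by
  have d1 := hh.dlo k
  rw [abs_div, abs_of_pos (hh.dpos k), div_le_iff₀ (hh.dpos k)]
  have h1 := abs_nonneg z
  have h2 : (512 / 511 * |z|) * (511 / 512) ≤ (512 / 511 * |z|) * (1 - δ * a k) :=
    mul_le_mul_of_nonneg_left d1 (by positivity)
  linarith only [h2]

lemma mb' (j : ι × Fin (2 * (Y + A * X) + 1)) :
    |(LC C a X Y (Y + A * X) δ ζ).m j| ≤ 2 * A := by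
  have h1 := hh.divb (z := (a j.1 : ℝ)) j.1
  have h2 := hh.haR j.1
  have h3 := hh.A1R
  simp only [LC]
  linarith only [h1, h2, h3]

lemma tb' (j : ι × Fin (2 * (Y + A * X) + 1)) :
    |(LC C a X Y (Y + A * X) δ ζ).t j| ≤ 2 * Y := by
  have h1 := hh.divb (z := ((cen j.2 : ℤ) : ℝ) + ζ * C.t j.1) j.1
  have h2 := cen_leR j.2
  have h3 := hh.ζt j.1
  have h4 := hh.ηle
  have h5 := hh.AY
  have h6 := abs_add_le ((cen j.2 : ℤ) : ℝ) (ζ * C.t j.1)
  have h7 := hh.A1R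
  push_cast at h2
  simp only [LC]
  linarith only [h1, h2, h3, h4, h5.2.1, h5.2.2.1, h6, h7]

lemma ηyb (l : Fin (2 * Y + 1)) : |η * ((cen l : ℤ) : ℝ)| ≤ 1 / 128 := by
  rw [abs_mul, abs_of_pos hh.η0]
  have h1 := mul_le_mul_of_nonneg_left (cen_leR l) hh.η0.le
  have h2 := hh.ηYR
  linarith only [h1, h2]

lemma ηζy (v : υ) : |η * (ζ * C.y v)| ≤ η / 1024 := by
  have h1 := hh.ζy v
  have h2 := hh.ηle
  have h3 := hh.η0
  rw [abs_mul, abs_of_pos hh.η0]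
  have h4 := mul_le_mul_of_nonneg_left h1 h3.le
  have h5 := mul_le_mul_of_nonneg_left h2 h3.le
  have h6 : 0 < η * 1 := by linarith only [h3]
  linarith only [h4, h5, h6]

/-- the abscissa is close to the number of the column -/
lemma xcol (v : Fin (2 * X + 1) × Fin (2 * Y + 1) × υ) :
    |(LC C a X Y (Y + A * X) δ ζ).x v - ((cen v.1 : ℤ) : ℝ)| ≤ 1 / 32 := by
  have h5 := abs_le.mp (hh.ζx v.2.2)
  have h6 := abs_le.mp (hh.ηζy v.2.2)
  have h7 := abs_le.mp (hh.ηyb v.2.1)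
  have h8 := hh.ηle
  have e : (LC C a X Y (Y + A * X) δ ζ).x v - ((cen v.1 : ℤ) : ℝ)
      = ζ * C.x v.2.2 - 2 * (η * ((cen v.2.1 : ℤ) : ℝ)) - 2 * (η * (ζ * C.y v.2.2)) := by
    simp only [LC, hh.hδ]
    ring
  rw [e, abs_le]
  constructor <;> linarith only [h5, h6, h7, h8]

lemma xb' (v : Fin (2 * X + 1) × Fin (2 * Y + 1) × υ) :
    |(LC C a X Y (Y + A * X) δ ζ).x v| ≤ X + 1 := by
  have h1 := abs_le.mp (hh.xcol v)
  have h2 := abs_le.mp (cen_leR v.1)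
  rw [abs_le]
  constructor <;> linarith only [h1, h2]

lemma yb' (v : Fin (2 * X + 1) × Fin (2 * Y + 1) × υ) :
    |(LC C a X Y (Y + A * X) δ ζ).y v| ≤ Y + 1 := by
  have h5 := abs_le.mp (hh.ζy v.2.2)
  have h7 := abs_le.mp (cen_leR v.2.1)
  have h10 := hh.ηle
  simp only [LC]
  rw [abs_le]
  constructor <;> linarith only [h5, h7, h10]

/-- the height of a line in another row -/
lemma Hrow (v : Fin (2 * X + 1) × Fin (2 * Y + 1) × υ) (j : ι × Fin (2 * (Y + A * X) + 1))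
    (hn : nn a v j ≠ 0) : 1 / 2 ≤ |(LC C a X Y (Y + A * X) δ ζ).H v j| := by
  have h1 : (1 : ℝ) ≤ |((nn a v j : ℤ) : ℝ)| := by exact_mod_cast Int.one_le_abs hn
  have h2 := hh.Hb v.2.2 j.1
  have h4 := hh.ηle
  have h3 := abs_sub_abs_le_abs_sub ((nn a v j : ℤ) : ℝ) (-(ζ * C.H v.2.2 j.1))
  rw [abs_neg, sub_neg_eq_add] at h3
  rw [hh.Hf, abs_div, abs_of_pos (hh.dpos j.1), le_div_iff₀ (hh.dpos j.1)]
  have h5 := hh.dhi j.1
  linarith only [h1, h2, h3, h4, h5]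

/-- the height of a line through the cell -/
lemma Hcell (v : Fin (2 * X + 1) × Fin (2 * Y + 1) × υ) (j : ι × Fin (2 * (Y + A * X) + 1))
    (hn : nn a v j = 0) : |(LC C a X Y (Y + A * X) δ ζ).H v j| ≤ 512 / 511 * (ζ * |C.H v.2.2 j.1|)
      ∧ 512 / 513 * (ζ * |C.H v.2.2 j.1|) ≤ |(LC C a X Y (Y + A * X) δ ζ).H v j| := by
  have h0 : 0 ≤ ζ * |C.H v.2.2 j.1| := mul_nonneg hh.hζ0.le (abs_nonneg _)
  rw [hh.Hf, hn, Int.cast_zero, zero_add]
  constructor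
  · refine (hh.divb j.1).trans ?_
    rw [abs_mul, abs_of_pos hh.hζ0]
  · rw [abs_div, abs_of_pos (hh.dpos j.1), le_div_iff₀ (hh.dpos j.1), abs_mul, abs_of_pos hh.hζ0]
    have h5 := mul_le_mul_of_nonneg_left (hh.dhi j.1) h0
    linarith only [h5]

lemma off (v : Fin (2 * X + 1) × Fin (2 * Y + 1) × υ) (j : ι × Fin (2 * (Y + A * X) + 1))
    (hq : j ≠ (LC C a X Y (Y + A * X) δ ζ).q v) (hp : j ≠ (LC C a X Y (Y + A * X) δ ζ).p v) :
    1 ≤ (32 * A * B * Γ / η) * |(LC C a X Y (Y + A * X) δ ζ).H v j| := by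
  have hA := hh.A1R
  have hB := hh.B1
  have hΓ := hh.Γ1
  have hη := hh.η0
  have hK : 0 < 32 * A * B * Γ / η := by positivity
  by_cases hn : nn a v j = 0
  · have h1 : j.1 ≠ C.q v.2.2 := fun e => hq (hh.eq_of_nn_q v j e hn)
    have h2 : j.1 ≠ C.p v.2.2 := fun e => hp (hh.eq_of_nn_p v j e hn)
    have h3 := hh.hH v.2.2 j.1 h1 h2
    have h4 := (hh.Hcell v j hn).2
    have h5 := mul_le_mul_of_nonneg_left h4 hK.le
    have h6 : 32 * A * B * Γ / η * (512 / 513 * (ζ * |C.H v.2.2 j.1|))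
        = 4 * (512 / 513) * ((ζ * (8 * A * B) / η) * (Γ * |C.H v.2.2 j.1|)) := by ring
    rw [h6, hh.hζ, div_self hη.ne'] at h5
    linarith only [h3, h5]
  · have h1 := hh.Hrow v j hn
    have h2 : (4 : ℝ) ≤ 32 * A * B * Γ / η := by
      rw [le_div_iff₀ hη]
      have e2 : (1 : ℝ) ≤ (A : ℝ) * B * Γ :=
        one_le_mul_of_one_le_of_one_le (one_le_mul_of_one_le_of_one_le hA hB) hΓ
      have h7 := hh.ηle
      linarith only [e2, h7]
    have h3 := mul_le_mul h2 h1 (by norm_num) hK.le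
    linarith only [h3]

/-- `|∑ w a| ≤ 2 h A` -/
lemma sumwa : |∑ k, (C.w k : ℤ) * a k| ≤ 2 * h * A := by
  refine (Finset.abs_sum_le_sum_abs _ _).trans ?_
  have h1 : ∀ k ∈ Finset.univ, |(C.w k : ℤ) * a k| ≤ (C.w k : ℤ) * A := by
    intro k _
    rw [abs_mul, abs_of_nonneg (by positivity : (0 : ℤ) ≤ (C.w k : ℤ))]
    exact mul_le_mul_of_nonneg_left (hh.ha k) (by positivity)
  refine (Finset.sum_le_sum h1).trans ?_
  rw [← Finset.sum_mul]
  have h4 : ∑ i, (C.w i : ℤ) = 2 * (h : ℤ) := by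
    have := hh.hwt
    simp only [Cfg.wt] at this
    exact_mod_cast this
  rw [h4]

lemma sumw : ∑ i, (C.w i : ℤ) = 2 * (h : ℤ) := by
  have := hh.hwt
  simp only [Cfg.wt] at this
  exact_mod_cast this

/-- balance of the lattice configuration alone -/
lemma balL (v : Fin (2 * X + 1) × Fin (2 * Y + 1) × υ) :
    ∑ j, ((LC C a X Y (Y + A * X) δ ζ).w j : ℤ) * sg ((LC C a X Y (Y + A * X) δ ζ).H v j)
      = -(2 * (2 * (h : ℤ)) * cen v.2.1) + 2 * cen v.1 * ∑ i, (C.w i : ℤ) * a i := by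
  rw [Fintype.sum_prod_type]
  have h1 : ∀ i : ι, ∑ c : Fin (2 * (Y + A * X) + 1),
      ((LC C a X Y (Y + A * X) δ ζ).w (i, c) : ℤ)
        * sg ((LC C a X Y (Y + A * X) δ ζ).H v (i, c))
      = (C.w i : ℤ) * (-2 * (cen v.2.1 - a i * cen v.1))
        + (C.w i : ℤ) * sg (C.H v.2.2 i) := by
    intro i
    have h2 : ∀ c : Fin (2 * (Y + A * X) + 1),
        ((LC C a X Y (Y + A * X) δ ζ).w (i, c) : ℤ)
          * sg ((LC C a X Y (Y + A * X) δ ζ).H v (i, c))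
        = (C.w i : ℤ) * ((((c : ℕ) : ℤ) - ((Y + A * X : ℕ) : ℤ)
            - (cen v.2.1 - a i * cen v.1))).sign
          + (if c = idx (Y + A * X) (cen v.2.1 - a i * cen v.1) then
            (C.w i : ℤ) * sg (C.H v.2.2 i) else 0) := by
      intro c
      rw [hh.sgH]
      have e1 : (LC C a X Y (Y + A * X) δ ζ).w (i, c) = C.w i := rfl
      rw [e1, mul_add]
      congr 1
      by_cases hc : c = idx (Y + A * X) (cen v.2.1 - a i * cen v.1)
      · have e2 : nn a v ((i, c) : ι × Fin (2 * (Y + A * X) + 1)) = 0 := by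
          simp only [nn]
          rw [hc, cen_idx (hh.cb i v)]
          ring
        rw [if_pos hc, if_pos e2]
      · have e2 : nn a v ((i, c) : ι × Fin (2 * (Y + A * X) + 1)) ≠ 0 := by
          intro e3
          apply hc
          apply idx_unique
          simp only [nn, cen] at e3 ⊢
          linarith only [e3]
        rw [if_neg hc, if_neg e2, mul_zero]
    rw [Finset.sum_congr rfl (fun c _ => h2 c), Finset.sum_add_distrib, ← Finset.mul_sum,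
      sum_sign_fin _ _ (hh.cb i v), Finset.sum_ite_eq' Finset.univ]
    simp only [Finset.mem_univ, ↓reduceIte]
  rw [Finset.sum_congr rfl (fun i _ => h1 i), Finset.sum_add_distrib, hh.good.bal v.2.2, add_zero]
  have h3 : ∑ i, (C.w i : ℤ) * (-2 * (cen v.2.1 - a i * cen v.1))
      = -2 * cen v.2.1 * (∑ i, (C.w i : ℤ)) + 2 * cen v.1 * (∑ i, (C.w i : ℤ) * a i) := by
    rw [Finset.mul_sum, Finset.mul_sum, ← Finset.sum_add_distrib]
    apply Finset.sum_congr rfl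
    intro i _
    ring
  rw [h3, hh.sumw]
  ring

/-- sign and distance for the Q-lines -/
lemma Qline (v : Fin (2 * X + 1) × Fin (2 * Y + 1) × υ) (b : Fin (2 * X + 1) × Fin (2 * Y)) :
    η / 4 ≤ |(((cen b.1 : ℤ) : ℝ) - η * ((((b.2 : ℕ) : ℝ) - Y) + 1 / 2))
      - ((LC C a X Y (Y + A * X) δ ζ).x v + η * (LC C a X Y (Y + A * X) δ ζ).y v)| ∧
    sg ((((cen b.1 : ℤ) : ℝ) - η * ((((b.2 : ℕ) : ℝ) - Y) + 1 / 2))
      - ((LC C a X Y (Y + A * X) δ ζ).x v + η * (LC C a X Y (Y + A * X) δ ζ).y v))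
      = (((b.1 : ℕ) : ℤ) - ((v.1 : ℕ) : ℤ)).sign
        + (if b.1 = v.1 then (if (b.2 : ℕ) < (v.2.1 : ℕ) then 1 else -1) else 0) := by
  have h5 := abs_le.mp (hh.ζx v.2.2)
  have h6 := abs_le.mp (hh.ηζy v.2.2)
  have h10 := hh.ηle
  have hη0 := hh.η0
  obtain ⟨E, hE⟩ : ∃ E : ℝ, E = η * (ζ * C.y v.2.2) - ζ * C.x v.2.2 := ⟨_, rfl⟩
  have hE1 : |E| ≤ η / 4 := by
    rw [abs_le, hE]; constructor <;> linarith only [h5, h6, hη0]
  have hE2 := abs_le.mp hE1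
  have e : (((cen b.1 : ℤ) : ℝ) - η * ((((b.2 : ℕ) : ℝ) - Y) + 1 / 2))
      - ((LC C a X Y (Y + A * X) δ ζ).x v + η * (LC C a X Y (Y + A * X) δ ζ).y v)
      = ((((b.1 : ℕ) : ℤ) - ((v.1 : ℕ) : ℤ) : ℤ) : ℝ)
        + (η * ((((v.2.1 : ℕ) : ℝ) - ((b.2 : ℕ) : ℝ)) - 1 / 2) + E) := by
    simp only [LC, hE, hh.hδ, cen]
    push_cast
    ring
  rw [e]
  have hl1 : ((v.2.1 : ℕ) : ℝ) ≤ 2 * (Y : ℝ) := by
    have := v.2.1.2
    exact_mod_cast (by omega : (v.2.1 : ℕ) ≤ 2 * Y)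
  have hl2 : (0 : ℝ) ≤ ((v.2.1 : ℕ) : ℝ) := by (clear * -; positivity)
  have hb1 : ((b.2 : ℕ) : ℝ) + 1 ≤ 2 * (Y : ℝ) := by
    have := b.2.2
    exact_mod_cast (by omega : (b.2 : ℕ) + 1 ≤ 2 * Y)
  have hb2 : (0 : ℝ) ≤ ((b.2 : ℕ) : ℝ) := by (clear * -; positivity)
  by_cases hk : b.1 = v.1
  · rw [hk, sub_self, Int.sign_zero, Int.cast_zero, zero_add, zero_add, if_pos rfl]
    by_cases hl : (b.2 : ℕ) < (v.2.1 : ℕ)
    · have g1 : ((b.2 : ℕ) : ℝ) + 1 ≤ ((v.2.1 : ℕ) : ℝ) := by exact_mod_cast hl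
      have g2 : η / 4 ≤ η * ((((v.2.1 : ℕ) : ℝ) - ((b.2 : ℕ) : ℝ)) - 1 / 2) + E := by
        have : η * (1 / 2) ≤ η * ((((v.2.1 : ℕ) : ℝ) - ((b.2 : ℕ) : ℝ)) - 1 / 2) :=
          mul_le_mul_of_nonneg_left (by linarith only [g1]) hη0.le
        linarith only [hE2, this]
      rw [if_pos hl]
      exact ⟨g2.trans (le_abs_self _), LatG.sg_pos (by linarith only [hη0, g2])⟩
    · have g1 : ((v.2.1 : ℕ) : ℝ) ≤ ((b.2 : ℕ) : ℝ) := by exact_mod_cast not_lt.mp hl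
      have g2 : η * ((((v.2.1 : ℕ) : ℝ) - ((b.2 : ℕ) : ℝ)) - 1 / 2) + E ≤ -(η / 4) := by
        have : η * ((((v.2.1 : ℕ) : ℝ) - ((b.2 : ℕ) : ℝ)) - 1 / 2) ≤ η * (-(1 / 2)) :=
          mul_le_mul_of_nonneg_left (by linarith only [g1]) hη0.le
        linarith only [hE2, this]
      rw [if_neg hl]
      refine ⟨?_, LatG.sg_neg (by linarith only [hη0, g2])⟩
      rw [le_abs]
      right
      linarith only [g2]
  · have hn : ((b.1 : ℕ) : ℤ) - ((v.1 : ℕ) : ℤ) ≠ 0 := by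
      intro h0
      apply hk
      apply Fin.ext
      omega
    have g0 := hh.ηYR
    have g1 : |η * ((((v.2.1 : ℕ) : ℝ) - ((b.2 : ℕ) : ℝ)) - 1 / 2) + E| ≤ 1 / 8 := by
      have g2 : η * ((((v.2.1 : ℕ) : ℝ) - ((b.2 : ℕ) : ℝ)) - 1 / 2) ≤ η * (2 * Y) :=
        mul_le_mul_of_nonneg_left (by linarith only [hl1, hb2]) hη0.le
      have g3 : η * (-(2 * Y)) ≤ η * ((((v.2.1 : ℕ) : ℝ) - ((b.2 : ℕ) : ℝ)) - 1 / 2) :=
        mul_le_mul_of_nonneg_left (by linarith only [hb1, hl2]) hη0.le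
      rw [abs_le]
      constructor <;> linarith only [hE2, h10, g0, g2, g3]
    rw [if_neg hk, add_zero]
    refine ⟨?_, sg_int_add (lt_of_le_of_lt g1 (by norm_num)) hn⟩
    have g4 : (1 : ℝ) ≤ |((((b.1 : ℕ) : ℤ) - ((v.1 : ℕ) : ℤ) : ℤ) : ℝ)| := by
      exact_mod_cast Int.one_le_abs hn
    have := abs_sub_abs_le_abs_sub ((((b.1 : ℕ) : ℤ) - ((v.1 : ℕ) : ℤ) : ℤ) : ℝ)
      (-(η * ((((v.2.1 : ℕ) : ℝ) - ((b.2 : ℕ) : ℝ)) - 1 / 2) + E))
    rw [abs_neg, sub_neg_eq_add] at this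
    linarith only [h10, g1, g4, this]

/-- sign and distance for the P-lines -/
lemma Pline (v : Fin (2 * X + 1) × Fin (2 * Y + 1) × υ) (b : Fin (2 * X)) :
    1 / 4 ≤ |(LC C a X Y (Y + A * X) δ ζ).x v + -((((b : ℕ) : ℝ) - X) + 1 / 2)| ∧
    sg ((LC C a X Y (Y + A * X) δ ζ).x v + -((((b : ℕ) : ℝ) - X) + 1 / 2))
      = (if (b : ℕ) < (v.1 : ℕ) then 1 else -1) := by
  have h5 := abs_le.mp (hh.xcol v)
  have e0 : ((cen v.1 : ℤ) : ℝ) = ((v.1 : ℕ) : ℝ) - X := by simp [cen]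
  rw [e0] at h5
  by_cases hl : (b : ℕ) < (v.1 : ℕ)
  · have g1 : ((b : ℕ) : ℝ) + 1 ≤ ((v.1 : ℕ) : ℝ) := by exact_mod_cast hl
    rw [if_pos hl]
    refine ⟨?_, LatG.sg_pos (by linarith only [h5, g1])⟩
    rw [le_abs]
    left
    linarith only [h5, g1]
  · have g1 : ((v.1 : ℕ) : ℝ) ≤ ((b : ℕ) : ℝ) := by exact_mod_cast not_lt.mp hl
    rw [if_neg hl]
    refine ⟨?_, LatG.sg_neg (by linarith only [h5, g1])⟩
    rw [le_abs]
    right
    linarith only [h5, g1]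

end Hyp

/-- the gadget -/
noncomputable def GG (C : Cfg ι υ) (a : ι → ℤ) (h X Y N W : ℕ) (η δ ζ : ℝ) :
    Gad (ι × Fin (2 * N + 1)) (Fin (2 * X + 1) × Fin (2 * Y + 1) × υ)
      (Fin (2 * X + 1) × Fin (2 * Y)) (Fin (2 * X)) where
  L := LC C a X Y N δ ζ
  oQ b := ((cen b.1 : ℤ) : ℝ) - η * ((((b.2 : ℕ) : ℝ) - Y) + 1 / 2)
  wQ _ := 2 * h
  oP b := -((((b : ℕ) : ℝ) - X) + 1 / 2)
  wP _ := W

namespace Hyp

variable [Fintype ι] [Fintype υ] {C : Cfg ι υ} {a : ι → ℤ} {h d V A X Xm Y : ℕ}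
  {B Γ T s Z θ η δ ζ : ℝ} (hh : Hyp C a h d V A X Xm Y B Γ T s Z θ η δ ζ)

include hh

lemma balQ (W : ℕ) (v : Fin (2 * X + 1) × Fin (2 * Y + 1) × υ) :
    ∑ b, ((GG C a h X Y (Y + A * X) W η δ ζ).wQ b : ℤ)
        * sg ((GG C a h X Y (Y + A * X) W η δ ζ).oQ b
          - ((GG C a h X Y (Y + A * X) W η δ ζ).L.x v
            + η * (GG C a h X Y (Y + A * X) W η δ ζ).L.y v))
      = 2 * (h : ℤ) * (2 * Y * (-2 * cen v.1) + 2 * cen v.2.1) := by
  have h1 : ∀ b : Fin (2 * X + 1) × Fin (2 * Y), ((GG C a h X Y (Y + A * X) W η δ ζ).wQ b : ℤ)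
        * sg ((GG C a h X Y (Y + A * X) W η δ ζ).oQ b
          - ((GG C a h X Y (Y + A * X) W η δ ζ).L.x v
            + η * (GG C a h X Y (Y + A * X) W η δ ζ).L.y v))
      = 2 * (h : ℤ) * ((((b.1 : ℕ) : ℤ) - ((v.1 : ℕ) : ℤ)).sign
        + (if b.1 = v.1 then (if (b.2 : ℕ) < (v.2.1 : ℕ) then 1 else -1) else 0)) := by
    intro b
    rw [show (GG C a h X Y (Y + A * X) W η δ ζ).oQ b
          - ((GG C a h X Y (Y + A * X) W η δ ζ).L.x v
            + η * (GG C a h X Y (Y + A * X) W η δ ζ).L.y v)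
      = (((cen b.1 : ℤ) : ℝ) - η * ((((b.2 : ℕ) : ℝ) - Y) + 1 / 2))
      - ((LC C a X Y (Y + A * X) δ ζ).x v + η * (LC C a X Y (Y + A * X) δ ζ).y v) from rfl,
      (hh.Qline v b).2]
    simp only [GG]
    push_cast
    ring
  rw [Finset.sum_congr rfl (fun b _ => h1 b), ← Finset.mul_sum, Finset.sum_add_distrib]
  congr 1
  rw [Fintype.sum_prod_type, Fintype.sum_prod_type]
  congr 1
  · simp only [Finset.sum_const, Finset.card_univ, Fintype.card_fin, nsmul_eq_mul]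
    rw [← Finset.mul_sum, sum_sign_fin' (2 * X + 1) (by omega) v.1 v.1.2]
    simp only [cen]
    push_cast
    ring
  · have h2 : ∀ k : Fin (2 * X + 1), (∑ l : Fin (2 * Y), (if k = v.1 then
        (if (l : ℕ) < (v.2.1 : ℕ) then (1 : ℤ) else -1) else 0))
        = (if k = v.1 then (2 * cen v.2.1) else 0) := by
      intro k
      by_cases hk : k = v.1
      · simp only [hk, if_true]
        rw [sum_ite_fin (2 * Y) (v.2.1 : ℕ) (by have := v.2.1.2; omega)]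
        simp only [cen]
        push_cast
        ring
      · simp only [hk, if_false, Finset.sum_const_zero]
    rw [Finset.sum_congr rfl (fun k _ => h2 k), Finset.sum_ite_eq' Finset.univ]
    simp only [Finset.mem_univ, ↓reduceIte]

lemma balP (W : ℕ) (v : Fin (2 * X + 1) × Fin (2 * Y + 1) × υ) :
    ∑ b, ((GG C a h X Y (Y + A * X) W η δ ζ).wP b : ℤ)
        * sg ((GG C a h X Y (Y + A * X) W η δ ζ).L.x v
          + (GG C a h X Y (Y + A * X) W η δ ζ).oP b)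
      = (W : ℤ) * (2 * cen v.1) := by
  have h1 : ∀ b : Fin (2 * X), ((GG C a h X Y (Y + A * X) W η δ ζ).wP b : ℤ)
        * sg ((GG C a h X Y (Y + A * X) W η δ ζ).L.x v
          + (GG C a h X Y (Y + A * X) W η δ ζ).oP b)
      = (W : ℤ) * (if (b : ℕ) < (v.1 : ℕ) then 1 else -1) := by
    intro b
    rw [show (GG C a h X Y (Y + A * X) W η δ ζ).L.x v
          + (GG C a h X Y (Y + A * X) W η δ ζ).oP b
      = (LC C a X Y (Y + A * X) δ ζ).x v + -((((b : ℕ) : ℝ) - X) + 1 / 2) from rfl,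
      (hh.Pline v b).2]
    simp only [GG]
  rw [Finset.sum_congr rfl (fun b _ => h1 b), ← Finset.mul_sum,
    sum_ite_fin (2 * X) (v.1 : ℕ) (by have := v.1.2; omega)]
  congr 1
  simp only [cen]
  push_cast
  ring

end Hyp

end gadget

end LatW

end Vale.Agent.P065.W
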