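import Mathlib
import Vale.Agent.P065.W.Defs

/-!
P065, wide fans, block M: the meta step (`k`-fold insertion of the lattice gadget, then rounding).
-/

set_option linter.all false

namespace Vale.Agent.P065.W

open Vale.Agent.P065

/-! ### bounds by powers of two -/

theorem b2_pos (α : ℝ) : (0 : ℝ) < (2 : ℝ) ^ α := Real.rpow_pos_of_pos (by norm_num) _

theorem b2_mul {x y α β : ℝ} (hx : x ≤ (2 : ℝ) ^ α) (hy : y ≤ (2 : ℝ) ^ β) (hy0 : 0 ≤ y) :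
    x * y ≤ (2 : ℝ) ^ (α + β) := by
  rw [Real.rpow_add (by norm_num)]
  exact mul_le_mul hx hy hy0 (b2_pos _).le

theorem b2_pow {x α : ℝ} (hx : x ≤ (2 : ℝ) ^ α) (h0 : 0 ≤ x) (k : ℕ) :
    x ^ k ≤ (2 : ℝ) ^ ((k : ℝ) * α) := by
  calc x ^ k ≤ ((2 : ℝ) ^ α) ^ k := pow_le_pow_left₀ h0 hx k
    _ = (2 : ℝ) ^ ((k : ℝ) * α) := by
      rw [← Real.rpow_natCast, ← Real.rpow_mul (by norm_num)]
      congr 1
      ring

theorem b2_mono {x α β : ℝ} (hx : x ≤ (2 : ℝ) ^ α) (h : α ≤ β) : x ≤ (2 : ℝ) ^ β :=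
  hx.trans (Real.rpow_le_rpow_of_exponent_le (by norm_num) h)

theorem b2_nat {c : ℝ} (n : ℕ) (h : c ≤ 2 ^ n) : c ≤ (2 : ℝ) ^ (n : ℝ) := by
  rw [Real.rpow_natCast]
  exact h

theorem b2_add {x y α : ℝ} (hx : x ≤ (2 : ℝ) ^ α) (hy : y ≤ (2 : ℝ) ^ α) :
    x + y ≤ (2 : ℝ) ^ (α + 1) := by
  rw [Real.rpow_add (by norm_num), Real.rpow_one]
  linarith only [hx, hy]

theorem b2_one {α : ℝ} (h : 0 ≤ α) : (1 : ℝ) ≤ (2 : ℝ) ^ α :=
  Real.one_le_rpow (by norm_num) h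

/-- all derived parameters of the construction -/
structure Prm (A B Γ T s Z Xm θ η R ρ Γg S T' W U ρ' σ ζ : ℝ) : Prop where
  eθ : θ = 1 / (2048 * (T + Xm * Z))
  eη : η = θ * s / (8192 * A)
  eR : R = 8 * (8 * A * Xm)
  eρ : ρ = η / 4
  eΓ : Γg = 32 * A * B * Γ / η
  eS : S = 4 * Z / s
  eT : T' = 4 * R ^ 2 * Γg
  eW : W = 4 * S * R ^ 2 * Γg / ρ
  eU : U = 4 + 64 * R ^ 2 * Γg + 64 * S * R * (W + 1) / ρ
  eρ' : ρ' = ρ / (256 * S ^ 2 * R ^ 2 * Γg)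
  eσ : σ = θ * η * s / 2
  eζ : ζ = 2 * θ * η * Z

theorem Prm.exists (A B Γ T s Z Xm : ℝ) :
    ∃ θ η R ρ Γg S T' W U ρ' σ ζ, Prm A B Γ T s Z Xm θ η R ρ Γg S T' W U ρ' σ ζ :=
  ⟨_, _, _, _, _, _, _, _, _, _, _, _, rfl, rfl, rfl, rfl, rfl, rfl, rfl, rfl, rfl, rfl, rfl, rfl⟩

/-- positivity facts -/
structure Pos (A B Γ T s Z Xm θ η R ρ Γg S T' W U ρ' σ ζ : ℝ) : Prop where
  θ0 : 0 < θ
  η0 : 0 < η
  ρ0 : 0 < ρ
  Γg1 : 1 ≤ Γg
  R1 : 1 ≤ R
  S1 : 1 ≤ S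
  T1 : 1 ≤ T'
  W0 : 0 ≤ W
  U4 : 4 ≤ U
  θ64 : θ ≤ 1 / 64
  θT : 1024 * θ * T ≤ 1
  θZ : 2048 * θ * Xm * Z ≤ 1
  ηA : 8192 * A * η = θ * s
  Yη : 128 * (8 * A * Xm) * η ≤ 1
  Ss : S * s = 4 * Z
  ρ'0 : 0 < ρ'
  ρ'1 : ρ' ≤ 1
  σ0 : 0 < σ
  ζ0 : 0 < ζ
  σζ : ζ = S * σ

theorem Prm.pos {A B Γ T s Z Xm θ η R ρ Γg S T' W U ρ' σ ζ : ℝ}
    (H : Prm A B Γ T s Z Xm θ η R ρ Γg S T' W U ρ' σ ζ) (A1 : 1 ≤ A) (B1 : 1 ≤ B) (Γ1 : 1 ≤ Γ)
    (T1 : 1 ≤ T) (s1 : 1 ≤ s) (sZ : s ≤ Z) (X1 : 1 ≤ Xm) :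
    Pos A B Γ T s Z Xm θ η R ρ Γg S T' W U ρ' σ ζ := by
  obtain ⟨eθ, eη, eR, eρ, eΓ, eS, eT, eW, eU, eρ', eσ, eζ⟩ := H
  have Z1 : 1 ≤ Z := s1.trans sZ
  have XZ : 1 ≤ Xm * Z := one_le_mul_of_one_le_of_one_le X1 Z1
  have P0 : 0 < 2048 * (T + Xm * Z) := by linarith only [T1, XZ]
  have θ0 : 0 < θ := by rw [eθ]; positivity
  have hθP : θ * (2048 * (T + Xm * Z)) = 1 := by rw [eθ]; field_simp
  have A0 : 0 < A := by linarith only [A1]
  have s0 : 0 < s := by linarith only [s1]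
  have η0 : 0 < η := by rw [eη]; positivity
  have ηA : 8192 * A * η = θ * s := by rw [eη]; field_simp
  have ρ0 : 0 < ρ := by rw [eρ]; positivity
  have θ64 : θ ≤ 1 / 64 := by
    rw [eθ, div_le_div_iff₀ P0 (by norm_num)]
    linarith only [T1, XZ]
  have θXZ0 : 0 ≤ θ * (Xm * Z) := by positivity
  have θT0 : 0 ≤ θ * T := by positivity
  have θT : 1024 * θ * T ≤ 1 := by linarith only [hθP, θXZ0, θT0]
  have θZ : 2048 * θ * Xm * Z ≤ 1 := by linarith only [hθP, θT0]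
  have Yη : 128 * (8 * A * Xm) * η ≤ 1 := by
    have e1 : 128 * (8 * A * Xm) * η = Xm * (8192 * A * η) / 8 := by ring
    rw [e1, ηA]
    have : Xm * (θ * s) ≤ Xm * (θ * Z) := by gcongr
    linarith only [this, θZ, θXZ0]
  have η1 : η ≤ 1 := by
    have h2 : 128 * (8 * 1 * 1) * η ≤ 128 * (8 * A * Xm) * η := by gcongr
    linarith only [Yη, h2, η0]
  have Γg1 : 1 ≤ Γg := by
    rw [eΓ, le_div_iff₀ η0]
    have : 1 * 1 * 1 * 1 ≤ 32 * A * B * Γ := by gcongr; norm_num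
    linarith only [this, η1]
  have R1 : 1 ≤ R := by
    rw [eR]
    have : 1 * 1 ≤ A * Xm := by gcongr
    linarith only [this]
  have Ss : S * s = 4 * Z := by rw [eS]; field_simp
  have S1 : 1 ≤ S := by
    rw [eS, le_div_iff₀ s0]
    linarith only [sZ, Z1]
  have T1' : 1 ≤ T' := by
    rw [eT]
    have : 1 * 1 ^ 2 * 1 ≤ 4 * R ^ 2 * Γg := by gcongr; norm_num
    linarith only [this]
  have W0 : 0 ≤ W := by rw [eW]; positivity
  have U4 : 4 ≤ U := by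
    rw [eU]
    have h1 : 0 ≤ 64 * R ^ 2 * Γg := by positivity
    have h2 : 0 ≤ 64 * S * R * (W + 1) / ρ := by positivity
    linarith only [h1, h2]
  have den : 1 ≤ 256 * S ^ 2 * R ^ 2 * Γg := by
    have : 1 * 1 ^ 2 * 1 ^ 2 * 1 ≤ 256 * S ^ 2 * R ^ 2 * Γg := by gcongr; norm_num
    linarith only [this]
  have ρ'0 : 0 < ρ' := by rw [eρ']; positivity
  have ρ'1 : ρ' ≤ 1 := by
    rw [eρ', div_le_one (by linarith only [den])]
    linarith only [eρ, η1, η0, den]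
  have σ0 : 0 < σ := by rw [eσ]; positivity
  have ζ0 : 0 < ζ := by rw [eζ]; positivity
  have σζ : ζ = S * σ := by
    rw [eσ, eζ]
    have : S * (θ * η * s / 2) = θ * η * (S * s) / 2 := by ring
    rw [this, Ss]
    ring
  exact ⟨θ0, η0, ρ0, Γg1, R1, S1, T1', W0, U4, θ64, θT, θZ, ηA, Yη, Ss, ρ'0, ρ'1, σ0, ζ0, σζ⟩


/-- logarithmic bounds -/
structure Bds (S T' U W ρ' σ R Γg a g q p e : ℝ) : Prop where
  bS : S ≤ (2 : ℝ) ^ (p + 2)
  bσ : 1 / σ ≤ (2 : ℝ) ^ (a + (2 * (12 + q + p + e) + 14))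
  bρ : 1 / ρ' ≤ (2 : ℝ) ^ (57 + 2 * p + 5 * a + 2 * e + g + 2 * (12 + q + p + e))
  bT : 8 * (T' + S) ≤ (2 : ℝ) ^ (38 + 4 * a + 2 * e + g + (12 + q + p + e) + p)
  bU : U + W + 1 ≤ (2 : ℝ) ^ (82 + 2 * p + 7 * a + 3 * e + g + 3 * (12 + q + p + e))

theorem Prm.bds {A B Γ T s Z Xm θ η R ρ Γg S T' W U ρ' σ ζ a g q p e : ℝ}
    (H : Prm A B Γ T s Z Xm θ η R ρ Γg S T' W U ρ' σ ζ) (A1 : 1 ≤ A) (B1 : 1 ≤ B) (Γ1 : 1 ≤ Γ)
    (T1 : 1 ≤ T) (s1 : 1 ≤ s) (sZ : s ≤ Z) (X1 : 1 ≤ Xm) (hA : A ≤ (2 : ℝ) ^ a)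
    (hB : B * Γ ≤ (2 : ℝ) ^ g) (hT : T ≤ (2 : ℝ) ^ q) (hZ : Z ≤ (2 : ℝ) ^ p * s)
    (hX : Xm ≤ (2 : ℝ) ^ e) (a0 : 0 ≤ a) (g0 : 0 ≤ g) (q0 : 0 ≤ q) (p0 : 0 ≤ p) (e0 : 0 ≤ e) :
    Bds S T' U W ρ' σ R Γg a g q p e := by
  have Q := H.pos A1 B1 Γ1 T1 s1 sZ X1
  obtain ⟨eθ, eη, eR, eρ, eΓ, eS, eT, eW, eU, eρ', eσ, eζ⟩ := H
  have A0 : 0 < A := by linarith only [A1]
  have s0 : 0 < s := by linarith only [s1]
  have hθ0 := Q.θ0
  have hη0 := Q.η0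
  have hρ0 := Q.ρ0
  have hΓ0 : 0 < Γg := by linarith only [Q.Γg1]
  have hR0 : 0 < R := by linarith only [Q.R1]
  have hS0 : 0 < S := by linarith only [Q.S1]
  have hT0 : 0 < T' := by linarith only [Q.T1]
  have hW0 := Q.W0
  -- `1 / (θ s)`
  obtain ⟨t, ht⟩ : ∃ t : ℝ, t = 12 + q + p + e := ⟨_, rfl⟩
  have t0 : 0 ≤ t := by rw [ht]; linarith only [q0, p0, e0]
  have b1 : 1 / (θ * s) ≤ (2 : ℝ) ^ t := by
    have e1 : 1 / (θ * s) = 2048 * (T / s + Xm * (Z / s)) := by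
      have : T + Xm * Z ≠ 0 := by
        have : 0 < Xm * Z := by
          have := s1.trans sZ
          positivity
        linarith only [this, T1]
      rw [eθ]
      field_simp
    have h1 : T / s ≤ (2 : ℝ) ^ (q + p + e) := by
      have : T / s ≤ T := div_le_self (by linarith only [T1]) s1
      exact b2_mono (this.trans hT) (by linarith only [p0, e0])
    have h2 : Xm * (Z / s) ≤ (2 : ℝ) ^ (q + p + e) := by
      have h3 : Z / s ≤ (2 : ℝ) ^ p := by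
        rw [div_le_iff₀ s0]
        exact hZ
      have h4 : 0 ≤ Z / s := by
        have := s1.trans sZ
        positivity
      exact b2_mono (b2_mul hX h3 h4) (by linarith only [q0])
    have h5 := b2_mul (b2_nat (c := 2048) 11 (by norm_num)) (b2_add h1 h2)
      (by have := s1.trans sZ; positivity)
    rw [e1]
    refine b2_mono h5 ?_
    rw [ht]
    push_cast
    linarith only []
  -- `1 / η`
  have b2 : 1 / η ≤ (2 : ℝ) ^ (13 + a + t) := by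
    have e1 : 1 / η = 8192 * A * (1 / (θ * s)) := by rw [eη]; field_simp
    rw [e1]
    have h5 := b2_mul (b2_mul (b2_nat (c := 8192) 13 (by norm_num)) hA A0.le) b1 (by positivity)
    exact b2_mono h5 (by push_cast; linarith only [])
  have bS : S ≤ (2 : ℝ) ^ (p + 2) := by
    have e1 : S = Z / s * 4 := by rw [eS]; ring
    have h3 : Z / s ≤ (2 : ℝ) ^ p := by
      rw [div_le_iff₀ s0]
      exact hZ
    rw [e1]
    exact b2_mono (b2_mul h3 (b2_nat (c := 4) 2 (by norm_num)) (by norm_num))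
      (by push_cast; linarith only [])
  have bσ : 1 / σ ≤ (2 : ℝ) ^ (a + (2 * t + 14)) := by
    have e1 : 1 / σ = 2 * (1 / (θ * s)) * (1 / η) := by rw [eσ]; field_simp
    rw [e1]
    have h5 := b2_mul (b2_mul (b2_nat (c := 2) 1 (by norm_num)) b1 (by positivity)) b2
      (by positivity)
    exact b2_mono h5 (by push_cast; linarith only [])
  have bR : R ≤ (2 : ℝ) ^ (6 + a + e) := by
    have e1 : R = 64 * A * Xm := by rw [eR]; ring
    rw [e1]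
    have h5 := b2_mul (b2_mul (b2_nat (c := 64) 6 (by norm_num)) hA A0.le) hX
      (by linarith only [X1])
    exact b2_mono h5 (by push_cast; linarith only [])
  have bΓ : Γg ≤ (2 : ℝ) ^ (18 + 2 * a + g + t) := by
    have e1 : Γg = 32 * A * (B * Γ) * (1 / η) := by rw [eΓ]; ring
    rw [e1]
    have h5 := b2_mul (b2_mul (b2_mul (b2_nat (c := 32) 5 (by norm_num)) hA A0.le) hB
      (by positivity)) b2 (by positivity)
    exact b2_mono h5 (by push_cast; linarith only [])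
  have bρ : 1 / ρ ≤ (2 : ℝ) ^ (15 + a + t) := by
    have e1 : 1 / ρ = 4 * (1 / η) := by rw [eρ]; field_simp
    rw [e1]
    have h5 := b2_mul (b2_nat (c := 4) 2 (by norm_num)) b2 (by positivity)
    exact b2_mono h5 (by push_cast; linarith only [])
  have bR2 : R ^ 2 ≤ (2 : ℝ) ^ (12 + 2 * a + 2 * e) := by
    have := b2_pow bR hR0.le 2
    exact b2_mono this (by push_cast; linarith only [])
  have bT : T' ≤ (2 : ℝ) ^ (32 + 4 * a + 2 * e + g + t) := by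
    rw [eT]
    have h5 := b2_mul (b2_mul (b2_nat (c := 4) 2 (by norm_num)) bR2 (by positivity)) bΓ hΓ0.le
    exact b2_mono h5 (by push_cast; linarith only [])
  have bW : W ≤ (2 : ℝ) ^ (49 + 5 * a + 2 * e + g + 2 * t + p) := by
    have e1 : W = S * T' * (1 / ρ) := by rw [eW, eT]; ring
    rw [e1]
    have h5 := b2_mul (b2_mul bS bT hT0.le) bρ (by positivity)
    exact b2_mono h5 (by push_cast; linarith only [])
  have bW1 : W + 1 ≤ (2 : ℝ) ^ (50 + 5 * a + 2 * e + g + 2 * t + p) := by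
    have h1 : (1 : ℝ) ≤ (2 : ℝ) ^ (49 + 5 * a + 2 * e + g + 2 * t + p) :=
      b2_one (by linarith only [a0, e0, g0, t0, p0])
    exact b2_mono (b2_add bW h1) (by linarith only [])
  have bV : 64 * S * R * (W + 1) / ρ ≤ (2 : ℝ) ^ (79 + 2 * p + 7 * a + 3 * e + g + 3 * t) := by
    have e1 : 64 * S * R * (W + 1) / ρ = 64 * S * R * (W + 1) * (1 / ρ) := by ring
    rw [e1]
    have h5 := b2_mul (b2_mul (b2_mul (b2_mul (b2_nat (c := 64) 6 (by norm_num)) bS hS0.le) bR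
      hR0.le) bW1 (by positivity)) bρ (by positivity)
    exact b2_mono h5 (by push_cast; linarith only [])
  have bTU : 64 * R ^ 2 * Γg ≤ (2 : ℝ) ^ (79 + 2 * p + 7 * a + 3 * e + g + 3 * t) := by
    have e1 : 64 * R ^ 2 * Γg = 16 * T' := by rw [eT]; ring
    rw [e1]
    have h5 := b2_mul (b2_nat (c := 16) 4 (by norm_num)) bT hT0.le
    exact b2_mono h5 (by push_cast; linarith only [a0, e0, g0, t0, p0])
  have b4 : (4 : ℝ) ≤ (2 : ℝ) ^ (79 + 2 * p + 7 * a + 3 * e + g + 3 * t) :=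
    b2_mono (b2_nat (c := 4) 2 (by norm_num)) (by push_cast; linarith only [a0, e0, g0, t0, p0])
  have bW2 : W + 1 ≤ (2 : ℝ) ^ (79 + 2 * p + 7 * a + 3 * e + g + 3 * t) :=
    b2_mono bW1 (by linarith only [a0, e0, g0, t0, p0])
  have bU : U + W + 1 ≤ (2 : ℝ) ^ (82 + 2 * p + 7 * a + 3 * e + g + 3 * t) := by
    have h1 := b2_add (b2_add b4 bTU) (b2_add bV bW2)
    have e1 : U + W + 1 = 4 + 64 * R ^ 2 * Γg + (64 * S * R * (W + 1) / ρ + (W + 1)) := by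
      rw [eU]; ring
    rw [e1]
    exact b2_mono h1 (by linarith only [])
  have bTS : 8 * (T' + S) ≤ (2 : ℝ) ^ (38 + 4 * a + 2 * e + g + t + p) := by
    have h1 : T' ≤ (2 : ℝ) ^ (34 + 4 * a + 2 * e + g + t + p) :=
      b2_mono bT (by linarith only [p0])
    have h2 : S ≤ (2 : ℝ) ^ (34 + 4 * a + 2 * e + g + t + p) :=
      b2_mono bS (by linarith only [a0, e0, g0, t0])
    have h5 := b2_mul (b2_nat (c := 8) 3 (by norm_num)) (b2_add h1 h2) (by positivity)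
    exact b2_mono h5 (by push_cast; linarith only [])
  have bρ' : 1 / ρ' ≤ (2 : ℝ) ^ (57 + 2 * p + 5 * a + 2 * e + g + 2 * t) := by
    have e1 : 1 / ρ' = 256 * S ^ 2 * R ^ 2 * Γg * (1 / ρ) := by rw [eρ']; field_simp
    rw [e1]
    have h5 := b2_mul (b2_mul (b2_mul (b2_mul (b2_nat (c := 256) 8 (by norm_num))
      (b2_pow bS hS0.le 2) (by positivity)) bR2 (by positivity)) bΓ hΓ0.le) bρ (by positivity)
    exact b2_mono h5 (by push_cast; linarith only [])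
  subst ht
  exact ⟨bS, bσ, bρ', bTS, bU⟩

/-! ### one insertion -/

theorem step2 (hP : ProductStmt2) (hL : LatticeStmt2) {h D V A K Xm : ℕ} {B Γ T s Z : ℝ}
    (hIC : IC2 h D V A B Γ T s Z) (h1 : 1 ≤ h) (A1 : 1 ≤ A) (B1 : 1 ≤ B) (Γ1 : 1 ≤ Γ) (T1 : 1 ≤ T)
    (s1 : 1 ≤ s) (sZ : s ≤ Z) (V1 : 1 ≤ V) (X1 : 1 ≤ Xm)
    {θ η R ρ Γg S T' W U ρ' σ ζ : ℝ} (H : Prm A B Γ T s Z Xm θ η R ρ Γg S T' W U ρ' σ ζ)
    {N D0 E0 V0 : ℕ} {r s0 Z0 B0 : ℝ} (hRC : RC2 N D0 E0 V0 r S T' θ W U s0 Z0 B0)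
    (r0 : 0 < r) (r1 : r ≤ 1) (s00 : 0 < s0) (B01 : 1 ≤ B0)
    (hX : 2 * (2 * K * (D0 + E0)) + 1 ≤ Xm) :
    RC2 (N * (2 * (2 * h * (2 * (2 * K * (D0 + E0)) + 1) * (8 * A * Xm) +
        2 * (h * (2 * (8 * A * Xm + A * (2 * K * (D0 + E0))) + 1)) * (D0 + E0))))
      D (2 * (2 * K * (D0 + E0)) * D)
      (V0 * ((2 * (2 * K * (D0 + E0)) + 1) * (2 * (8 * A * Xm) + 1) * V))
      (ρ' * r) S T' θ W U (σ * s0) (ζ * Z0) (3 * B0) := by
  have A1r : (1 : ℝ) ≤ A := by exact_mod_cast A1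
  have X1r : (1 : ℝ) ≤ Xm := by exact_mod_cast X1
  have Q := H.pos A1r B1 Γ1 T1 s1 sZ X1r
  obtain ⟨eθ, eη, eR, eρ, eΓ, eS, eT, eW, eU, eρ', eσ, eζ⟩ := H
  have s0' : 0 < s := by linarith only [s1]
  obtain ⟨κ, ν, βQ, βP, γ, _, _, _, _, G, F, A', hG, hcard⟩ :=
    hL hIC h1 A1 B1 Γ1 T1 s0' V1 (X := 2 * K * (D0 + E0)) (Xm := Xm) (Y := 8 * A * Xm) (θ := θ)
      (η := η) X1 hX le_rfl Q.θ0 Q.η0 Q.θT Q.θZ Q.ηA.le (by push_cast; exact Q.Yη)
  have hG' : GOk G F R ρ Γg θ η s Z (2 * h * (2 * (2 * K * (D0 + E0)) + 1) * (8 * A * Xm)) A'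
      (h * (2 * (8 * A * Xm + A * (2 * K * (D0 + E0))) + 1)) D (2 * (2 * K * (D0 + E0)) * D) := by
    rw [eR, eρ, eΓ]
    push_cast at hG
    exact hG
  have hmain := hP hRC r0 r1 Q.S1 Q.T1 Q.θ0 Q.θ64 Q.W0 s00 B01 G F hG'
    (by rw [Q.Ss]) (by rw [eT]) (by rw [← eW]) (by rw [← eU])
  rw [hcard] at hmain
  have e1 : ρ * r / (256 * S ^ 2 * R ^ 2 * Γg) = ρ' * r := by rw [eρ']; ring
  have e2 : θ * η * s * s0 / 2 = σ * s0 := by rw [eσ]; ring
  have e3 : 2 * θ * η * Z * Z0 = ζ * Z0 := by rw [eζ]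
  rw [e1, e2, e3] at hmain
  exact hmain

theorem key2 {K A δ h X Y Xm : ℝ} (K1 : 1 ≤ K) (A1 : 1 ≤ A) (δ1 : 1 ≤ δ) (h0 : 0 ≤ h)
    (hX : X = 2 * K * δ) (hY : Y = 8 * A * Xm) (hXm : 2 * X + 1 ≤ Xm) :
    2 * h * (2 * X + 1) * Y + 2 * (h * (2 * (Y + A * X) + 1)) * δ ≤
      (1 + 1 / K) * (2 * h * (2 * X + 1) * Y) := by
  have K0 : 0 < K := by linarith only [K1]
  have A0 : 0 < A := by linarith only [A1]
  have δ0 : 0 < δ := by linarith only [δ1]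
  have X0 : 0 < X := by rw [hX]; positivity
  have Xm0 : 1 ≤ Xm := by linarith only [X0, hXm]
  have AX : A * X ≤ Y / 16 := by
    have : A * (2 * X + 1) ≤ A * Xm := by gcongr
    rw [hY]
    linarith only [this, A0]
  have Y8 : 1 ≤ Y / 8 := by
    have : 1 * 1 ≤ A * Xm := by gcongr
    rw [hY]
    linarith only [this]
  have e : (2 * (Y + A * X) + 1) * δ ≤ 1 / K * ((2 * X + 1) * Y) := by
    have h1 : (2 * (Y + A * X) + 1) * δ ≤ (9 / 4 * Y) * δ := by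
      gcongr
      linarith only [AX, Y8]
    have h2 : 1 / K * ((2 * X + 1) * Y) = 4 * (Y * δ) + Y / K := by
      rw [hX]
      field_simp
      ring
    have h3 : 0 ≤ Y / K := by
      have : 0 ≤ Y := by linarith only [Y8]
      positivity
    have h4 : 0 ≤ Y * δ := by
      have : 0 ≤ Y := by linarith only [Y8]
      positivity
    rw [h2]
    linarith only [h1, h3, h4]
  have e' := mul_le_mul_of_nonneg_left e (by positivity : (0 : ℝ) ≤ 2 * h)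
  have e1 : 2 * (h * (2 * (Y + A * X) + 1)) * δ = (2 * h) * ((2 * (Y + A * X) + 1) * δ) := by ring
  have e2 : 2 * h * (1 / K * ((2 * X + 1) * Y)) = 1 / K * (2 * h * (2 * X + 1) * Y) := by ring
  rw [e1]
  rw [e2] at e'
  linarith only [e']

theorem ratio2 {K A δ h X Y Xm V y : ℝ} (K1 : 1 ≤ K) (A1 : 1 ≤ A) (δ1 : 1 ≤ δ) (h0 : 0 ≤ h)
    (hX : X = 2 * K * δ) (hY : Y = 8 * A * Xm) (hXm : 2 * X + 1 ≤ Xm) (y0 : 0 ≤ y)
    (hy : y * (2 * h) ≤ V) :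
    y / (1 + 1 / K) * (2 * (2 * h * (2 * X + 1) * Y + 2 * (h * (2 * (Y + A * X) + 1)) * δ)) ≤
      (2 * X + 1) * (2 * Y + 1) * V := by
  have hk := key2 K1 A1 δ1 h0 hX hY hXm
  have K0 : 0 < K := by linarith only [K1]
  have X0 : 0 < X := by rw [hX]; positivity
  have Xm0 : 0 < Xm := by linarith only [X0, hXm]
  have Y0 : 0 < Y := by rw [hY]; positivity
  have V0 : 0 ≤ V := le_trans (by positivity) hy
  calc y / (1 + 1 / K) * (2 * (2 * h * (2 * X + 1) * Y + 2 * (h * (2 * (Y + A * X) + 1)) * δ))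
      ≤ y / (1 + 1 / K) * (2 * ((1 + 1 / K) * (2 * h * (2 * X + 1) * Y))) := by gcongr
    _ = (2 * X + 1) * (2 * Y) * (y * (2 * h)) := by
        have : (1 + 1 / K) ≠ 0 := by positivity
        field_simp
    _ ≤ (2 * X + 1) * (2 * Y + 1) * V := by
        gcongr
        linarith only []

theorem size2 {K A δ h X Y Xm : ℝ} (K1 : 1 ≤ K) (A1 : 1 ≤ A) (δ1 : 1 ≤ δ) (h0 : 0 ≤ h)
    (hX : X = 2 * K * δ) (hY : Y = 8 * A * Xm) (hXm : 2 * X + 1 ≤ Xm) :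
    2 * (2 * h * (2 * X + 1) * Y + 2 * (h * (2 * (Y + A * X) + 1)) * δ) ≤ 64 * h * A * Xm ^ 2 := by
  have hk := key2 K1 A1 δ1 h0 hX hY hXm
  have K0 : 0 < K := by linarith only [K1]
  have X0 : 0 < X := by rw [hX]; positivity
  have Xm0 : 0 < Xm := by linarith only [X0, hXm]
  have Y0 : 0 < Y := by rw [hY]; positivity
  have hK : 1 + 1 / K ≤ 2 := by
    have : 1 / K ≤ 1 := by rw [div_le_one K0]; exact K1
    linarith only [this]
  have h1 : (1 + 1 / K) * (2 * h * (2 * X + 1) * Y) ≤ 2 * (2 * h * Xm * Y) := by gcongr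
  have h2 : 2 * (2 * (2 * h * Xm * Y)) = 64 * h * A * Xm ^ 2 / 1 := by rw [hY]; ring
  linarith only [hk, h1, h2]

/-! ### iteration -/

theorem iter2 (hP : ProductStmt2) (hL : LatticeStmt2) (hT : TrivStmt2) {h D V A K k : ℕ}
    {B Γ T s Z y : ℝ} (hIC : IC2 h D V A B Γ T s Z) (h1 : 1 ≤ h) (A1 : 1 ≤ A) (B1 : 1 ≤ B)
    (Γ1 : 1 ≤ Γ) (T1 : 1 ≤ T) (s1 : 1 ≤ s) (sZ : s ≤ Z) (V1 : 1 ≤ V) (K1 : 1 ≤ K) (D1 : 1 ≤ D)
    (y0 : 0 ≤ y) (hy : y * (2 * h) ≤ V)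
    {θ η R ρ Γg S T' W U ρ' σ ζ : ℝ}
    (H : Prm A B Γ T s Z ((8 * K * D) ^ k : ℕ) θ η R ρ Γg S T' W U ρ' σ ζ) :
    ∀ j ≤ k, ∃ h' W' D' E' : ℕ, 1 ≤ h' ∧
      (h' : ℝ) ≤ (64 * h * A * (((8 * K * D) ^ k : ℕ) : ℝ) ^ 2) ^ j ∧ 1 ≤ D' + E' ∧
      D' + E' ≤ (8 * K * D) ^ j ∧
      RC2 (2 * h') D' E' W' (ρ' ^ j) S T' θ W U (σ ^ j) (ζ ^ j) (3 ^ j) ∧
      (y / (1 + 1 / (K : ℝ))) ^ j * (2 * h') ≤ 2 * W' := by
  have KD : 1 ≤ 8 * K * D := by
    have : 1 * 1 ≤ K * D := Nat.mul_le_mul K1 D1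
    linarith only [this]
  obtain ⟨Xm, hXm⟩ : ∃ Xm : ℕ, Xm = (8 * K * D) ^ k := ⟨_, rfl⟩
  rw [← hXm] at H ⊢
  have X1 : 1 ≤ Xm := by rw [hXm]; exact Nat.one_le_pow _ _ KD
  have A1r : (1 : ℝ) ≤ A := by exact_mod_cast A1
  have X1r : (1 : ℝ) ≤ Xm := by exact_mod_cast X1
  have K1r : (1 : ℝ) ≤ K := by exact_mod_cast K1
  have h0r : (0 : ℝ) ≤ h := by positivity
  have Q := H.pos A1r B1 Γ1 T1 s1 sZ X1r
  intro j
  induction j with
  | zero =>
    intro _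
    refine ⟨1, 1, 1, 0, le_rfl, by norm_num, by norm_num, by norm_num, ?_, by norm_num⟩
    simpa using hT (S := S) (T := T') (θ := θ) (W := W) (U := U) Q.S1 Q.T1 Q.θ0 Q.W0
      (by linarith only [Q.U4])
  | succ j ih =>
    intro hj
    obtain ⟨h', W', D', E', hh1, hhb, hδ1, hδ, hRC, hrat⟩ := ih (by omega)
    obtain ⟨δ, hδe⟩ : ∃ δ : ℕ, δ = D' + E' := ⟨_, rfl⟩
    have hX : 2 * (2 * K * (D' + E')) + 1 ≤ Xm := by
      have e1 : 2 * (2 * K * (D' + E')) + 1 ≤ 8 * K * D * (D' + E') := by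
        have h3 : 1 ≤ K * (D' + E') := Nat.one_le_iff_ne_zero.2 (by positivity)
        have h4 : K * (D' + E') * 1 ≤ K * (D' + E') * D := Nat.mul_le_mul_left _ D1
        calc 2 * (2 * K * (D' + E')) + 1 ≤ 8 * (K * (D' + E') * 1) := by linarith only [h3]
          _ ≤ 8 * (K * (D' + E') * D) := by omega
          _ = 8 * K * D * (D' + E') := by ring
      calc 2 * (2 * K * (D' + E')) + 1 ≤ 8 * K * D * (D' + E') := e1
        _ ≤ 8 * K * D * (8 * K * D) ^ j := Nat.mul_le_mul_left _ hδ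
        _ = (8 * K * D) ^ (j + 1) := by ring
        _ ≤ (8 * K * D) ^ k := Nat.pow_le_pow_right KD hj
        _ = Xm := hXm.symm
    have hstep := step2 hP hL hIC h1 A1 B1 Γ1 T1 s1 sZ V1 X1 H hRC (by have := Q.ρ'0; positivity)
      (pow_le_one₀ Q.ρ'0.le Q.ρ'1) (by have := Q.σ0; positivity) (one_le_pow₀ (by norm_num)) hX
    have hXr : 2 * (2 * (K : ℝ) * δ) + 1 ≤ Xm := by
      have : 2 * (2 * K * δ) + 1 ≤ Xm := by rw [hδe]; exact hX
      exact_mod_cast this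
    have δ1r : (1 : ℝ) ≤ δ := by
      have : 1 ≤ δ := by rw [hδe]; exact hδ1
      exact_mod_cast this
    have hs := size2 (h := (h : ℝ)) (Y := 8 * (A : ℝ) * Xm) K1r A1r δ1r h0r rfl rfl hXr
    have hr := ratio2 (h := (h : ℝ)) (Y := 8 * (A : ℝ) * Xm) (V := V) K1r A1r δ1r h0r rfl rfl hXr
      y0 hy
    obtain ⟨F, hF⟩ : ∃ F : ℕ, F = 2 * (2 * h * (2 * (2 * K * (D' + E')) + 1) * (8 * A * Xm) +
        2 * (h * (2 * (8 * A * Xm + A * (2 * K * (D' + E'))) + 1)) * (D' + E')) := ⟨_, rfl⟩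
    have hFr : (F : ℝ) = 2 * (2 * h * (2 * (2 * K * δ) + 1) * (8 * A * Xm) +
        2 * (h * (2 * (8 * A * Xm + A * (2 * K * δ)) + 1)) * δ) := by
      rw [hF, hδe]
      push_cast
      ring
    have hF1 : 1 ≤ F := by
      have : 1 ≤ h * A * Xm := Nat.one_le_iff_ne_zero.2 (by positivity)
      rw [hF]
      have h5 : 1 * (8 * A * Xm * h) ≤ (2 * (2 * K * (D' + E')) + 1) * (8 * A * Xm * h) :=
        Nat.mul_le_mul_right _ (by omega)
      have h6 : 0 ≤ 2 * (h * (2 * (8 * A * Xm + A * (2 * K * (D' + E'))) + 1)) * (D' + E') :=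
        Nat.zero_le _
      nlinarith only [this, h5, h6]
    rw [← hF] at hstep
    refine ⟨h' * F, W' * ((2 * (2 * K * (D' + E')) + 1) * (2 * (8 * A * Xm) + 1) * V), D,
      2 * (2 * K * (D' + E')) * D, ?_, ?_, ?_, ?_, ?_, ?_⟩
    · exact Nat.one_le_iff_ne_zero.2 (by positivity)
    · push_cast
      rw [pow_succ]
      refine mul_le_mul hhb ?_ (by positivity) (by positivity)
      rw [hFr]
      exact hs
    · exact le_trans D1 (Nat.le_add_right _ _)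
    · have h3 : 1 ≤ K * (D' + E') := Nat.one_le_iff_ne_zero.2 (by positivity)
      calc D + 2 * (2 * K * (D' + E')) * D = (2 * (2 * K * (D' + E')) + 1) * D := by ring
        _ ≤ (8 * (K * (D' + E'))) * D := Nat.mul_le_mul_right _ (by linarith only [h3])
        _ = 8 * K * D * (D' + E') := by ring
        _ ≤ 8 * K * D * (8 * K * D) ^ j := Nat.mul_le_mul_left _ hδ
        _ = (8 * K * D) ^ (j + 1) := by ring
    · have e1 : 2 * (h' * F) = 2 * h' * F := by ring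
      have e2 : ρ' ^ (j + 1) = ρ' * ρ' ^ j := by ring
      have e3 : σ ^ (j + 1) = σ * σ ^ j := by ring
      have e4 : ζ ^ (j + 1) = ζ * ζ ^ j := by ring
      have e5 : (3 : ℝ) ^ (j + 1) = 3 * 3 ^ j := by ring
      rw [e1, e2, e3, e4, e5]
      exact hstep
    · have hq : 0 ≤ y / (1 + 1 / (K : ℝ)) := by positivity
      have hr' : y / (1 + 1 / (K : ℝ)) * F ≤
          (2 * (2 * (K : ℝ) * δ) + 1) * (2 * (8 * (A : ℝ) * Xm) + 1) * V := by
        rw [hFr]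
        exact hr
      push_cast
      have hde : ((D' : ℝ) + E') = δ := by rw [hδe]; push_cast; ring
      rw [hde]
      calc (y / (1 + 1 / (K : ℝ))) ^ (j + 1) * (2 * (h' * F))
          = ((y / (1 + 1 / (K : ℝ))) ^ j * (2 * h')) * (y / (1 + 1 / (K : ℝ)) * F) := by ring
        _ ≤ (2 * W') * ((2 * (2 * (K : ℝ) * δ) + 1) * (2 * (8 * (A : ℝ) * Xm) + 1) * V) := by
            gcongr
        _ = 2 * (W' * ((2 * (2 * (K : ℝ) * δ) + 1) * (2 * (8 * (A : ℝ) * Xm) + 1) * V)) := by ring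

/-- **Block M: the meta step.** -/
theorem metaStep (hP : ProductStmt2) (hL : LatticeStmt2) (hR : RoundStmt2) (hTr : TrivStmt2) :
    MetaStmt2 := by
  refine ⟨200, by norm_num, ?_⟩
  intro n a g q p d x k K hLC hk hK hn ha hg hq hp hd hx e
  obtain ⟨h, D, V, A, B, Γ, T, s, Z, hIC, h1, hh, A1, hA, B1, Γ1, hBΓ, T1, hT, s1, sZ, hZ, D1, hD,
    hV⟩ := hLC
  have K1r : (1 : ℝ) ≤ K := by exact_mod_cast hK
  have K0r : (0 : ℝ) < K := by linarith only [K1r]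
  have k1r : (1 : ℝ) ≤ k := by exact_mod_cast hk
  have h1r : (1 : ℝ) ≤ h := by exact_mod_cast h1
  have A1r : (1 : ℝ) ≤ A := by exact_mod_cast A1
  have D1r : (1 : ℝ) ≤ D := by exact_mod_cast D1
  obtain ⟨l, hl⟩ : ∃ l : ℝ, l = Real.logb 2 K := ⟨_, rfl⟩
  have l0 : 0 ≤ l := by rw [hl]; exact Real.logb_nonneg (by norm_num) K1r
  have hKl : (K : ℝ) = (2 : ℝ) ^ l := by
    rw [hl, Real.rpow_logb (by norm_num) (by norm_num) K0r]
  have he : e = k * (d + l + 6) := by rw [hl]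
  have e0 : 0 ≤ e := by rw [he]; positivity
  have ek : 3 * (k : ℝ) ≤ e := by
    rw [he]
    have : (k : ℝ) * 3 ≤ k * (d + l + 6) := by gcongr; linarith only [hd, l0]
    linarith only [this]
  have V1 : 1 ≤ V := by
    have h2 : (0 : ℝ) < V := lt_of_lt_of_le (by positivity) hV
    exact_mod_cast h2
  -- the number `Xm`
  obtain ⟨Xm, hXm⟩ : ∃ Xm : ℕ, Xm = (8 * K * D) ^ k := ⟨_, rfl⟩
  have KD : 1 ≤ 8 * K * D := by
    have : 1 * 1 ≤ K * D := Nat.mul_le_mul hK D1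
    linarith only [this]
  have X1 : 1 ≤ Xm := by rw [hXm]; exact Nat.one_le_pow _ _ KD
  have X1r : (1 : ℝ) ≤ Xm := by exact_mod_cast X1
  have bX : (Xm : ℝ) ≤ (2 : ℝ) ^ e := by
    have h3 : ((8 : ℝ) * K * D) ≤ (2 : ℝ) ^ (3 + l + d) := by
      have := b2_mul (b2_mul (b2_nat (c := 8) 3 (by norm_num)) hKl.le K0r.le) hD
        (by linarith only [D1r])
      exact b2_mono this (by push_cast; linarith only [])
    have h4 := b2_pow h3 (by positivity) k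
    rw [hXm]
    push_cast
    refine b2_mono h4 ?_
    rw [he]
    have : (k : ℝ) * (3 + l + d) ≤ k * (d + l + 6) := by gcongr ?_ * ?_; linarith only []
    exact this
  obtain ⟨θ, η, R, ρ, Γg, S, T', W, U, ρ', σ, ζ, H⟩ := Prm.exists A B Γ T s Z Xm
  have Q := H.pos A1r B1 Γ1 T1 s1 sZ X1r
  have Bd := H.bds A1r B1 Γ1 T1 s1 sZ X1r hA hBΓ hT hZ bX ha hg hq hp e0
  have H' := H
  rw [hXm] at H'
  obtain ⟨h', W', D', E', hh1, hhb, hδ1, hδ, hRC, hrat⟩ := iter2 hP hL hTr hIC h1 A1 B1 Γ1 T1 s1 sZ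
    V1 hK D1 (y := (2 : ℝ) ^ x) (b2_pos x).le hV H' k le_rfl
  rw [← hXm] at hhb hδ
  -- the rounding
  have ρ'0 := Q.ρ'0
  have ρ'1 := Q.ρ'1
  have σ0 := Q.σ0
  have ζ0 := Q.ζ0
  have S1 := Q.S1
  have T1' := Q.T1
  have W0 := Q.W0
  have U4 := Q.U4
  have σk : 0 < σ ^ k := by positivity
  obtain ⟨u, hu⟩ : ∃ u : ℝ, u = 64 * (U + W + 1) / σ ^ k := ⟨_, rfl⟩
  have σ1 : σ ≤ 1 := by
    have e1 : σ = θ * (8192 * A * η) / (16384 * A) * s := by
      rw [H.eσ]; field_simp; ring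
    have e2 : σ = (θ * s) * η / 2 := by rw [H.eσ]; ring
    have h3 : θ * s ≤ 1 := by
      have : θ * (1 * s) ≤ θ * (Xm * Z) := by
        have := Q.θ0
        gcongr
      have h4 := Q.θZ
      have h5 : 0 ≤ θ * s := by have := Q.θ0; positivity
      linarith only [this, h4, h5]
    have h4 : η ≤ 1 := by
      have h2 : 128 * (8 * 1 * 1) * η ≤ 128 * (8 * A * Xm) * η := by
        have := Q.η0
        gcongr
      have h5 := Q.Yη
      have h6 := Q.η0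
      linarith only [h2, h5, h6]
    have h5 : (θ * s) * η ≤ 1 * 1 := by
      have := Q.η0
      gcongr
    linarith only [e2, h5]
  have σk1 : σ ^ k ≤ 1 := pow_le_one₀ σ0.le σ1
  have u1 : 64 ≤ u := by
    rw [hu, le_div_iff₀ σk]
    have : 64 * σ ^ k ≤ 64 * 1 := by gcongr
    linarith only [this, U4, W0]
  obtain ⟨L, hL'⟩ : ∃ L : ℕ, L = ⌈u⌉₊ := ⟨_, rfl⟩
  have uL : u ≤ L := by rw [hL']; exact Nat.le_ceil _
  have Lu : (L : ℝ) ≤ 2 * u := by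
    rw [hL']
    have := Nat.ceil_lt_add_one (by linarith only [u1] : 0 ≤ u)
    linarith only [this, u1]
  have L1 : (1 : ℝ) ≤ L := by linarith only [uL, u1]
  have hLs : 64 * (U + W + 1) ≤ L * σ ^ k := by
    rw [hu, div_le_iff₀ σk] at uL
    exact uL
  have hIC2 := hR hRC hh1 (by positivity) (pow_le_one₀ ρ'0.le ρ'1) S1 T1' W0
    (by linarith only [U4]) σk (one_le_pow₀ (by norm_num)) hLs
  -- bounds
  obtain ⟨t, ht⟩ : ∃ t : ℝ, t = 12 + q + p + e := ⟨_, rfl⟩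
  obtain ⟨ub, hub⟩ : ∃ ub : ℝ, ub = 82 + 2 * p + 7 * a + 3 * e + g + 3 * t := ⟨_, rfl⟩
  have bU : U + W + 1 ≤ (2 : ℝ) ^ ub := by rw [hub, ht]; exact Bd.bU
  have bσ : (1 / σ) ^ k ≤ (2 : ℝ) ^ (k * (a + (2 * t + 14))) := by
    rw [ht]
    exact b2_pow Bd.bσ (by positivity) k
  have bρ : (1 / ρ') ^ k ≤ (2 : ℝ) ^ (k * (57 + 2 * p + 5 * a + 2 * e + g + 2 * t)) := by
    rw [ht]
    exact b2_pow Bd.bρ (by positivity) k
  have bL : (L : ℝ) ≤ (2 : ℝ) ^ (7 + ub + k * (a + (2 * t + 14))) := by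
    have e1 : 2 * u = 128 * (U + W + 1) * (1 / σ) ^ k := by
      rw [hu, one_div, inv_pow]
      field_simp
      ring
    rw [e1] at Lu
    have h3 := b2_mul (b2_mul (b2_nat (c := 128) 7 (by norm_num)) bU (by linarith only [U4, W0]))
      bσ (by positivity)
    exact b2_mono (Lu.trans h3) (by push_cast; linarith only [])
  have b3 : (3 : ℝ) ^ k ≤ (2 : ℝ) ^ ((k : ℝ) * 2) :=
    b2_pow (by have := b2_nat (c := 3) 2 (by norm_num); simpa using this) (by norm_num) k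
  have t0 : 0 ≤ t := by rw [ht]; linarith only [hq, hp, e0]
  have kt : 0 ≤ (k : ℝ) * t := by positivity
  have ka : 0 ≤ (k : ℝ) * a := by positivity
  have kp : 0 ≤ (k : ℝ) * p := by positivity
  have kq : 0 ≤ (k : ℝ) * q := by positivity
  have kg : 0 ≤ (k : ℝ) * g := by positivity
  have ke : 0 ≤ (k : ℝ) * e := by positivity
  have hkt : (k : ℝ) * t = 12 * k + k * q + k * p + k * e := by rw [ht]; ring
  refine ⟨h', D' + E', W', ⌈2 * (L : ℝ) * 3 ^ k⌉₊, 8 * L * (3 ^ k) ^ 2, 1 / ρ' ^ k, 8 * (T' + S),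
    L * σ ^ k / 2, 2 * L * ζ ^ k, hIC2, hh1, ?_, ?_, ?_, ?_, ?_, ?_, ?_, ?_, ?_, ?_, ?_, hδ1, ?_, ?_⟩
  · -- weight
    have h3 : (64 : ℝ) * h * A * (Xm : ℝ) ^ 2 ≤ (2 : ℝ) ^ (6 + n + a + 2 * e) := by
      have := b2_mul (b2_mul (b2_mul (b2_nat (c := 64) 6 (by norm_num)) hh (by positivity)) hA
        (by positivity)) (b2_pow bX (by positivity) 2) (by positivity)
      exact b2_mono this (by push_cast; linarith only [])
    refine b2_mono (hhb.trans (b2_pow h3 (by positivity) k)) ?_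
    gcongr ?_ * ?_
    linarith only [e0]
  · -- `1 ≤ A`
    exact Nat.one_le_iff_ne_zero.2 (Nat.ceil_pos.2 (by positivity)).ne'
  · -- slopes
    have h3 : ((⌈2 * (L : ℝ) * 3 ^ k⌉₊ : ℕ) : ℝ) ≤ 4 * L * 3 ^ k := by
      have h4 : (0 : ℝ) ≤ 2 * L * 3 ^ k := by positivity
      have h5 := Nat.ceil_lt_add_one h4
      have h6 : (1 : ℝ) * 1 ≤ L * 3 ^ k := by
        gcongr
        exact one_le_pow₀ (by norm_num)
      linarith only [h5, h6]
    have h4 := b2_mul (b2_mul (b2_nat (c := 4) 2 (by norm_num)) bL (by positivity)) b3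
      (by positivity)
    refine b2_mono (h3.trans h4) ?_
    rw [hub, ht]
    push_cast
    have hk' : (k : ℝ) * (a + (2 * (12 + q + p + e) + 14)) =
      k * a + 2 * (k * q) + 2 * (k * p) + 2 * (k * e) + 38 * k := by ring
    have hk'' : (k : ℝ) * (a + 200 * (q + p + e + 1)) =
      k * a + 200 * (k * q) + 200 * (k * p) + 200 * (k * e) + 200 * k := by ring
    rw [hk', hk'']
    linarith only [kp, kq, ke, ka, kg, hq, hp, e0, ha, hg, k1r]
  · -- `1 ≤ B`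
    have h6 : (1 : ℝ) * 1 ≤ L * (3 ^ k) ^ 2 := by
      gcongr
      exact one_le_pow₀ (one_le_pow₀ (by norm_num))
    linarith only [h6]
  · -- `1 ≤ Γ`
    rw [le_div_iff₀ (by positivity), one_mul]
    exact pow_le_one₀ ρ'0.le ρ'1
  · -- coordinates
    have e1 : 8 * (L : ℝ) * (3 ^ k) ^ 2 * (1 / ρ' ^ k) = 8 * L * (3 ^ k) ^ 2 * (1 / ρ') ^ k := by
      rw [one_div, one_div, inv_pow]
    rw [e1]
    have h4 := b2_mul (b2_mul (b2_mul (b2_nat (c := 8) 3 (by norm_num)) bL (by positivity))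
      (b2_pow b3 (by positivity) 2) (by positivity)) bρ (by positivity)
    refine b2_mono h4 ?_
    rw [hub, ht]
    push_cast
    have hk' : (k : ℝ) * (a + (2 * (12 + q + p + e) + 14)) =
      k * a + 2 * (k * q) + 2 * (k * p) + 2 * (k * e) + 38 * k := by ring
    have hk3 : (k : ℝ) * (57 + 2 * p + 5 * a + 2 * e + g + 2 * (12 + q + p + e)) =
      81 * k + 4 * (k * p) + 5 * (k * a) + 4 * (k * e) + k * g + 2 * (k * q) := by ring
    have hk'' : (k : ℝ) * (g + 200 * (a + q + p + e + 1)) =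
      k * g + 200 * (k * a) + 200 * (k * q) + 200 * (k * p) + 200 * (k * e) + 200 * k := by ring
    rw [hk', hk'', hk3]
    linarith only [kp, kq, ke, ka, kg, hq, hp, e0, ha, hg, k1r]
  · linarith only [T1', S1]
  · -- tolerance
    refine b2_mono Bd.bT ?_
    linarith only [hq, hp, e0, ha, hg]
  · linarith only [hLs, U4, W0]
  · -- `s ≤ Z`
    have h3 : σ ^ k ≤ ζ ^ k := by
      apply pow_le_pow_left₀ σ0.le
      rw [Q.σζ]
      exact le_mul_of_one_le_left σ0.le S1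
    have h4 : (L : ℝ) * σ ^ k ≤ L * ζ ^ k := by gcongr
    have h5 : 0 ≤ (L : ℝ) * ζ ^ k := by positivity
    linarith only [h4, h5]
  · -- ratio
    have e1 : 2 * (L : ℝ) * ζ ^ k = (4 * S ^ k) * (L * σ ^ k / 2) := by
      rw [Q.σζ, mul_pow]
      ring
    rw [e1]
    have h4 := b2_mul (b2_nat (c := 4) 2 (by norm_num)) (b2_pow Bd.bS (by positivity) k)
      (by positivity)
    have h5 : 4 * S ^ k ≤ (2 : ℝ) ^ (k * (p + 3) + 3) := by
      refine b2_mono h4 ?_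
      push_cast
      have hk' : (k : ℝ) * (p + 2) = k * p + 2 * k := by ring
      have hk'' : (k : ℝ) * (p + 3) = k * p + 3 * k := by ring
      rw [hk', hk'']
      linarith only [k1r]
    gcongr
  · -- degree
    have : ((D' + E' : ℕ) : ℝ) ≤ Xm := by exact_mod_cast hδ
    exact this.trans bX
  · -- gain
    have h3 : (0 : ℝ) < 1 + 1 / K := by positivity
    have e1 : (2 : ℝ) ^ ((k : ℝ) * (x - Real.logb 2 (1 + 1 / K)) - 1) =
        ((2 : ℝ) ^ x / (1 + 1 / (K : ℝ))) ^ k / 2 := by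
      rw [Real.rpow_sub (by norm_num), Real.rpow_one, mul_comm (k : ℝ), Real.rpow_mul (by norm_num),
        Real.rpow_natCast, Real.rpow_sub (by norm_num), Real.rpow_logb (by norm_num) (by norm_num) h3]
    rw [e1]
    linarith only [hrat]

end Vale.Agent.P065.W
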