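import Mathlib
import Vale.Agent.P065.Bdl.B1
import Vale.Agent.P065.W.Defs

/-!
P065, wide fans, block R: pivoted rounding.  Every line keeps its home abscissa `z k`; slopes are
scaled by `L` and rounded to integers.
-/

set_option linter.all false

namespace Vale.Agent.P065.W

open Vale.Agent.P065

variable {ι υ γ : Type}

/-- rounded slope -/
noncomputable def ra (C : Cfg ι υ) (L : ℕ) (k : ι) : ℤ := round ((L : ℝ) * C.m k)

/-- rounding error of the slope -/
noncomputable def rf (C : Cfg ι υ) (L : ℕ) (k : ι) : ℝ := (L : ℝ) * C.m k - ra C L k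

theorem rf_le (C : Cfg ι υ) (L : ℕ) (k : ι) : |rf C L k| ≤ 1 / 2 := by
  unfold rf ra
  exact abs_sub_round _

/-- displacement of the used vertex `v` -/
noncomputable def rdx (C : Cfg ι υ) (z : ι → ℝ) (L : ℕ) (v : υ) : ℝ :=
  (rf C L (C.p v) * (C.x v - z (C.p v)) - rf C L (C.q v) * (C.x v - z (C.q v))) /
    ((ra C L (C.p v) : ℝ) - ra C L (C.q v))

/-- the rounded configuration -/
noncomputable def rnd (C : Cfg ι υ) (z : ι → ℝ) (L : ℕ) : Cfg ι υ where
  m := fun k => (ra C L k : ℝ)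
  t := fun k => (L : ℝ) * C.t k + rf C L k * z k
  w := C.w
  σ := C.σ
  q := C.q
  p := C.p
  x := fun v => C.x v + rdx C z L v
  y := fun v => (L : ℝ) * (C.y v + C.m (C.q v) * rdx C z L v)
    - rf C L (C.q v) * (C.x v + rdx C z L v - z (C.q v))

theorem rnd_Δ (C : Cfg ι υ) (z : ι → ℝ) (L : ℕ) (v : υ) :
    (rnd C z L).Δ v = L * C.Δ v - (rf C L (C.p v) - rf C L (C.q v)) := by
  simp only [rnd, Cfg.Δ, rf]
  ring

theorem rnd_H (C : Cfg ι υ) (z : ι → ℝ) (L : ℕ) (v : υ) (k : ι) :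
    (rnd C z L).H v k = L * C.H v k + L * (C.m k - C.m (C.q v)) * rdx C z L v
      - rf C L k * (C.x v - z k) + rf C L (C.q v) * (C.x v - z (C.q v))
      - (rf C L k - rf C L (C.q v)) * rdx C z L v := by
  have e : (ra C L k : ℝ) = L * C.m k - rf C L k := by simp [rf]
  simp only [rnd, Cfg.H]
  rw [e]
  ring

theorem rnd_Hq (C : Cfg ι υ) (hC : ∀ v, C.H v (C.q v) = 0) (z : ι → ℝ) (L : ℕ) (v : υ) :
    (rnd C z L).H v (C.q v) = 0 := by
  rw [rnd_H, hC]
  ring

theorem rnd_Hp (C : Cfg ι υ) (hC : ∀ v, C.H v (C.p v) = 0) (z : ι → ℝ) (L : ℕ) (v : υ)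
    (hne : (rnd C z L).Δ v ≠ 0) :
    (rnd C z L).H v (C.p v) = 0 := by
  have h1 : (rnd C z L).Δ v * rdx C z L v
      = rf C L (C.p v) * (C.x v - z (C.p v)) - rf C L (C.q v) * (C.x v - z (C.q v)) := by
    have e : (rnd C z L).Δ v = (ra C L (C.p v) : ℝ) - ra C L (C.q v) := rfl
    rw [e] at hne ⊢
    unfold rdx
    field_simp
  rw [rnd_Δ] at h1
  have e2 : C.m (C.p v) - C.m (C.q v) = C.Δ v := rfl
  rw [rnd_H, hC, e2]
  linear_combination h1

section est

variable [Fintype ι] [Fintype υ] {C : Cfg ι υ} {F : Cel ι υ γ} {o z : ι → ℝ}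
  {r S T θ W U s Z B : ℝ} {L : ℕ}

/-- the used slope difference after rounding -/
theorem rnd_Δ_bd (hQ : QOk C F o z r S T θ W U s Z B) (hs : 0 < s) (hLs : 64 ≤ L * s) (v : υ) :
    63 / 64 * (L * |C.Δ v|) ≤ |(rnd C z L).Δ v| ∧ |(rnd C z L).Δ v| ≤ 65 / 64 * (L * |C.Δ v|) := by
  have h1 : 64 ≤ (L : ℝ) * |C.Δ v| :=
    hLs.trans (mul_le_mul_of_nonneg_left ((hQ.sσ v).trans (hQ.lo v)) (Nat.cast_nonneg L))
  have h2 : |rf C L (C.p v) - rf C L (C.q v)| ≤ 1 := by
    have := abs_sub (rf C L (C.p v)) (rf C L (C.q v))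
    linarith [rf_le C L (C.p v), rf_le C L (C.q v)]
  have h3 : |(L : ℝ) * C.Δ v| = L * |C.Δ v| := by rw [abs_mul, Nat.abs_cast]
  rw [rnd_Δ]
  have h4 := abs_sub_abs_le_abs_sub ((L : ℝ) * C.Δ v) (rf C L (C.p v) - rf C L (C.q v))
  have h5 := abs_sub ((L : ℝ) * C.Δ v) (rf C L (C.p v) - rf C L (C.q v))
  rw [h3] at h4 h5
  constructor <;> linarith

/-- the displacement of a used vertex, times its slope difference -/
theorem rdx_mul_le (hQ : QOk C F o z r S T θ W U s Z B) (hs : 0 < s) (hLs : 64 ≤ L * s) (v : υ) :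
    (L * |C.Δ v|) * |rdx C z L v| ≤ 64 / 63 * (W * r) := by
  have h1 := (rnd_Δ_bd (z := z) hQ hs hLs v).1
  have h0 : 64 ≤ (L : ℝ) * |C.Δ v| :=
    hLs.trans (mul_le_mul_of_nonneg_left ((hQ.sσ v).trans (hQ.lo v)) (Nat.cast_nonneg L))
  have e : (rnd C z L).Δ v = (ra C L (C.p v) : ℝ) - ra C L (C.q v) := rfl
  rw [e] at h1
  have hpos : 0 < |(ra C L (C.p v) : ℝ) - ra C L (C.q v)| := by linarith
  have hne : (ra C L (C.p v) : ℝ) - ra C L (C.q v) ≠ 0 := abs_pos.1 hpos
  have h2 : |(ra C L (C.p v) : ℝ) - ra C L (C.q v)| * |rdx C z L v| ≤ W * r := by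
    rw [← abs_mul]
    have e2 : ((ra C L (C.p v) : ℝ) - ra C L (C.q v)) * rdx C z L v
        = rf C L (C.p v) * (C.x v - z (C.p v)) - rf C L (C.q v) * (C.x v - z (C.q v)) := by
      unfold rdx
      field_simp
    rw [e2]
    have h3 := abs_sub (rf C L (C.p v) * (C.x v - z (C.p v)))
      (rf C L (C.q v) * (C.x v - z (C.q v)))
    have h4 : |rf C L (C.p v) * (C.x v - z (C.p v))| ≤ 1 / 2 * (W * r) := by
      rw [abs_mul]
      exact mul_le_mul (rf_le _ _ _) (hQ.wp v) (abs_nonneg _) (by norm_num)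
    have h5 : |rf C L (C.q v) * (C.x v - z (C.q v))| ≤ 1 / 2 * (W * r) := by
      rw [abs_mul]
      exact mul_le_mul (rf_le _ _ _) (hQ.wq v) (abs_nonneg _) (by norm_num)
    linarith
  have h6 : 63 / 64 * (L * |C.Δ v|) * |rdx C z L v| ≤ W * r :=
    (mul_le_mul_of_nonneg_right h1 (abs_nonneg _)).trans h2
  linarith

theorem rdx_le (hQ : QOk C F o z r S T θ W U s Z B) (hr : 0 < r) (hW : 0 ≤ W) (hU : 1 ≤ U)
    (hs : 0 < s) (hL : 64 * (U + W + 1) ≤ L * s) (v : υ) :
    |rdx C z L v| ≤ r / 63 := by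
  have hLs : 64 ≤ (L : ℝ) * s := by linarith
  have h1 := rdx_mul_le (z := z) hQ hs hLs v
  have h2 : 64 * (W + 1) ≤ (L : ℝ) * |C.Δ v| := by
    have := mul_le_mul_of_nonneg_left ((hQ.sσ v).trans (hQ.lo v)) (Nat.cast_nonneg (α := ℝ) L)
    linarith
  have h3 : 64 * (W + 1) * |rdx C z L v| ≤ 64 / 63 * (W * r) :=
    (mul_le_mul_of_nonneg_right h2 (abs_nonneg _)).trans h1
  have h4 : (W + 1) * |rdx C z L v| ≤ (W + 1) * (r / 63) := by nlinarith
  exact le_of_mul_le_mul_left h4 (by linarith)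

/-- the heights after rounding -/
theorem rnd_H_close (hQ : QOk C F o z r S T θ W U s Z B) (hr : 0 < r) (hW : 0 ≤ W) (hU : 1 ≤ U)
    (hs : 0 < s) (hL : 64 * (U + W + 1) ≤ L * s) (v : υ) (k : ι) (hq : k ≠ C.q v)
    (hp : k ≠ C.p v) :
    |(rnd C z L).H v k - L * C.H v k| ≤ 1 / 16 * (L * |C.H v k|) := by
  set H : ℝ := |C.H v k| with hH
  have hH0 : 0 ≤ H := abs_nonneg _
  have hL0 : (0 : ℝ) ≤ L := Nat.cast_nonneg L
  have hd := rdx_le (z := z) hQ hr hW hU hs hL v
  have hd0 := abs_nonneg (rdx C z L v)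
  have e : (rnd C z L).H v k - L * C.H v k = L * (C.m k - C.m (C.q v)) * rdx C z L v
      - rf C L k * (C.x v - z k) + rf C L (C.q v) * (C.x v - z (C.q v))
      - (rf C L k - rf C L (C.q v)) * rdx C z L v := by
    rw [rnd_H]; ring
  have hrs : r * s ≤ H :=
    (mul_le_mul_of_nonneg_left (hQ.sσ v) hr.le).trans (hQ.h2 v k hq hp)
  -- first term
  have b1 : |L * (C.m k - C.m (C.q v)) * rdx C z L v| ≤ L * H / 63 := by
    rw [abs_mul, abs_mul, Nat.abs_cast]
    have h1 := hQ.h1 v k hq hp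
    have h2 : |C.m k - C.m (C.q v)| * |rdx C z L v| ≤ |C.m k - C.m (C.q v)| * (r / 63) :=
      mul_le_mul_of_nonneg_left hd (abs_nonneg _)
    have h3 : |C.m k - C.m (C.q v)| * |rdx C z L v| ≤ H / 63 := by
      have : |C.m k - C.m (C.q v)| * (r / 63) = (r * |C.m k - C.m (C.q v)|) / 63 := by ring
      rw [this] at h2
      linarith
    have h4 := mul_le_mul_of_nonneg_left h3 hL0
    calc (L : ℝ) * |C.m k - C.m (C.q v)| * |rdx C z L v|
        = L * (|C.m k - C.m (C.q v)| * |rdx C z L v|) := by ring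
      _ ≤ L * (H / 63) := h4
      _ = L * H / 63 := by ring
  -- a bound `c * H ≤ L * H / 64` if `c * 64 ≤ L * s`, after division by `s`
  have b2 : |rf C L k * (C.x v - z k)| ≤ L * H / 128 := by
    rw [abs_mul]
    have h1 := hQ.u1 v k hq hp
    have h2 : s * |C.x v - z k| ≤ s * (L * H / 64) := by
      have : 64 * U ≤ (L : ℝ) * s := by linarith
      have h3 := mul_le_mul_of_nonneg_right this hH0
      linarith
    have h3 : |C.x v - z k| ≤ L * H / 64 := le_of_mul_le_mul_left h2 hs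
    have h4 := mul_le_mul (rf_le C L k) h3 (abs_nonneg _) (by norm_num)
    linarith
  have hr1 : s * r ≤ H := by linarith
  have b3 : |rf C L (C.q v) * (C.x v - z (C.q v))| ≤ L * H / 128 := by
    rw [abs_mul]
    have h1 := hQ.wq v
    have h2 : s * |C.x v - z (C.q v)| ≤ s * (L * H / 64) := by
      have h3 : s * |C.x v - z (C.q v)| ≤ s * (W * r) := mul_le_mul_of_nonneg_left h1 hs.le
      have h4 : s * (W * r) ≤ W * H := by
        have := mul_le_mul_of_nonneg_left hr1 hW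
        linarith
      have : 64 * W ≤ (L : ℝ) * s := by linarith
      have h5 := mul_le_mul_of_nonneg_right this hH0
      linarith
    have h3 : |C.x v - z (C.q v)| ≤ L * H / 64 := le_of_mul_le_mul_left h2 hs
    have h4 := mul_le_mul (rf_le C L (C.q v)) h3 (abs_nonneg _) (by norm_num)
    linarith
  have b4 : |(rf C L k - rf C L (C.q v)) * rdx C z L v| ≤ L * H / 4032 := by
    rw [abs_mul]
    have h1 : |rf C L k - rf C L (C.q v)| ≤ 1 := by
      have := abs_sub (rf C L k) (rf C L (C.q v))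
      linarith [rf_le C L k, rf_le C L (C.q v)]
    have h2 : s * |rdx C z L v| ≤ s * (L * H / 4032) := by
      have h3 : s * |rdx C z L v| ≤ s * (r / 63) := mul_le_mul_of_nonneg_left hd hs.le
      have : 64 ≤ (L : ℝ) * s := by linarith
      have h5 := mul_le_mul_of_nonneg_right this hH0
      linarith
    have h3 : |rdx C z L v| ≤ L * H / 4032 := le_of_mul_le_mul_left h2 hs
    have h4 := mul_le_mul h1 h3 (abs_nonneg _) (by norm_num)
    linarith
  rw [e]
  have t1 := abs_sub (L * (C.m k - C.m (C.q v)) * rdx C z L v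
      - rf C L k * (C.x v - z k) + rf C L (C.q v) * (C.x v - z (C.q v)))
      ((rf C L k - rf C L (C.q v)) * rdx C z L v)
  have t2 := abs_add_le (L * (C.m k - C.m (C.q v)) * rdx C z L v
      - rf C L k * (C.x v - z k)) (rf C L (C.q v) * (C.x v - z (C.q v)))
  have t3 := abs_sub (L * (C.m k - C.m (C.q v)) * rdx C z L v)
      (rf C L k * (C.x v - z k))
  have hLH : 0 ≤ (L : ℝ) * H := mul_nonneg hL0 hH0
  linarith

theorem rnd_H_ge (hQ : QOk C F o z r S T θ W U s Z B) (hr : 0 < r) (hW : 0 ≤ W) (hU : 1 ≤ U)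
    (hs : 0 < s) (hL : 64 * (U + W + 1) ≤ L * s) (v : υ) (k : ι) (hq : k ≠ C.q v)
    (hp : k ≠ C.p v) :
    15 / 16 * (L * |C.H v k|) ≤ |(rnd C z L).H v k| := by
  have h1 := rnd_H_close (z := z) hQ hr hW hU hs hL v k hq hp
  have h2 := abs_ge_of_close h1
  rw [abs_mul, Nat.abs_cast] at h2
  linarith

theorem rnd_sg (hC : C.Good) (hQ : QOk C F o z r S T θ W U s Z B) (hr : 0 < r) (hW : 0 ≤ W)
    (hU : 1 ≤ U) (hs : 0 < s) (hL : 64 * (U + W + 1) ≤ L * s) (v : υ) (k : ι) (hq : k ≠ C.q v)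
    (hp : k ≠ C.p v) :
    sg ((rnd C z L).H v k) = sg (C.H v k) := by
  have h1 := rnd_H_close (z := z) hQ hr hW hU hs hL v k hq hp
  have hLs : 64 ≤ (L : ℝ) * s := by linarith
  have hL0 : (0 : ℝ) < L := by
    by_contra h
    have : (L : ℝ) * s ≤ 0 := mul_nonpos_of_nonpos_of_nonneg (not_lt.1 h) hs.le
    linarith
  have h2 : (L : ℝ) * C.H v k ≠ 0 := mul_ne_zero hL0.ne' (hC.off v k hq hp)
  have h3 : sg ((rnd C z L).H v k) = sg ((L : ℝ) * C.H v k) := by
    apply sg_of_close h2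
    rw [abs_mul, Nat.abs_cast]
    have : 0 ≤ (L : ℝ) * |C.H v k| := by positivity
    linarith
  rw [h3, Vale.Agent.P065.sg_mul_pos hL0]

end est

theorem roundStmt2 : RoundStmt2 := by
  intro h D E V r S T θ W U s Z B hRC hh hr hr1 hS hT hW hU hs hB L hL
  obtain ⟨ι, υ, γ, iι, iυ, C, F, o, z, hC, hF, hQ, hwt, hcard⟩ := hRC
  have hLs : 64 ≤ (L : ℝ) * s := by linarith
  have hL0 : (0 : ℝ) < L := by
    by_contra h
    have : (L : ℝ) * s ≤ 0 := mul_nonpos_of_nonpos_of_nonneg (not_lt.1 h) hs.le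
    linarith
  have hL1 : (1 : ℝ) ≤ L := by
    have : 0 < L := by exact_mod_cast hL0
    exact_mod_cast this
  have hLB : (1 : ℝ) ≤ L * B := by nlinarith only [hL1, hB]
  have hLBB : (L : ℝ) * B ≤ L * B ^ 2 := by nlinarith only [hL1, hB, hLB]
  have hBB : B ≤ L * B := by nlinarith only [hL1, hB]
  have hra : ∀ k, |(ra C L k : ℝ)| ≤ 3 / 2 * (L * B) := by
    intro k
    have e : (ra C L k : ℝ) = L * C.m k - rf C L k := by simp [rf]
    rw [e]
    have h1 := abs_sub (L * C.m k) (rf C L k)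
    have h2 : |(L : ℝ) * C.m k| ≤ L * B := by
      rw [abs_mul, Nat.abs_cast]
      exact mul_le_mul_of_nonneg_left (hQ.mb k) hL0.le
    linarith [rf_le C L k]
  have hΔ := fun v => rnd_Δ_bd (z := z) hQ hs hLs v
  have hLΔ : ∀ v, 64 ≤ (L : ℝ) * |C.Δ v| := fun v =>
    hLs.trans (mul_le_mul_of_nonneg_left ((hQ.sσ v).trans (hQ.lo v)) hL0.le)
  have hne : ∀ v, (rnd C z L).Δ v ≠ 0 := by
    intro v
    have h1 := (hΔ v).1
    have h2 := hLΔ v
    exact abs_pos.1 (by linarith)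
  have hxb : ∀ v, |(rnd C z L).x v| ≤ 2 * B := by
    intro v
    have h1 := abs_add_le (C.x v) (rdx C z L v)
    have h2 := rdx_le (z := z) hQ hr hW hU hs hL v
    have h3 := hQ.xb v
    show |C.x v + rdx C z L v| ≤ 2 * B
    linarith
  have htb : ∀ k, |(rnd C z L).t k| ≤ 3 / 2 * (L * B) := by
    intro k
    show |(L : ℝ) * C.t k + rf C L k * z k| ≤ 3 / 2 * (L * B)
    have h1 := abs_add_le ((L : ℝ) * C.t k) (rf C L k * z k)
    have h2 : |(L : ℝ) * C.t k| ≤ L * B := by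
      rw [abs_mul, Nat.abs_cast]
      exact mul_le_mul_of_nonneg_left (hQ.tb k) hL0.le
    have h3 : |rf C L k * z k| ≤ 1 / 2 * B := by
      rw [abs_mul]
      exact mul_le_mul (rf_le C L k) (hQ.zb k) (abs_nonneg _) (by norm_num)
    linarith
  refine ⟨ι, υ, iι, iυ, rnd C z L, ra C L, ?_, fun k => rfl, ?_, ?_, ?_, ?_, ?_, ?_, ?_, ?_, ?_,
    hwt, hcard⟩
  · refine ⟨fun v => rnd_Hq C hC.on_q z L v, fun v => rnd_Hp C hC.on_p z L v (hne v), hne, hC.w_q,
      hC.w_p, hC.bip, hC.inj, ?_, ?_⟩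
    · intro v k hq hp h0
      have h1 := rnd_H_ge (z := z) hQ hr hW hU hs hL v k hq hp
      rw [h0, abs_zero] at h1
      have h2 : 0 < |C.H v k| := abs_pos.2 (hC.off v k hq hp)
      have h3 : 0 < (L : ℝ) * |C.H v k| := mul_pos hL0 h2
      linarith
    · intro v
      rw [← hC.bal v]
      refine Finset.sum_congr rfl fun k _ => ?_
      show (C.w k : ℤ) * sg ((rnd C z L).H v k) = (C.w k : ℤ) * sg (C.H v k)
      by_cases hk1 : k = C.q v
      · rw [hk1, rnd_Hq C hC.on_q z L v, hC.on_q]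
      · by_cases hk2 : k = C.p v
        · rw [hk2, rnd_Hp C hC.on_p z L v (hne v), hC.on_p]
        · rw [rnd_sg hC hQ hr hW hU hs hL v k hk1 hk2]
  · intro k
    have h1 := hra k
    have h2 : (2 * (L : ℝ) * B) ≤ (⌈2 * (L : ℝ) * B⌉₊ : ℝ) := Nat.le_ceil _
    have h3 : |(ra C L k : ℝ)| ≤ (⌈2 * (L : ℝ) * B⌉₊ : ℝ) := by linarith
    have h4 : ((|ra C L k| : ℤ) : ℝ) = |(ra C L k : ℝ)| := by push_cast; rfl
    rw [← h4] at h3
    exact_mod_cast h3
  · intro k
    have := htb k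
    linarith
  · intro v
    have := hxb v
    linarith
  · intro v
    have hq := rnd_Hq C hC.on_q z L v
    have e : (rnd C z L).y v = (ra C L (C.q v) : ℝ) * (rnd C z L).x v + (rnd C z L).t (C.q v) := by
      have : (rnd C z L).H v (C.q v)
        = (ra C L (C.q v) : ℝ) * (rnd C z L).x v + (rnd C z L).t (C.q v) - (rnd C z L).y v := rfl
      linarith
    rw [e]
    have h1 := abs_add_le ((ra C L (C.q v) : ℝ) * (rnd C z L).x v) ((rnd C z L).t (C.q v))
    have h2 : |(ra C L (C.q v) : ℝ) * (rnd C z L).x v| ≤ 3 / 2 * (L * B) * (2 * B) := by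
      rw [abs_mul]
      exact mul_le_mul (hra _) (hxb v) (abs_nonneg _) (by positivity)
    have h3 := htb (C.q v)
    have h4 : 3 / 2 * ((L : ℝ) * B) * (2 * B) = 3 * (L * B ^ 2) := by ring
    rw [h4] at h2
    linarith
  · intro v k hq hp
    have h1 := rnd_H_ge (z := z) hQ hr hW hU hs hL v k hq hp
    have h2 : r * s ≤ |C.H v k| :=
      (mul_le_mul_of_nonneg_left (hQ.sσ v) hr.le).trans (hQ.h2 v k hq hp)
    have h3 : (L : ℝ) * (r * s) ≤ L * |C.H v k| := mul_le_mul_of_nonneg_left h2 hL0.le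
    have h4 : r * 64 ≤ r * (L * s) := mul_le_mul_of_nonneg_left hLs hr.le
    have h5 : r ≤ |(rnd C z L).H v k| := by nlinarith
    rw [one_div, inv_mul_eq_div, le_div_iff₀ hr]
    linarith
  · intro v v' hqq
    have hqq' : C.q v' ≠ C.q v := hqq
    have hpq : C.q v' ≠ C.p v := hC.bip v' v
    show |(rnd C z L).Δ v'| * |(rnd C z L).x v - (rnd C z L).x v'|
      ≤ 8 * (T + S) * |(rnd C z L).H v (C.q v')|
    have h1 := rnd_H_ge (z := z) hQ hr hW hU hs hL v (C.q v') hqq' hpq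
    set H : ℝ := |C.H v (C.q v')| with hH
    have hH0 : 0 ≤ H := abs_nonneg _
    have htol := hQ.tol v v' hqq'
    have h2 := (hΔ v').2
    have ex : (rnd C z L).x v - (rnd C z L).x v'
        = (C.x v - C.x v') + (rdx C z L v - rdx C z L v') := by
      show C.x v + rdx C z L v - (C.x v' + rdx C z L v') = _
      ring
    have h3 : |(rnd C z L).x v - (rnd C z L).x v'|
        ≤ |C.x v - C.x v'| + (|rdx C z L v| + |rdx C z L v'|) := by
      rw [ex]
      have := abs_add_le (C.x v - C.x v') (rdx C z L v - rdx C z L v')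
      have := abs_sub (rdx C z L v) (rdx C z L v')
      linarith
    have hΔ0 : 0 ≤ |C.Δ v'| := abs_nonneg _
    -- displacement of v'
    have h4 : (L : ℝ) * (|C.Δ v'| * |rdx C z L v'|) ≤ L * (H / 63) := by
      have g1 := rdx_mul_le (z := z) hQ hs hLs v'
      have g2 : W * r ≤ L * (H / 64) := by
        have g3 : r * s ≤ H :=
          (mul_le_mul_of_nonneg_left (hQ.sσ v) hr.le).trans (hQ.h2 v (C.q v') hqq' hpq)
        have g4 : s * (W * r) ≤ s * (L * (H / 64)) := by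
          have g5 : W * (r * s) ≤ W * H := mul_le_mul_of_nonneg_left g3 hW
          have g6 : 64 * W ≤ (L : ℝ) * s := by linarith
          have g7 := mul_le_mul_of_nonneg_right g6 hH0
          linarith
        exact le_of_mul_le_mul_left g4 hs
      linarith
    have h4' : |C.Δ v'| * |rdx C z L v'| ≤ H / 63 := le_of_mul_le_mul_left h4 hL0
    have h5 : |C.Δ v'| * |rdx C z L v| ≤ S * H / 63 := by
      have g1 := rdx_le (z := z) hQ hr hW hU hs hL v
      have g2 := hQ.hi v'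
      have g3 := hQ.h3 v (C.q v') hqq' hpq
      have g4 : |C.Δ v'| * |rdx C z L v| ≤ (S * C.σ (C.q v')) * (r / 63) :=
        mul_le_mul g2 g1 (abs_nonneg _) (by have := hQ.σ_nonneg (C.q v'); positivity)
      have g5 : S * (r * C.σ (C.q v')) ≤ S * H := mul_le_mul_of_nonneg_left g3 (by linarith)
      have g6 : (S * C.σ (C.q v')) * (r / 63) = S * (r * C.σ (C.q v')) / 63 := by ring
      rw [g6] at g4
      linarith
    have h6 : |C.Δ v'| * |(rnd C z L).x v - (rnd C z L).x v'| ≤ (T + 1 / 63 + S / 63) * H := by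
      have g1 := mul_le_mul_of_nonneg_left h3 hΔ0
      have g2 : |C.Δ v'| * (|C.x v - C.x v'| + (|rdx C z L v| + |rdx C z L v'|))
        = |C.Δ v'| * |C.x v - C.x v'| + (|C.Δ v'| * |rdx C z L v| + |C.Δ v'| * |rdx C z L v'|) := by
        ring
      rw [g2] at g1
      have g3 : (T + 1 / 63 + S / 63) * H = T * H + H / 63 + S * H / 63 := by ring
      rw [g3]
      linarith
    have h7 : |(rnd C z L).Δ v'| * |(rnd C z L).x v - (rnd C z L).x v'|
        ≤ 65 / 64 * L * ((T + 1 / 63 + S / 63) * H) := by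
      have g1 := mul_le_mul_of_nonneg_right h2 (abs_nonneg ((rnd C z L).x v - (rnd C z L).x v'))
      have g2 : 65 / 64 * (L * |C.Δ v'|) * |(rnd C z L).x v - (rnd C z L).x v'|
        = 65 / 64 * L * (|C.Δ v'| * |(rnd C z L).x v - (rnd C z L).x v'|) := by ring
      rw [g2] at g1
      exact g1.trans (mul_le_mul_of_nonneg_left h6 (by positivity))
    have h8 : 65 / 64 * L * ((T + 1 / 63 + S / 63) * H) ≤ 4 * (T + S) * (L * H) := by
      have hLH : 0 ≤ (L : ℝ) * H := mul_nonneg hL0.le hH0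
      have g1 : 65 / 64 * (T + 1 / 63 + S / 63) ≤ 4 * (T + S) := by linarith
      have g2 := mul_le_mul_of_nonneg_right g1 hLH
      have g3 : 65 / 64 * L * ((T + 1 / 63 + S / 63) * H)
        = 65 / 64 * (T + 1 / 63 + S / 63) * (L * H) := by ring
      rw [g3]
      exact g2
    have h9 : 4 * (T + S) * (L * H) ≤ 8 * (T + S) * |(rnd C z L).H v (C.q v')| := by
      have hTS : 0 ≤ T + S := by linarith
      have hLH : 0 ≤ (L : ℝ) * H := mul_nonneg hL0.le hH0
      have g1 : 1 / 2 * (L * H) ≤ |(rnd C z L).H v (C.q v')| := by linarith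
      have g2 := mul_le_mul_of_nonneg_left g1 hTS
      linarith
    linarith
  · intro v
    have h1 := (hΔ v).1
    have h2 : (L : ℝ) * s ≤ L * |C.Δ v| :=
      mul_le_mul_of_nonneg_left ((hQ.sσ v).trans (hQ.lo v)) hL0.le
    have h3 : 0 < (L : ℝ) * s := mul_pos hL0 hs
    linarith
  · intro v
    have h1 := (hΔ v).2
    have h2 : (L : ℝ) * |C.Δ v| ≤ L * Z := mul_le_mul_of_nonneg_left (hQ.Zb v) hL0.le
    have h3 : 0 ≤ (L : ℝ) * |C.Δ v| := by positivity
    linarith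
  · intro k
    exact (hF.degle k).trans (Nat.add_le_add_right (hF.Dle k) E)

end Vale.Agent.P065.W
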