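import Vale.Agent.P065.W.TolB

/-!
P065, wide fans: tolerance, cells offsets and home distances of the new configuration
(block P3, `tol : TolStmt`).
-/

set_option linter.all false

namespace Vale.Agent.P065.W

open Vale.Agent.P065

namespace Tl

variable {ι υ γ κ ν βQ βP γ' : Type}

section basic

variable {R ρ r S T θ η ε : ℝ}

theorem SεR (P : Par2 R ρ r S T θ η ε) : S * (ε * R) = r / 64 := by
  have := P.εR
  linarith

theorem εR0 (P : Par2 R ρ r S T θ η ε) : 0 < ε * R :=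
  mul_pos P.ε0 (lt_of_lt_of_le one_pos P.R1)

theorem εR' (P : Par2 R ρ r S T θ η ε) : ε * R ≤ r / 64 := by
  have h := SεR P
  have h1 := P.S1
  have h2 := εR0 P
  have h3 : 1 * (ε * R) ≤ S * (ε * R) := mul_le_mul_of_nonneg_right h1 h2.le
  linarith

end basic

variable [Fintype ι] [Fintype υ] [Fintype κ] [Fintype ν] [Fintype βQ] [Fintype βP]
  {C : Cfg ι υ} {F : Cel ι υ γ} {o z : ι → ℝ} {G : Gad κ ν βQ βP}
  {F' : Cel κ ν γ'} {R ρ Γ r S T θ η ε W U s Z B s' Z' : ℝ} {A A' g D E D' E' : ℕ}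

/-- the horizontal displacement inside the gadget region -/
noncomputable def dx (C : Cfg ι υ) (G : Gad κ ν βQ βP) (ε : ℝ) (v : υ × ν) : ℝ :=
  C.e ε v.1 / C.Δ v.1 * G.L.x v.2

theorem Δpos (hq : QOk C F o z r S T θ W U s Z B) (u : υ) : 0 < |C.Δ u| :=
  lt_of_lt_of_le (hq.σ_pos u) (hq.lo u)

theorem sΔ (hq : QOk C F o z r S T θ W U s Z B) (u : υ) : s ≤ |C.Δ u| :=
  le_trans (hq.sσ u) (hq.lo u)

theorem epos (hq : QOk C F o z r S T θ W U s Z B) (P : Par2 R ρ r S T θ η ε) (u : υ) :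
    0 < C.e ε u := mul_pos P.ε0 (hq.σ_pos u)

theorem dx_le (hq : QOk C F o z r S T θ W U s Z B)
    (hG : GOk G F' R ρ Γ θ η s' Z' A A' g D' E') (P : Par2 R ρ r S T θ η ε) (v : υ × ν) :
    |dx C G ε v| ≤ ε * R := by
  have h1 : |C.e ε v.1 / C.Δ v.1| ≤ ε := by
    rw [abs_div, div_le_iff₀ (Δpos hq v.1), abs_of_pos (epos hq P v.1)]
    exact mul_le_mul_of_nonneg_left (hq.lo v.1) P.ε0.le
  exact abs_mul_le_mul h1 (hG.xb v.2)

/-- `|Δ dx| = e |x̂| ≤ e R` -/
theorem Δdx (hq : QOk C F o z r S T θ W U s Z B)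
    (hG : GOk G F' R ρ Γ θ η s' Z' A A' g D' E') (P : Par2 R ρ r S T θ η ε) (v : υ × ν) :
    |C.Δ v.1| * |dx C G ε v| ≤ C.e ε v.1 * R := by
  have h0 := Δpos hq v.1
  have h1 : C.Δ v.1 ≠ 0 := abs_pos.1 h0
  have h2 : C.Δ v.1 * dx C G ε v = C.e ε v.1 * G.L.x v.2 := by
    simp only [dx]; field_simp
  rw [← abs_mul, h2, abs_mul, abs_of_pos (epos hq P v.1)]
  exact mul_le_mul_of_nonneg_left (hG.xb v.2) (epos hq P v.1).le

theorem sdx (hq : QOk C F o z r S T θ W U s Z B)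
    (hG : GOk G F' R ρ Γ θ η s' Z' A A' g D' E') (P : Par2 R ρ r S T θ η ε) (v : υ × ν) :
    s * |dx C G ε v| ≤ C.e ε v.1 * R :=
  le_trans (mul_le_mul_of_nonneg_right (sΔ hq v.1) (abs_nonneg _)) (Δdx hq hG P v)

theorem sdx' (hq : QOk C F o z r S T θ W U s Z B)
    (hG : GOk G F' R ρ Γ θ η s' Z' A A' g D' E') (P : Par2 R ρ r S T θ η ε) (v : υ × ν) (u : υ) :
    s * |dx C G ε v| ≤ r * C.σ (C.q u) / 64 := by
  have h1 := dx_le hq hG P v
  have h2 := εR' P
  have h3 := hq.sσ u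
  have h4 := hq.σ_pos u
  calc s * |dx C G ε v| ≤ C.σ (C.q u) * |dx C G ε v| :=
        mul_le_mul_of_nonneg_right h3 (abs_nonneg _)
    _ ≤ C.σ (C.q u) * (r / 64) := mul_le_mul_of_nonneg_left (le_trans h1 h2) h4.le
    _ = r * C.σ (C.q u) / 64 := by ring

theorem Δdx' (hq : QOk C F o z r S T θ W U s Z B)
    (hG : GOk G F' R ρ Γ θ η s' Z' A A' g D' E') (P : Par2 R ρ r S T θ η ε) (v : υ × ν) (u : υ) :
    |C.Δ u| * |dx C G ε v| ≤ r * C.σ (C.q u) / 64 := by
  have h1 := dx_le hq hG P v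
  have h3 := hq.hi u
  have h4 := hq.σ_pos u
  calc |C.Δ u| * |dx C G ε v| ≤ (S * C.σ (C.q u)) * (ε * R) :=
        mul_le_mul h3 h1 (abs_nonneg _) (mul_nonneg (le_trans zero_le_one P.S1) h4.le)
    _ = C.σ (C.q u) * (S * (ε * R)) := by ring
    _ = r * C.σ (C.q u) / 64 := by rw [SεR P]; ring

omit [Fintype βQ] [Fintype βP] in
theorem Δh_le [Fintype βQ] [Fintype βP] (hG : GOk G F' R ρ Γ θ η s' Z' A A' g D' E') (n : ν) :
    |G.L.Δ n| ≤ 2 * R := by
  have h1 := hG.mb (G.L.p n)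
  have h2 := hG.mb (G.L.q n)
  have h3 := abs_sub (G.L.m (G.L.p n)) (G.L.m (G.L.q n))
  simp only [Cfg.Δ]
  linarith

theorem ηΔh (hG : GOk G F' R ρ Γ θ η s' Z' A A' g D' E') (n : ν) :
    η * |G.L.Δ n| ≤ 1 / 8 := by
  have h1 := hG.ηm (G.L.p n)
  have h2 := hG.ηm (G.L.q n)
  have h3 := abs_sub (G.L.m (G.L.p n)) (G.L.m (G.L.q n))
  have h4 : η * |G.L.Δ n| ≤ η * (|G.L.m (G.L.p n)| + |G.L.m (G.L.q n)|) :=
    mul_le_mul_of_nonneg_left h3 hG.η0.le
  linarith

theorem s'R (hG : GOk G F' R ρ Γ θ η s' Z' A A' g D' E') (n : ν) : s' ≤ 4 * R := by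
  have h1 := hG.lo n
  have h2 := Δh_le hG n
  linarith

/-- estimate for pairs of vertices in different gadget copies -/
theorem tol_far (hq : QOk C F o z r S T θ W U s Z B)
    (hG : GOk G F' R ρ Γ θ η s' Z' A A' g D' E') (P : Par2 R ρ r S T θ η ε)
    (hS : SigOk C F o G r θ η ε ρ Γ R s' A A' g D E) (v v' : υ × ν) (h : v'.1 ≠ v.1) :
    2 * (|(ins2 C F o G θ η ε R s' A A' g D E).Δ v'| *
      |(ins2 C F o G θ η ε R s' A A' g D E).x v - (ins2 C F o G θ η ε R s' A A' g D E).x v'|) ≤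
      |(ins2 C F o G θ η ε R s' A A' g D E).H v
        ((ins2 C F o G θ η ε R s' A A' g D E).q v')| := by
  have hx : (ins2 C F o G θ η ε R s' A A' g D E).x v - (ins2 C F o G θ η ε R s' A A' g D E).x v'
      = (C.x v.1 - C.x v'.1) + dx C G ε v - dx C G ε v' := by
    simp only [ins2, dx]; ring
  have hΔ : |(ins2 C F o G θ η ε R s' A A' g D E).Δ v'| = θ * |C.Δ v'.1| * (η * |G.L.Δ v'.2|) := by
    rw [ins2_Δ, abs_mul, abs_mul, abs_mul, abs_of_pos P.θ0, abs_of_pos P.η0]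
    ring
  rw [hx, hΔ]
  have f1 := hS.fan1 v v'.1 (Sum.inl (G.L.q v'.2)) h
  have f2 := hS.fan2 v v'.1 (Sum.inl (G.L.q v'.2)) h
  change 2 * (θ * |C.Δ v'.1| * (η * |G.L.Δ v'.2|) *
    |(C.x v.1 - C.x v'.1) + dx C G ε v - dx C G ε v'|) ≤
    |(ins2 C F o G θ η ε R s' A A' g D E).H v (Sum.inr (v'.1, Sum.inl (G.L.q v'.2)))|
  set H := |(ins2 C F o G θ η ε R s' A A' g D E).H v (Sum.inr (v'.1, Sum.inl (G.L.q v'.2)))|
    with hH
  have hH0 : 0 ≤ H := abs_nonneg _
  have a1 : |(C.x v.1 - C.x v'.1) + dx C G ε v - dx C G ε v'| ≤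
      |C.x v.1 - C.x v'.1| + |dx C G ε v| + |dx C G ε v'| := by
    have h1 := abs_sub ((C.x v.1 - C.x v'.1) + dx C G ε v) (dx C G ε v')
    have h2 := abs_add_le (C.x v.1 - C.x v'.1) (dx C G ε v)
    linarith
  have a2 := Δdx' hq hG P v v'.1
  have a3 := Δdx' hq hG P v' v'.1
  have θ0 := P.θ0
  have a4 : θ * (|C.Δ v'.1| * (|C.x v.1 - C.x v'.1| + |dx C G ε v| + |dx C G ε v'|)) ≤
      (2 + 1 / 16) * H := by
    have b2 := mul_le_mul_of_nonneg_left a2 θ0.le
    have b3 := mul_le_mul_of_nonneg_left a3 θ0.le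
    have b4 : θ * (|C.Δ v'.1| * (|C.x v.1 - C.x v'.1| + |dx C G ε v| + |dx C G ε v'|))
        = θ * (|C.Δ v'.1| * |C.x v.1 - C.x v'.1|) + θ * (|C.Δ v'.1| * |dx C G ε v|)
          + θ * (|C.Δ v'.1| * |dx C G ε v'|) := by ring
    have b5 : θ * (r * C.σ (C.q v'.1) / 64) = (θ * (r * C.σ (C.q v'.1))) / 64 := by ring
    rw [b5] at b2 b3
    rw [b4]
    linarith
  have a5 := ηΔh hG v'.2
  have a6 : θ * |C.Δ v'.1| * (η * |G.L.Δ v'.2|) *
      |(C.x v.1 - C.x v'.1) + dx C G ε v - dx C G ε v'| ≤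
      (1 / 8) * (θ * (|C.Δ v'.1| * (|C.x v.1 - C.x v'.1| + |dx C G ε v| + |dx C G ε v'|))) := by
    have c1 : θ * |C.Δ v'.1| * (η * |G.L.Δ v'.2|) ≤ θ * |C.Δ v'.1| * (1 / 8) :=
      mul_le_mul_of_nonneg_left a5 (mul_nonneg θ0.le (abs_nonneg _))
    have c2 := mul_le_mul c1 a1 (abs_nonneg _)
      (mul_nonneg (mul_nonneg θ0.le (abs_nonneg _)) (by norm_num))
    refine le_trans c2 (le_of_eq ?_)
    ring
  linarith

/-- pairs of vertices in the same gadget copy: left side -/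
theorem same_l (hq : QOk C F o z r S T θ W U s Z B) (P : Par2 R ρ r S T θ η ε) (u : υ)
    (n n' : ν) :
    |(ins2 C F o G θ η ε R s' A A' g D E).Δ (u, n')| *
      |(ins2 C F o G θ η ε R s' A A' g D E).x (u, n)
        - (ins2 C F o G θ η ε R s' A A' g D E).x (u, n')| =
      θ * η * C.e ε u * (|G.L.Δ n'| * |G.L.x n - G.L.x n'|) := by
  have h0 := Δpos hq u
  have h1 : C.Δ u ≠ 0 := abs_pos.1 h0
  have e0 := epos hq P u
  rw [← abs_mul, ins2_Δ]
  have h2 : θ * η * C.Δ u * G.L.Δ n' * ((ins2 C F o G θ η ε R s' A A' g D E).x (u, n)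
        - (ins2 C F o G θ η ε R s' A A' g D E).x (u, n'))
      = θ * η * C.e ε u * (G.L.Δ n' * (G.L.x n - G.L.x n')) := by
    simp only [ins2]
    field_simp
    ring
  rw [h2, abs_mul, abs_mul (G.L.Δ n'), abs_of_pos (mul_pos (mul_pos P.θ0 P.η0) e0)]

/-- pairs of vertices in the same gadget copy: right side -/
theorem same_r (hC : C.Good) (hq : QOk C F o z r S T θ W U s Z B) (P : Par2 R ρ r S T θ η ε)
    (u : υ) (n : ν) (j : κ) :
    |(ins2 C F o G θ η ε R s' A A' g D E).H (u, n) (Sum.inr (u, Sum.inl j))| =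
      θ * η * C.e ε u * |G.L.H n j| := by
  have e0 := epos hq P u
  have h := ins2_H_gad (F := F) (o := o) (G := G) (θ := θ) (η := η) (ε := ε) (R := R) (s' := s')
    (A := A) (A' := A') (g := g) (D := D) (E := E) hC (u, n) j
  rw [h, abs_mul, abs_of_pos (mul_pos (mul_pos P.θ0 P.η0) e0)]

theorem c0 (hq : QOk C F o z r S T θ W U s Z B) (P : Par2 R ρ r S T θ η ε) (u : υ) :
    0 < θ * η * C.e ε u := mul_pos (mul_pos P.θ0 P.η0) (epos hq P u)

theorem f_tol (hC : C.Good) (hq : QOk C F o z r S T θ W U s Z B)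
    (hG : GOk G F' R ρ Γ θ η s' Z' A A' g D' E') (P : Par2 R ρ r S T θ η ε)
    (hS : SigOk C F o G r θ η ε ρ Γ R s' A A' g D E) (hT : 4 * R ^ 2 * Γ ≤ T) (v v' : υ × ν)
    (h : (ins2 C F o G θ η ε R s' A A' g D E).q v' ≠ (ins2 C F o G θ η ε R s' A A' g D E).q v) :
    |(ins2 C F o G θ η ε R s' A A' g D E).Δ v'| *
      |(ins2 C F o G θ η ε R s' A A' g D E).x v - (ins2 C F o G θ η ε R s' A A' g D E).x v'| ≤
      T * |(ins2 C F o G θ η ε R s' A A' g D E).H v
        ((ins2 C F o G θ η ε R s' A A' g D E).q v')| := by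
  by_cases hu : v'.1 = v.1
  · obtain ⟨u, n⟩ := v
    obtain ⟨u', n'⟩ := v'
    simp only at hu
    subst hu
    have hne : G.L.q n' ≠ G.L.q n := by
      intro h'
      apply h
      simp only [ins2, h']
    change _ ≤ T * |(ins2 C F o G θ η ε R s' A A' g D E).H (u', n)
      (Sum.inr (u', Sum.inl (G.L.q n')))|
    rw [same_l hq P, same_r hC hq P]
    have h1 := hG.off n (G.L.q n') hne (hG.bip n' n)
    have h2 := Δh_le hG n'
    have h3 : |G.L.x n - G.L.x n'| ≤ 2 * R := by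
      have := abs_sub (G.L.x n) (G.L.x n')
      have := hG.xb n
      have := hG.xb n'
      linarith
    have R0 : 0 ≤ R := le_trans zero_le_one hG.R1
    have h4 : |G.L.Δ n'| * |G.L.x n - G.L.x n'| ≤ T * |G.L.H n (G.L.q n')| := by
      calc |G.L.Δ n'| * |G.L.x n - G.L.x n'| ≤ (2 * R) * (2 * R) :=
            mul_le_mul h2 h3 (abs_nonneg _) (by linarith)
        _ = 4 * R ^ 2 * 1 := by ring
        _ ≤ 4 * R ^ 2 * (Γ * |G.L.H n (G.L.q n')|) :=
            mul_le_mul_of_nonneg_left h1 (by positivity)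
        _ = (4 * R ^ 2 * Γ) * |G.L.H n (G.L.q n')| := by ring
        _ ≤ T * |G.L.H n (G.L.q n')| := mul_le_mul_of_nonneg_right hT (abs_nonneg _)
    have h5 := mul_le_mul_of_nonneg_left h4 (c0 hq P u').le
    refine le_trans h5 (le_of_eq ?_)
    ring
  · have h1 := tol_far hq hG P hS v v' hu
    have h2 := P.T1
    have h3 := abs_nonneg ((ins2 C F o G θ η ε R s' A A' g D E).H v
        ((ins2 C F o G θ η ε R s' A A' g D E).q v'))
    have h4 := mul_le_mul_of_nonneg_right h2 h3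
    have h5 : 0 ≤ |(ins2 C F o G θ η ε R s' A A' g D E).Δ v'| *
      |(ins2 C F o G θ η ε R s' A A' g D E).x v - (ins2 C F o G θ η ε R s' A A' g D E).x v'| :=
      mul_nonneg (abs_nonneg _) (abs_nonneg _)
    linarith

theorem f_t1 (hC : C.Good) (hq : QOk C F o z r S T θ W U s Z B)
    (hG : GOk G F' R ρ Γ θ η s' Z' A A' g D' E') (P : Par2 R ρ r S T θ η ε)
    (hS : SigOk C F o G r θ η ε ρ Γ R s' A A' g D E) (v v' : υ × ν)
    (h : (ins2 C F o G θ η ε R s' A A' g D E).q v' ≠ (ins2 C F o G θ η ε R s' A A' g D E).q v)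
    (h' : ¬ (cel2 (ι := ι) (υ := υ) (βQ := βQ) (βP := βP) F').nr
        ((cel2 (ι := ι) (υ := υ) (βQ := βQ) (βP := βP) F').c v)
        ((ins2 C F o G θ η ε R s' A A' g D E).q v') ∨
      (cel2 (ι := ι) (υ := υ) (βQ := βQ) (βP := βP) F').c v' =
        (cel2 (ι := ι) (υ := υ) (βQ := βQ) (βP := βP) F').c v) :
    32 * θ * (|(ins2 C F o G θ η ε R s' A A' g D E).Δ v'| *
      |(ins2 C F o G θ η ε R s' A A' g D E).x v - (ins2 C F o G θ η ε R s' A A' g D E).x v'|) ≤
      |(ins2 C F o G θ η ε R s' A A' g D E).H v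
        ((ins2 C F o G θ η ε R s' A A' g D E).q v')| := by
  by_cases hu : v'.1 = v.1
  · obtain ⟨u, n⟩ := v
    obtain ⟨u', n'⟩ := v'
    simp only at hu
    subst hu
    have hne : G.L.q n' ≠ G.L.q n := by
      intro h'
      apply h
      simp only [ins2, h']
    change _ ≤ |(ins2 C F o G θ η ε R s' A A' g D E).H (u', n)
      (Sum.inr (u', Sum.inl (G.L.q n')))|
    rw [same_l hq P, same_r hC hq P]
    have h'' : ¬ F'.nr (F'.c n) (G.L.q n') ∨ F'.c n' = F'.c n := by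
      rcases h' with h' | h'
      · left
        intro h1
        exact h' ⟨rfl, h1⟩
      · right
        have := congrArg Prod.snd h'
        exact this
    have h1 := hG.g1 n n' hne h''
    have θ0 := P.θ0
    have h4 : 32 * θ * (|G.L.Δ n'| * |G.L.x n - G.L.x n'|) ≤ |G.L.H n (G.L.q n')| := by
      have : 0 ≤ θ * (|G.L.Δ n'| * |G.L.x n - G.L.x n'|) := by positivity
      linarith
    have h5 := mul_le_mul_of_nonneg_left h4 (c0 hq P u').le
    refine le_trans (le_of_eq ?_) h5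
    ring
  · have h1 := tol_far hq hG P hS v v' hu
    have h2 := P.θ1
    have h5 : 0 ≤ |(ins2 C F o G θ η ε R s' A A' g D E).Δ v'| *
      |(ins2 C F o G θ η ε R s' A A' g D E).x v - (ins2 C F o G θ η ε R s' A A' g D E).x v'| :=
      mul_nonneg (abs_nonneg _) (abs_nonneg _)
    have h6 := mul_le_mul_of_nonneg_right h2 h5
    linarith

theorem f_t2 (hC : C.Good) (hq : QOk C F o z r S T θ W U s Z B)
    (hG : GOk G F' R ρ Γ θ η s' Z' A A' g D' E') (P : Par2 R ρ r S T θ η ε) (v v' : υ × ν)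
    (h : (cel2 (ι := ι) (υ := υ) (βQ := βQ) (βP := βP) F').nr
        ((cel2 (ι := ι) (υ := υ) (βQ := βQ) (βP := βP) F').c v)
        ((ins2 C F o G θ η ε R s' A A' g D E).q v'))
    (h' : (cel2 (ι := ι) (υ := υ) (βQ := βQ) (βP := βP) F').c v' ≠
        (cel2 (ι := ι) (υ := υ) (βQ := βQ) (βP := βP) F').c v) :
    32 * |(ins2 C F o G θ η ε R s' A A' g D E).H v
        ((ins2 C F o G θ η ε R s' A A' g D E).q v')| ≤
    θ * (|(ins2 C F o G θ η ε R s' A A' g D E).Δ v'| *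
      |(ins2 C F o G θ η ε R s' A A' g D E).x v
        - (ins2 C F o G θ η ε R s' A A' g D E).x v'|) := by
  obtain ⟨u, n⟩ := v
  obtain ⟨u', n'⟩ := v'
  obtain ⟨hu, hn⟩ := h
  simp only [cel2] at hu hn
  subst hu
  have hc : F'.c n' ≠ F'.c n := by
    intro h1
    apply h'
    simp only [cel2, h1]
  change 32 * |(ins2 C F o G θ η ε R s' A A' g D E).H (u', n)
      (Sum.inr (u', Sum.inl (G.L.q n')))| ≤ _
  rw [same_l hq P, same_r hC hq P]
  have h1 := hG.g2 n n' hn hc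
  have h4 : 32 * |G.L.H n (G.L.q n')| ≤ θ * (|G.L.Δ n'| * |G.L.x n - G.L.x n'|) := by
    have := abs_nonneg (G.L.H n (G.L.q n'))
    linarith
  have h5 := mul_le_mul_of_nonneg_left h4 (c0 hq P u').le
  refine le_trans (le_of_eq ?_) (le_trans h5 (le_of_eq ?_)) <;> ring

theorem f_o1 (hC : C.Good) (hq : QOk C F o z r S T θ W U s Z B)
    (hG : GOk G F' R ρ Γ θ η s' Z' A A' g D' E') (P : Par2 R ρ r S T θ η ε) (v : υ × ν)
    (k : (ι × Pr βQ βP) ⊕ (υ × (κ ⊕ Bool)))
    (h : (cel2 (ι := ι) (υ := υ) (βQ := βQ) (βP := βP) F').nr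
        ((cel2 (ι := ι) (υ := υ) (βQ := βQ) (βP := βP) F').c v) k) :
    4 * |(ins2 C F o G θ η ε R s' A A' g D E).H v k| ≤ o2 C θ η ε k := by
  obtain ⟨u, n⟩ := v
  rcases k with k | ⟨u', j | b⟩
  · exact absurd h (by simp [cel2])
  · obtain ⟨hu, hn⟩ := h
    simp only [cel2] at hu hn
    subst hu
    rw [same_r hC hq P]
    have h1 := hG.gO1 n j hn
    have h2 := c0 hq P u'
    have h3 := mul_le_mul_of_nonneg_left h1 h2.le
    simp only [o2]
    linarith
  · exact absurd h (by simp [cel2])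

theorem f_o2 (hC : C.Good) (hq : QOk C F o z r S T θ W U s Z B)
    (hG : GOk G F' R ρ Γ θ η s' Z' A A' g D' E') (P : Par2 R ρ r S T θ η ε)
    (hS : SigOk C F o G r θ η ε ρ Γ R s' A A' g D E) (v : υ × ν)
    (k : (ι × Pr βQ βP) ⊕ (υ × (κ ⊕ Bool)))
    (h : ¬ (cel2 (ι := ι) (υ := υ) (βQ := βQ) (βP := βP) F').nr
        ((cel2 (ι := ι) (υ := υ) (βQ := βQ) (βP := βP) F').c v) k) :
    4 * o2 C θ η ε k ≤ |(ins2 C F o G θ η ε R s' A A' g D E).H v k| := by
  rcases k with k | ⟨u', j | b⟩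
  · simp only [o2, mul_zero]
    exact abs_nonneg _
  · by_cases hu : u' = v.1
    · obtain ⟨u, n⟩ := v
      simp only at hu
      subst hu
      have hn : ¬ F'.nr (F'.c n) j := fun hn => h ⟨rfl, hn⟩
      rw [same_r hC hq P]
      have h1 := hG.gO2 n j hn
      have h3 := mul_le_mul_of_nonneg_left h1 (c0 hq P u').le
      simp only [o2]
      linarith
    · have h2 := hS.fan2 v u' (Sum.inl j) hu
      simp only [o2]
      refine le_trans ?_ (le_of_mul_le_mul_left (a := 2) (b := θ * (r * C.σ (C.q u')) / 2)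
        (by linarith) (by norm_num))
      have σ0 := hq.σ_pos u'
      have θ0 := P.θ0
      have h3 : C.e ε u' ≤ r * C.σ (C.q u') := by
        simp only [Cfg.e]
        apply mul_le_mul_of_nonneg_right _ σ0.le
        have h4 := εR' P
        have h5 := P.R1
        have h6 : ε * 1 ≤ ε * R := mul_le_mul_of_nonneg_left h5 P.ε0.le
        have := P.r0
        linarith
      have h7 : η * C.e ε u' ≤ 1 / 4 * (r * C.σ (C.q u')) :=
        mul_le_mul P.η1 h3 (epos hq P u').le (by norm_num)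
      have h8 := mul_le_mul_of_nonneg_left h7 θ0.le
      have h9 : 0 ≤ θ * (r * C.σ (C.q u')) :=
        mul_nonneg θ0.le (mul_nonneg P.r0.le σ0.le)
      linarith
  · simp only [o2, mul_zero]
    exact abs_nonneg _

theorem r'_pos (P : Par2 R ρ r S T θ η ε) (hG : GOk G F' R ρ Γ θ η s' Z' A A' g D' E') :
    0 < ρ * r / (256 * S ^ 2 * R ^ 2 * Γ) := by
  have := P.ρ0
  have := P.r0
  have := lt_of_lt_of_le one_pos P.S1
  have := lt_of_lt_of_le one_pos P.R1
  have := lt_of_lt_of_le one_pos hG.Γ1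
  positivity

theorem ε_eq (P : Par2 R ρ r S T θ η ε) : ε = r / (64 * S * R) := by
  have h1 := lt_of_lt_of_le one_pos P.S1
  have h2 := lt_of_lt_of_le one_pos P.R1
  have h3 := P.εR
  rw [eq_div_iff (by positivity)]
  linarith

/-- `2 r' S R ≤ ε / 16` -/
theorem r'_SR (P : Par2 R ρ r S T θ η ε) (hG : GOk G F' R ρ Γ θ η s' Z' A A' g D' E') :
    ρ * r / (256 * S ^ 2 * R ^ 2 * Γ) * (2 * S * R) ≤ ε / 16 := by
  have h1 := lt_of_lt_of_le one_pos P.S1
  have h2 := lt_of_lt_of_le one_pos P.R1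
  have h3 := lt_of_lt_of_le one_pos hG.Γ1
  have r0 := P.r0
  rw [ε_eq P]
  have e1 : ρ * r / (256 * S ^ 2 * R ^ 2 * Γ) * (2 * S * R) = (ρ / Γ) * (r / (128 * S * R)) := by
    field_simp
    ring
  have e2 : r / (64 * S * R) / 16 = (1 / 8) * (r / (128 * S * R)) := by
    field_simp
    norm_num
  rw [e1, e2]
  apply mul_le_mul_of_nonneg_right _ (by positivity)
  rw [div_le_iff₀ h3]
  have := P.ρ1
  have := hG.Γ1
  linarith

theorem f_oq (hq : QOk C F o z r S T θ W U s Z B)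
    (hG : GOk G F' R ρ Γ θ η s' Z' A A' g D' E') (P : Par2 R ρ r S T θ η ε) (v : υ × ν) :
    ρ * r / (256 * S ^ 2 * R ^ 2 * Γ) * (θ * η * |C.Δ v.1| * s' / 2) ≤
      θ * η * C.e ε v.1 / 16 := by
  have h1 := r'_SR P hG
  have h2 := s'R hG v.2
  have h3 := hq.hi v.1
  have h4 := r'_pos P hG
  have σ0 := hq.σ_pos v.1
  have S0 := lt_of_lt_of_le one_pos P.S1
  have R0 := lt_of_lt_of_le one_pos P.R1
  have c : 0 < θ * η := mul_pos P.θ0 P.η0
  have h5 : |C.Δ v.1| * s' ≤ (S * C.σ (C.q v.1)) * (4 * R) :=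
    mul_le_mul h3 h2 hG.s0.le (mul_nonneg S0.le σ0.le)
  calc ρ * r / (256 * S ^ 2 * R ^ 2 * Γ) * (θ * η * |C.Δ v.1| * s' / 2)
      = θ * η * (ρ * r / (256 * S ^ 2 * R ^ 2 * Γ) * ((|C.Δ v.1| * s') / 2)) := by ring
    _ ≤ θ * η * (ρ * r / (256 * S ^ 2 * R ^ 2 * Γ) * (((S * C.σ (C.q v.1)) * (4 * R)) / 2)) := by
        apply mul_le_mul_of_nonneg_left _ c.le
        apply mul_le_mul_of_nonneg_left _ h4.le
        linarith
    _ = θ * η * (ρ * r / (256 * S ^ 2 * R ^ 2 * Γ) * (2 * S * R) * C.σ (C.q v.1)) := by ring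
    _ ≤ θ * η * (ε / 16 * C.σ (C.q v.1)) := by
        apply mul_le_mul_of_nonneg_left _ c.le
        exact mul_le_mul_of_nonneg_right h1 σ0.le
    _ = θ * η * C.e ε v.1 / 16 := by simp only [Cfg.e]; ring

/-- `s_new |dx| ≤ 2 R² θ η e` -/
theorem sn_dx (hq : QOk C F o z r S T θ W U s Z B)
    (hG : GOk G F' R ρ Γ θ η s' Z' A A' g D' E') (P : Par2 R ρ r S T θ η ε) (v : υ × ν) :
    θ * η * s' * s / 2 * |dx C G ε v| ≤ 2 * R ^ 2 * (θ * η * C.e ε v.1) := by
  have h1 := sdx hq hG P v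
  have h2 := s'R hG v.2
  have c : 0 < θ * η := mul_pos P.θ0 P.η0
  have e0 := epos hq P v.1
  have R0 := lt_of_lt_of_le one_pos P.R1
  have h3 : s' * (s * |dx C G ε v|) ≤ (4 * R) * (C.e ε v.1 * R) := by
    by_cases hs : 0 ≤ s * |dx C G ε v|
    · exact mul_le_mul h2 h1 hs (by linarith)
    · have : s' * (s * |dx C G ε v|) ≤ 0 :=
        mul_nonpos_of_nonneg_of_nonpos hG.s0.le (not_le.1 hs).le
      have : 0 ≤ (4 * R) * (C.e ε v.1 * R) := by positivity
      linarith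
  have h4 := mul_le_mul_of_nonneg_left h3 c.le
  have e1 : θ * η * s' * s / 2 * |dx C G ε v| = θ * η * (s' * (s * |dx C G ε v|)) / 2 := by ring
  have e2 : 2 * R ^ 2 * (θ * η * C.e ε v.1) = θ * η * ((4 * R) * (C.e ε v.1 * R)) / 2 := by ring
  rw [e1, e2]
  linarith

theorem U_facts (hG : GOk G F' R ρ Γ θ η s' Z' A A' g D' E') (P : Par2 R ρ r S T θ η ε)
    (hW : 0 ≤ W) (hU : 4 + 64 * R ^ 2 * Γ + 64 * S * R * (W + 1) / ρ ≤ U) :
    4 ≤ U ∧ 64 * R ^ 2 * Γ ≤ U ∧ 64 * S * R * (W + 1) ≤ U * ρ ∧ 64 * R ^ 2 ≤ U := by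
  have S0 := lt_of_lt_of_le one_pos P.S1
  have R0 := lt_of_lt_of_le one_pos P.R1
  have Γ0 := lt_of_lt_of_le one_pos hG.Γ1
  have ρ0 := P.ρ0
  have h1 : 0 ≤ 64 * R ^ 2 * Γ := by positivity
  have h2 : 0 ≤ 64 * S * R * (W + 1) / ρ := by positivity
  have h3 : 64 * R ^ 2 ≤ 64 * R ^ 2 * Γ := by
    have := hG.Γ1
    have h4 : 64 * R ^ 2 * 1 ≤ 64 * R ^ 2 * Γ := mul_le_mul_of_nonneg_left this (by positivity)
    linarith
  refine ⟨by linarith, by linarith, ?_, by linarith⟩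
  rw [← div_le_iff₀ ρ0]
  linarith

/-- `s_new ≤ θ s / 8` -/
theorem sn_le (hs : 0 < s) (hG : GOk G F' R ρ Γ θ η s' Z' A A' g D' E')
    (P : Par2 R ρ r S T θ η ε) : θ * η * s' * s / 2 ≤ θ * s / 8 := by
  have h := hG.ηs
  have h1 : 0 ≤ θ * s := mul_nonneg P.θ0.le hs.le
  have h2 := mul_le_mul_of_nonneg_left h h1
  have e : θ * η * s' * s / 2 = θ * s * (η * s') / 2 := by ring
  rw [e]
  linarith

/-- home distance, parallels of old lines not through the vertex -/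
theorem u1_a (hq : QOk C F o z r S T θ W U s Z B)
    (hG : GOk G F' R ρ Γ θ η s' Z' A A' g D' E') (P : Par2 R ρ r S T θ η ε) (hs : 0 < s)
    (hU4 : 4 ≤ U)
    (hS : SigOk C F o G r θ η ε ρ Γ R s' A A' g D E) (v : υ × ν) (k : ι) (b : Pr βQ βP)
    (h1 : k ≠ C.q v.1) (h2 : k ≠ C.p v.1) :
    θ * η * s' * s / 2 * |(C.x v.1 + dx C G ε v) - z k| ≤
      U * |(ins2 C F o G θ η ε R s' A A' g D E).H v (Sum.inl (k, b))| := by
  have low : |C.H v.1 k| ≤ 2 * |(ins2 C F o G θ η ε R s' A A' g D E).H v (Sum.inl (k, b))| := by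
    have H0 := abs_nonneg (C.H v.1 k)
    by_cases hb : ∀ f, b ≠ Sum.inr (Sum.inr (Sum.inr f))
    · have := abs_ge_of_close (hS.par v k b hb h1 h2)
      linarith
    · push Not at hb
      obtain ⟨f, rfl⟩ := hb
      by_cases hn : F.nr (F.c v.1) k
      · have h3 := abs_ge_of_close (hS.farN v k f hn)
        have h4 : |(bs f : ℝ) * o k| = o k := by
          rw [abs_mul, abs_of_nonneg (hq.o0 k)]
          cases f <;> simp [bs]
        rw [h4] at h3
        have h5 := hq.o1 v.1 k hn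
        linarith
      · have := abs_ge_of_close (hS.farF v k f hn)
        linarith
  set H := |(ins2 C F o G θ η ε R s' A A' g D E).H v (Sum.inl (k, b))| with hH
  have a1 := hq.u1 v.1 k h1 h2
  have a2 := hq.h2 v.1 k h1 h2
  have a3 := sdx' hq hG P v v.1
  have a4 : s * |(C.x v.1 + dx C G ε v) - z k| ≤ U * |C.H v.1 k| + |C.H v.1 k| / 64 := by
    have h3 : |(C.x v.1 + dx C G ε v) - z k| ≤ |C.x v.1 - z k| + |dx C G ε v| := by
      have := abs_add_le (C.x v.1 - z k) (dx C G ε v)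
      have e : (C.x v.1 + dx C G ε v) - z k = (C.x v.1 - z k) + dx C G ε v := by ring
      rw [e]; exact this
    have h4 := mul_le_mul_of_nonneg_left h3 hs.le
    linarith
  have a5 := sn_le hs hG P
  have a6 : θ * η * s' * s / 2 * |(C.x v.1 + dx C G ε v) - z k| ≤
      θ * s / 8 * |(C.x v.1 + dx C G ε v) - z k| :=
    mul_le_mul_of_nonneg_right a5 (abs_nonneg _)
  have a7 : θ * s / 8 * |(C.x v.1 + dx C G ε v) - z k|
      = θ / 8 * (s * |(C.x v.1 + dx C G ε v) - z k|) := by ring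
  have θ0 := P.θ0
  have θ1 := P.θ1
  have X0 : 0 ≤ s * |(C.x v.1 + dx C G ε v) - z k| := mul_nonneg hs.le (abs_nonneg _)
  have a8 : θ / 8 * (s * |(C.x v.1 + dx C G ε v) - z k|) ≤
      1 / 512 * (s * |(C.x v.1 + dx C G ε v) - z k|) :=
    mul_le_mul_of_nonneg_right (by linarith) X0
  have H0 : 0 ≤ |C.H v.1 k| := abs_nonneg _
  have b1 : U * |C.H v.1 k| ≤ U * (2 * H) := mul_le_mul_of_nonneg_left low (by linarith)
  have Hn : 0 ≤ H := abs_nonneg _
  have b2 : 4 * H ≤ U * H := mul_le_mul_of_nonneg_right hU4 Hn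
  linarith

/-- home distance, parallels of the thin or thick line of the vertex -/
theorem u1_b (hq : QOk C F o z r S T θ W U s Z B)
    (hG : GOk G F' R ρ Γ θ η s' Z' A A' g D' E') (P : Par2 R ρ r S T θ η ε) (hs : 0 < s)
    (hW : 0 ≤ W) (hU : 4 + 64 * R ^ 2 * Γ + 64 * S * R * (W + 1) / ρ ≤ U)
    (v : υ × ν) (k : ι) (hw : |C.x v.1 - z k| ≤ W * r) {H : ℝ}
    (hH : θ * C.e ε v.1 * ρ ≤ H) :
    θ * η * s' * s / 2 * |(C.x v.1 + dx C G ε v) - z k| ≤ U * H := by
  obtain ⟨u1, u2, u3, u4⟩ := U_facts hG P hW hU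
  have a3 := dx_le hq hG P v
  have a4 := εR' P
  have r0 := P.r0
  have h3 : |(C.x v.1 + dx C G ε v) - z k| ≤ (W + 1) * r := by
    have := abs_add_le (C.x v.1 - z k) (dx C G ε v)
    have e : (C.x v.1 + dx C G ε v) - z k = (C.x v.1 - z k) + dx C G ε v := by ring
    rw [e]
    linarith
  have a5 := sn_le hs hG P
  have θ0 := P.θ0
  have σ0 := hq.σ_pos v.1
  have hsσ := hq.sσ v.1
  have a6 : θ * η * s' * s / 2 * |(C.x v.1 + dx C G ε v) - z k| ≤
      (θ * s / 8) * ((W + 1) * r) :=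
    mul_le_mul a5 h3 (abs_nonneg _) (by positivity)
  have a7 : (θ * s / 8) * ((W + 1) * r) ≤ θ * C.σ (C.q v.1) * ((W + 1) * r) := by
    apply mul_le_mul_of_nonneg_right _ (by positivity)
    have : θ * s ≤ θ * C.σ (C.q v.1) := mul_le_mul_of_nonneg_left hsσ θ0.le
    have : 0 ≤ θ * C.σ (C.q v.1) := mul_nonneg θ0.le σ0.le
    linarith
  have a8 : θ * C.σ (C.q v.1) * ((W + 1) * r) ≤ U * (θ * C.e ε v.1 * ρ) := by
    have e1 : U * (θ * C.e ε v.1 * ρ) = θ * C.σ (C.q v.1) * (ε * (U * ρ)) := by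
      simp only [Cfg.e]; ring
    rw [e1]
    apply mul_le_mul_of_nonneg_left _ (mul_nonneg θ0.le σ0.le)
    have e2 : (W + 1) * r = ε * (64 * S * R * (W + 1)) := by
      rw [← P.εR]; ring
    rw [e2]
    exact mul_le_mul_of_nonneg_left u3 P.ε0.le
  have a9 : U * (θ * C.e ε v.1 * ρ) ≤ U * H := mul_le_mul_of_nonneg_left hH (by linarith)
  linarith

/-- home distance, far pads of the thin or thick line of the vertex -/
theorem u1_c (hq : QOk C F o z r S T θ W U s Z B)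
    (hG : GOk G F' R ρ Γ θ η s' Z' A A' g D' E') (P : Par2 R ρ r S T θ η ε) (hs : 0 < s)
    (hU4 : 4 ≤ U) (v : υ × ν) (k : ι) (hu : s * |C.x v.1 - z k| ≤ U * o k)
    (ho : r * C.σ (C.q v.1) ≤ o k) {H : ℝ} (hH : o k ≤ 2 * H) :
    θ * η * s' * s / 2 * |(C.x v.1 + dx C G ε v) - z k| ≤ U * H := by
  have a3 := sdx' hq hG P v v.1
  have o0 := hq.o0 k
  have a4 : s * |(C.x v.1 + dx C G ε v) - z k| ≤ U * o k + o k / 64 := by
    have h3 : |(C.x v.1 + dx C G ε v) - z k| ≤ |C.x v.1 - z k| + |dx C G ε v| := by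
      have := abs_add_le (C.x v.1 - z k) (dx C G ε v)
      have e : (C.x v.1 + dx C G ε v) - z k = (C.x v.1 - z k) + dx C G ε v := by ring
      rw [e]; exact this
    have h4 := mul_le_mul_of_nonneg_left h3 hs.le
    linarith
  have a5 := sn_le hs hG P
  have a6 : θ * η * s' * s / 2 * |(C.x v.1 + dx C G ε v) - z k| ≤
      θ * s / 8 * |(C.x v.1 + dx C G ε v) - z k| :=
    mul_le_mul_of_nonneg_right a5 (abs_nonneg _)
  have a7 : θ * s / 8 * |(C.x v.1 + dx C G ε v) - z k|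
      = θ / 8 * (s * |(C.x v.1 + dx C G ε v) - z k|) := by ring
  have θ0 := P.θ0
  have θ1 := P.θ1
  have X0 : 0 ≤ s * |(C.x v.1 + dx C G ε v) - z k| := mul_nonneg hs.le (abs_nonneg _)
  have a8 : θ / 8 * (s * |(C.x v.1 + dx C G ε v) - z k|) ≤
      1 / 512 * (s * |(C.x v.1 + dx C G ε v) - z k|) :=
    mul_le_mul_of_nonneg_right (by linarith) X0
  have b1 : U * o k ≤ U * (2 * H) := mul_le_mul_of_nonneg_left hH (by linarith)
  have b2 : 4 * H ≤ U * H := mul_le_mul_of_nonneg_right hU4 (by linarith)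
  linarith

theorem eρ (hq : QOk C F o z r S T θ W U s Z B) (P : Par2 R ρ r S T θ η ε) (u : υ) :
    θ * C.e ε u * ρ ≤ C.e ε u / 8 := by
  have e0 := epos hq P u
  have h1 : θ * ρ ≤ 1 / 64 * (1 / 8) := mul_le_mul P.θ1 P.ρ1 P.ρ0.le (by norm_num)
  have h2 := mul_le_mul_of_nonneg_right h1 e0.le
  have e : θ * C.e ε u * ρ = θ * ρ * C.e ε u := by ring
  rw [e]
  linarith

theorem eρR (hq : QOk C F o z r S T θ W U s Z B) (P : Par2 R ρ r S T θ η ε) (u : υ) :
    θ * C.e ε u * ρ ≤ C.e ε u * R := by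
  have e0 := epos hq P u
  have h1 := eρ hq P u
  have h2 := mul_le_mul_of_nonneg_left P.R1 e0.le
  linarith

theorem f_u1 (hC : C.Good) (hc : CelOk C F D E) (hq : QOk C F o z r S T θ W U s Z B)
    (hG : GOk G F' R ρ Γ θ η s' Z' A A' g D' E') (P : Par2 R ρ r S T θ η ε)
    (hS : SigOk C F o G r θ η ε ρ Γ R s' A A' g D E) (hs : 0 < s) (hW : 0 ≤ W)
    (hU : 4 + 64 * R ^ 2 * Γ + 64 * S * R * (W + 1) / ρ ≤ U) (v : υ × ν)
    (k : (ι × Pr βQ βP) ⊕ (υ × (κ ⊕ Bool)))
    (h1 : k ≠ (ins2 C F o G θ η ε R s' A A' g D E).q v)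
    (h2 : k ≠ (ins2 C F o G θ η ε R s' A A' g D E).p v) :
    θ * η * s' * s / 2 * |(ins2 C F o G θ η ε R s' A A' g D E).x v - z2 C z k| ≤
      U * |(ins2 C F o G θ η ε R s' A A' g D E).H v k| := by
  obtain ⟨U4, U1, U2, U3⟩ := U_facts hG P hW hU
  rcases k with ⟨k, b⟩ | ⟨u, j⟩
  · change θ * η * s' * s / 2 * |(C.x v.1 + dx C G ε v) - z k| ≤ _
    by_cases hkq : k = C.q v.1
    · subst hkq
      rcases b with b | b | b | b
      · exact u1_b hq hG P hs hW hU v _ (hq.wq v.1) (hS.thinQ v b).2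
      · exact u1_b hq hG P hs hW hU v _ (hq.wq v.1) (le_trans (eρR hq P v.1) (hS.thinP v b))
      · exact u1_b hq hG P hs hW hU v _ (hq.wq v.1) (le_trans (eρR hq P v.1) (hS.thinN v b).2)
      · refine u1_c hq hG P hs U4 v _ (hq.uq v.1) (hq.oq v.1) ?_
        have h3 := abs_ge_of_close (hS.farN v (C.q v.1) b (hc.nq v.1))
        have h4 : |(bs b : ℝ) * o (C.q v.1)| = o (C.q v.1) := by
          rw [abs_mul, abs_of_nonneg (hq.o0 _)]
          cases b <;> simp [bs]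
        rw [h4] at h3
        linarith
    · by_cases hkp : k = C.p v.1
      · subst hkp
        rcases b with b | b | b | b
        · exact u1_b hq hG P hs hW hU v _ (hq.wp v.1) (le_trans (eρR hq P v.1) (hS.thickQ v b))
        · exact u1_b hq hG P hs hW hU v _ (hq.wp v.1) (le_trans (eρ hq P v.1) (hS.thickP v b).2)
        · exact u1_b hq hG P hs hW hU v _ (hq.wp v.1) (le_trans (eρR hq P v.1) (hS.thickN v b).2)
        · refine u1_c hq hG P hs U4 v _ (hq.up v.1) (hq.op v.1) ?_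
          have h3 := abs_ge_of_close (hS.farN v (C.p v.1) b (hc.np v.1))
          have h4 : |(bs b : ℝ) * o (C.p v.1)| = o (C.p v.1) := by
            rw [abs_mul, abs_of_nonneg (hq.o0 _)]
            cases b <;> simp [bs]
          rw [h4] at h3
          linarith
      · exact u1_a hq hG P hs U4 hS v k b hkq hkp
  · by_cases hu : u = v.1
    · subst hu
      change θ * η * s' * s / 2 * |(C.x v.1 + dx C G ε v) - C.x v.1| ≤ _
      have e : (C.x v.1 + dx C G ε v) - C.x v.1 = dx C G ε v := by ring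
      rw [e]
      have e0 := epos hq P v.1
      rcases j with j | b
      · have hj1 : j ≠ G.L.q v.2 := by
          rintro rfl; exact h1 rfl
        have hj2 : j ≠ G.L.p v.2 := by
          rintro rfl; exact h2 rfl
        have h3 := hS.ownG v j hj1 hj2
        have h4 := sn_dx hq hG P v
        have h5 := mul_le_mul_of_nonneg_left h3 (show 0 ≤ 2 * R ^ 2 by positivity)
        have h6 := abs_nonneg ((ins2 C F o G θ η ε R s' A A' g D E).H v
          (Sum.inr (v.1, Sum.inl j)))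
        have h7 := mul_le_mul_of_nonneg_right U1 h6
        have h8 : 0 ≤ 64 * R ^ 2 * Γ * |(ins2 C F o G θ η ε R s' A A' g D E).H v
          (Sum.inr (v.1, Sum.inl j))| := by
          have := lt_of_lt_of_le one_pos hG.Γ1
          positivity
        linarith
      · have h3 := (hS.ownF v b).2
        have h4 := sn_le hs hG P
        have h5 := sdx hq hG P v
        have θ0 := P.θ0
        have h6 : θ * η * s' * s / 2 * |dx C G ε v| ≤ θ * s / 8 * |dx C G ε v| :=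
          mul_le_mul_of_nonneg_right h4 (abs_nonneg _)
        have h7 := mul_le_mul_of_nonneg_left h5 θ0.le
        have h8 := abs_nonneg ((ins2 C F o G θ η ε R s' A A' g D E).H v
          (Sum.inr (v.1, Sum.inr b)))
        have h9 := mul_le_mul_of_nonneg_right U4 h8
        have e1 : θ * s / 8 * |dx C G ε v| = θ * (s * |dx C G ε v|) / 8 := by ring
        have e2 : θ * (C.e ε v.1 * R) = θ * C.e ε v.1 * R := by ring
        linarith
    · change θ * η * s' * s / 2 * |(C.x v.1 + dx C G ε v) - C.x u| ≤ _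
      have f1 := hS.fan1 v u j hu
      have f2 := hS.fan2 v u j hu
      set H := |(ins2 C F o G θ η ε R s' A A' g D E).H v (Sum.inr (u, j))| with hH
      have θ0 := P.θ0
      have a3 := sdx' hq hG P v u
      have h3 : |(C.x v.1 + dx C G ε v) - C.x u| ≤ |C.x v.1 - C.x u| + |dx C G ε v| := by
        have := abs_add_le (C.x v.1 - C.x u) (dx C G ε v)
        have e : (C.x v.1 + dx C G ε v) - C.x u = (C.x v.1 - C.x u) + dx C G ε v := by ring
        rw [e]; exact this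
      have h4 := mul_le_mul_of_nonneg_left h3 hs.le
      have h5 : s * |C.x v.1 - C.x u| ≤ |C.Δ u| * |C.x v.1 - C.x u| :=
        mul_le_mul_of_nonneg_right (sΔ hq u) (abs_nonneg _)
      have h6 : s * |(C.x v.1 + dx C G ε v) - C.x u| ≤
          |C.Δ u| * |C.x v.1 - C.x u| + r * C.σ (C.q u) := by
        have : 0 ≤ r * C.σ (C.q u) := mul_nonneg P.r0.le (hq.σ_pos u).le
        linarith
      have h7 := mul_le_mul_of_nonneg_left h6 θ0.le
      have a5 := sn_le hs hG P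
      have a6 : θ * η * s' * s / 2 * |(C.x v.1 + dx C G ε v) - C.x u| ≤
          θ * s / 8 * |(C.x v.1 + dx C G ε v) - C.x u| :=
        mul_le_mul_of_nonneg_right a5 (abs_nonneg _)
      have e1 : θ * s / 8 * |(C.x v.1 + dx C G ε v) - C.x u|
          = θ * (s * |(C.x v.1 + dx C G ε v) - C.x u|) / 8 := by ring
      have Hn : 0 ≤ H := abs_nonneg _
      have b2 : 4 * H ≤ U * H := mul_le_mul_of_nonneg_right U4 Hn
      have e2 : θ * (|C.Δ u| * |C.x v.1 - C.x u| + r * C.σ (C.q u)) =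
        θ * (|C.Δ u| * |C.x v.1 - C.x u|) + θ * (r * C.σ (C.q u)) := by ring
      linarith

theorem f_w (hq : QOk C F o z r S T θ W U s Z B)
    (hG : GOk G F' R ρ Γ θ η s' Z' A A' g D' E') (P : Par2 R ρ r S T θ η ε)
    (hW : 4 * S * R ^ 2 * Γ / ρ ≤ W) (v : υ × ν) :
    |(C.x v.1 + dx C G ε v) - C.x v.1| ≤ W * (ρ * r / (256 * S ^ 2 * R ^ 2 * Γ)) := by
  have e : (C.x v.1 + dx C G ε v) - C.x v.1 = dx C G ε v := by ring
  rw [e]
  refine le_trans (dx_le hq hG P v) ?_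
  have h1 := lt_of_lt_of_le one_pos P.S1
  have h2 := lt_of_lt_of_le one_pos P.R1
  have h3 := lt_of_lt_of_le one_pos hG.Γ1
  have ρ0 := P.ρ0
  have h4 := mul_le_mul_of_nonneg_right hW (r'_pos P hG).le
  refine le_trans (le_of_eq ?_) h4
  rw [ε_eq P]
  field_simp
  ring

theorem f_u (hq : QOk C F o z r S T θ W U s Z B)
    (hG : GOk G F' R ρ Γ θ η s' Z' A A' g D' E') (P : Par2 R ρ r S T θ η ε)
    (hW : 0 ≤ W) (hU : 4 + 64 * R ^ 2 * Γ + 64 * S * R * (W + 1) / ρ ≤ U) (v : υ × ν) :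
    θ * η * s' * s / 2 * |(C.x v.1 + dx C G ε v) - C.x v.1| ≤
      U * (θ * η * C.e ε v.1 / 16) := by
  obtain ⟨U4, U1, U2, U3⟩ := U_facts hG P hW hU
  have e : (C.x v.1 + dx C G ε v) - C.x v.1 = dx C G ε v := by ring
  rw [e]
  have h4 := sn_dx hq hG P v
  have h5 := mul_le_mul_of_nonneg_right U3 (c0 hq P v.1).le
  have h6 : 0 ≤ 64 * R ^ 2 * (θ * η * C.e ε v.1) := by
    have := c0 hq P v.1
    positivity
  linarith

end Tl

open Tl in
/-- BLOCK P3. -/
theorem tol : TolStmt := by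
  intro ι υ γ κ ν βQ βP γ' _ _ _ _ _ _ C F o z G F' R ρ Γ r S T θ η ε W U s Z B s' Z' A A' g D E
    D' E' hC hc hq hG P hS hA hW hs hB h4 hT hW' hU
  obtain ⟨b1, b2, b3, b4, b5, b6⟩ := tolB hC hc hq hG P hS hA hW hs hB h4 hT hW' hU
  have θ0 := P.θ0
  have η0 := P.η0
  have s0 := hG.s0
  have c : 0 < θ * η := mul_pos θ0 η0
  exact
    { σ_nonneg := by
        rintro (k | ⟨u, j | b⟩)
        · exact le_refl _
        · change 0 ≤ θ * η * |C.Δ u| * s' / 2
          have := abs_nonneg (C.Δ u)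
          positivity
        · exact le_refl _
      σ_pos := by
        intro v
        change 0 < θ * η * |C.Δ v.1| * s' / 2
        have := Δpos hq v.1
        positivity
      σ_eq := fun v => rfl
      lo := by
        intro v
        rw [ins2_Δ, abs_mul, abs_mul, abs_of_pos c]
        change θ * η * |C.Δ v.1| * s' / 2 ≤ _
        have h1 := hG.lo v.2
        have h2 : 0 ≤ θ * η * |C.Δ v.1| := mul_nonneg c.le (abs_nonneg _)
        have h3 := mul_le_mul_of_nonneg_left h1 h2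
        linarith
      hi := by
        intro v
        rw [ins2_Δ, abs_mul, abs_mul, abs_of_pos c]
        change _ ≤ S * (θ * η * |C.Δ v.1| * s' / 2)
        have h1 := hG.hi v.2
        have h2 : 0 ≤ θ * η * |C.Δ v.1| := mul_nonneg c.le (abs_nonneg _)
        have h3 := mul_le_mul_of_nonneg_left h1 h2
        have h5 := mul_le_mul_of_nonneg_left h4 h2
        have e1 : S * (θ * η * |C.Δ v.1| * s' / 2) = θ * η * |C.Δ v.1| * (S * s') / 2 := by ring
        have e2 : θ * η * |C.Δ v.1| * (2 * Z') = θ * η * |C.Δ v.1| * (4 * Z') / 2 := by ring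
        rw [e1]
        linarith
      h1 := hA.h1
      h2 := hA.h2
      h3 := hA.h3
      tol := fun v v' h => f_tol hC hq hG P hS hT v v' h
      t1 := fun v v' h h' => f_t1 hC hq hG P hS v v' h h'
      t2 := fun v v' h h' => f_t2 hC hq hG P v v' h h'
      o0 := by
        rintro (k | ⟨u, j | b⟩)
        · exact le_refl _
        · have := c0 hq P u
          simp only [o2]
          positivity
        · exact le_refl _
      ob := b6
      o1 := fun v k h => f_o1 hC hq hG P v k h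
      oq := fun v => f_oq hq hG P v
      op := fun v => f_oq hq hG P v
      o2 := fun v k h => f_o2 hC hq hG P hS v k h
      sσ := by
        intro v
        change θ * η * s' * s / 2 ≤ θ * η * |C.Δ v.1| * s' / 2
        have h1 := mul_le_mul_of_nonneg_left (sΔ hq v.1) (mul_pos c s0).le
        linarith
      Zb := by
        intro v
        rw [ins2_Δ, abs_mul, abs_mul, abs_of_pos c]
        have h1 := hG.hi v.2
        have h2 := hq.Zb v.1
        have h3 : |C.Δ v.1| * |G.L.Δ v.2| ≤ Z * (2 * Z') :=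
          mul_le_mul h2 h1 (abs_nonneg _) (le_trans (abs_nonneg _) h2)
        have h5 := mul_le_mul_of_nonneg_left h3 c.le
        have e1 : θ * η * |C.Δ v.1| * |G.L.Δ v.2| = θ * η * (|C.Δ v.1| * |G.L.Δ v.2|) := by ring
        have e2 : 2 * θ * η * Z' * Z = θ * η * (Z * (2 * Z')) := by ring
        rw [e1, e2]
        exact h5
      u1 := fun v k h h' => f_u1 hC hc hq hG P hS hs hW hU v k h h'
      wq := fun v => f_w hq hG P hW' v
      wp := fun v => f_w hq hG P hW' v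
      uq := fun v => f_u hq hG P hW hU v
      up := fun v => f_u hq hG P hW hU v
      mb := b1
      tb := b2
      σb := b3
      xb := b4
      zb := b5 }

end Vale.Agent.P065.W
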