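import Mathlib
import Vale.Agent.P065.W.Defs

/-!
P065, wide fans, block T: the trivial configuration.
-/

set_option linter.all false

namespace Vale.Agent.P065.W

open Vale.Agent.P065

/-! ### the trivial configuration -/

/-- cells of the trivial configuration: one cell, everything passes through it -/
def trivF : Cel (Fin 2) (Fin 1) Unit where
  c := fun _ => ()
  nr := fun _ _ => True
  D := fun k => if k = 0 then 1 else 0

theorem triv : TrivStmt2 := by
  intro S T θ W U hS hT hθ hW hU
  have hoff : ∀ (v : Fin 1) (k : Fin 2), k ≠ trivC.q v → k ≠ trivC.p v → False := by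
    intro v k h1 h2
    rcases trivC_cases k with h | h
    · exact h1 h
    · exact h2 h
  have hH : ∀ (v : Fin 1) (k : Fin 2), trivC.H v k = 0 := by
    intro v k; simp [Cfg.H, trivC]
  have hdeg : ∀ k, trivC.deg k ≤ trivF.D k := by
    intro k
    unfold Cfg.deg
    rcases trivC_cases k with h | h
    · subst h
      refine le_trans (Finset.card_le_univ _) ?_
      simp [trivF]
    · subst h
      simp [trivC, trivF]
  refine ⟨Fin 2, Fin 1, Unit, inferInstance, inferInstance, trivC, trivF, fun _ => 1, fun _ => 0,
    ?_, ?_, ?_, ?_, ?_⟩
  · constructor
    · intro v; exact hH v _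
    · intro v; exact hH v _
    · intro v; simp [Cfg.Δ, trivC]
    · intro v; rfl
    · intro v; rfl
    · intro v v'; simp [trivC]
    · intro v v' _ _; exact Subsingleton.elim _ _
    · intro v k h1 h2; exact (hoff v k h1 h2).elim
    · intro v; simp [hH, sg]
  · constructor
    · intro v; trivial
    · intro v; trivial
    · intro v
      simp [hH, sg]
    · intro v k _
      rcases trivC_cases k with h | h
      · subst h; simp [trivC, trivF]
      · subst h; simp [trivC, trivF]
    · intro k
      rcases trivC_cases k with h | h
      · subst h; simp [trivF]
      · subst h; simp [trivF]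
    · intro k
      exact le_trans (hdeg k) (Nat.le_add_right _ _)
  · constructor
    · intro k; simp [trivC]
    · intro v; simp [trivC]
    · intro v; rfl
    · intro v; simp [trivC, Cfg.Δ]
    · intro v; simpa [trivC, Cfg.Δ] using hS
    · intro v k h1 h2; exact (hoff v k h1 h2).elim
    · intro v k h1 h2; exact (hoff v k h1 h2).elim
    · intro v k h1 h2; exact (hoff v k h1 h2).elim
    · intro v v' h; exact (h rfl).elim
    · intro v v' h; exact (h rfl).elim
    · intro v v' _ h; exact (h rfl).elim
    · intro k; exact zero_le_one
    · intro k; exact le_rfl
    · intro v k _; rw [hH]; simp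
    · intro v; simp [trivC]
    · intro v; simp [trivC]
    · intro v k h; exact (h trivial).elim
    · intro v; simp [trivC]
    · intro v; simp [trivC, Cfg.Δ]
    · intro v k h1 h2; exact (hoff v k h1 h2).elim
    · intro v; simpa [trivC] using hW
    · intro v; simpa [trivC] using hW
    · intro v; simpa [trivC] using hU
    · intro v; simpa [trivC] using hU
    · intro k; rcases trivC_cases k with h | h <;> simp [h, trivC]
    · intro k; simp [trivC]
    · intro k; simp [trivC]
    · intro v; simp [trivC]
    · intro k; simp
  · simp [Cfg.wt, trivC]
  · simp

end Vale.Agent.P065.W
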