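import Vale.Agent.P065.W.Top4
import Vale.Agent.P065.W.Ins
import Vale.Agent.P065.W.Est
import Vale.Agent.P065.W.Bal
import Vale.Agent.P065.W.Clear
import Vale.Agent.P065.W.Tol
import Vale.Agent.P065.W.Lat
import Vale.Agent.P065.W.Round
import Vale.Agent.P065.W.Triv
import Vale.Agent.P065.W.MStep
import Vale.Agent.P065.W.Base
import Vale.Agent.P065.W.Final

/-! P065, wide fans: the main theorem with the exponent 4, from the blocks. -/

namespace Vale.Agent.P065.W

open Vale.Agent.P065

/-- The number of halving lines is at least `n^(1 + c/(log log n)^4)`, and the number of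
`k`-edges at least `n k^(c/(log log k)^4)`. -/
theorem main4 :
    (∃ (c : ℝ) (N : ℕ), 0 < c ∧ ∀ n : ℕ, N ≤ n → Even n →
      (n : ℝ) ^ (1 + c / (Real.log (Real.log n)) ^ 4) ≤ gmax n) ∧
    (∃ (c : ℝ) (K : ℕ), 0 < c ∧ ∀ k n : ℕ, K ≤ k → 2 * k ≤ n →
      (n : ℝ) * (k : ℝ) ^ (c / (Real.log (Real.log k)) ^ 4) ≤ emax k n) :=
  top4 (metaStep (product_of sigOk bal clear tol) lattice roundStmt2 triv) base final

end Vale.Agent.P065.W
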