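import Vale.Agent.P065.W.Ins

/-!
P065, wide fans, block P3 (second part): the coordinate bounds of the new configuration.
-/

set_option linter.all false

namespace Vale.Agent.P065.W

open Vale.Agent.P065

/-- BLOCK P3, second part: bounds of all coordinates of the new configuration. -/
theorem tolB {ι υ γ κ ν βQ βP γ' : Type} [Fintype ι] [Fintype υ] [Fintype κ] [Fintype ν]
    [Fintype βQ] [Fintype βP] {C : Cfg ι υ} {F : Cel ι υ γ} {o z : ι → ℝ} {G : Gad κ ν βQ βP}
    {F' : Cel κ ν γ'} {R ρ Γ r S T θ η ε W U s Z B s' Z' : ℝ} {A A' g D E D' E' : ℕ}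
    (hC : C.Good) (hF : CelOk C F D E) (hQ : QOk C F o z r S T θ W U s Z B)
    (hG : GOk G F' R ρ Γ θ η s' Z' A A' g D' E') (P : Par2 R ρ r S T θ η ε)
    (hS : SigOk C F o G r θ η ε ρ Γ R s' A A' g D E)
    (hA : QA (ins2 C F o G θ η ε R s' A A' g D E) (ρ * r / (256 * S ^ 2 * R ^ 2 * Γ)))
    (hW : 0 ≤ W) (hs : 0 < s) (hB : 1 ≤ B)
    (h4 : 4 * Z' ≤ S * s') (hT : 4 * R ^ 2 * Γ ≤ T) (hW' : 4 * S * R ^ 2 * Γ / ρ ≤ W)
    (hU : 4 + 64 * R ^ 2 * Γ + 64 * S * R * (W + 1) / ρ ≤ U) :
    (∀ k, |(ins2 C F o G θ η ε R s' A A' g D E).m k| ≤ 3 * B) ∧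
    (∀ k, |(ins2 C F o G θ η ε R s' A A' g D E).t k| ≤ 3 * B) ∧
    (∀ k, (ins2 C F o G θ η ε R s' A A' g D E).σ k ≤ 3 * B) ∧
    (∀ v, |(ins2 C F o G θ η ε R s' A A' g D E).x v| ≤ 3 * B) ∧
    (∀ k, |z2 (βQ := βQ) (βP := βP) (κ := κ) C z k| ≤ 3 * B) ∧
    (∀ k, o2 (βQ := βQ) (βP := βP) (κ := κ) C θ η ε k ≤ 3 * B) := by
  have hR1 := P.R1
  have hθ0 := P.θ0
  have hθ1 := P.θ1
  have hη0 := P.η0
  have hη1 := P.η1
  have hε0 := P.ε0
  have hB0 : 0 ≤ B := by linarith
  -- `ε R ≤ 1 / 64`
  have hεR : ε * R ≤ 1 / 64 := by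
    have h1 := P.εR
    have h2 := P.S1
    have h3 := P.r1
    have h4 : 0 ≤ ε * R := by positivity
    nlinarith [mul_nonneg (sub_nonneg.2 h2) h4]
  have hε1 : ε ≤ 1 / 64 := by
    nlinarith [mul_nonneg hε0.le (sub_nonneg.2 hR1)]
  -- slope differences
  have hΔ : ∀ u, |C.Δ u| ≤ 2 * B := by
    intro u
    have h1 := abs_le.1 (hQ.mb (C.p u))
    have h2 := abs_le.1 (hQ.mb (C.q u))
    rw [abs_le, Cfg.Δ]
    constructor <;> linarith [h1.1, h1.2, h2.1, h2.2]
  have hσB : ∀ k, ε * R * C.σ k ≤ B / 64 := by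
    intro k
    have h1 := hQ.σb k
    have h2 := hQ.σ_nonneg k
    have h3 : 0 ≤ ε * R := by positivity
    nlinarith [mul_le_mul hεR h1 h2 (by norm_num : (0:ℝ) ≤ 1 / 64)]
  have hsat : ∀ j : κ ⊕ Bool, |satC G η j| ≤ 5 / 4 := hS.satC2
  have hsF : ∀ j : κ ⊕ Bool, |satF G η R j| ≤ 4 * R := by
    intro j
    rcases j with j | b
    · have h1 := hG.ηt j
      simp only [satF, abs_mul, abs_of_pos hη0]
      linarith
    · rcases b with b | b
      · simp only [satF, abs_neg, abs_of_nonneg (by linarith : (0:ℝ) ≤ 4 * R), le_refl]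
      · simp only [satF, abs_of_nonneg (by linarith : (0:ℝ) ≤ 4 * R), le_refl]
  have hm1 : ∀ u (j : κ ⊕ Bool), |θ * C.Δ u * satC G η j| ≤ B := by
    intro u j
    rw [abs_mul, abs_mul, abs_of_pos hθ0]
    have h1 := hΔ u
    have h2 := hsat j
    have h3 : 0 ≤ |C.Δ u| := abs_nonneg _
    have h4 : 0 ≤ |satC G η j| := abs_nonneg _
    calc θ * |C.Δ u| * |satC G η j| ≤ (1 / 64) * (2 * B) * (5 / 4) := by gcongr
      _ ≤ B := by linarith
  refine ⟨?_, ?_, ?_, ?_, ?_, ?_⟩
  · -- slopes
    rintro (⟨k, b⟩ | ⟨u, j⟩)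
    · have h1 := hQ.mb k
      simp only [ins2, Sum.elim_inl]
      linarith
    · simp only [ins2, Sum.elim_inr]
      have h1 := hQ.mb (C.q u)
      have h2 := hm1 u j
      have h3 := abs_add_le (C.m (C.q u)) (θ * C.Δ u * satC G η j)
      linarith
  · -- intercepts
    rintro (⟨k, b⟩ | ⟨u, j⟩)
    · have h1 := hQ.tb k
      simp only [ins2, Sum.elim_inl]
      have h3 := abs_add_le (C.t k) (off2 C o G θ ε R k b)
      have h2 : |off2 C o G θ ε R k b| ≤ B := by
        have hσ := hσB k
        have hσ0 := hQ.σ_nonneg k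
        have hεσ : 0 ≤ ε * C.σ k := by positivity
        have key : ∀ c : ℝ, |c| ≤ 4 * R → |ε * C.σ k * c| ≤ B := by
          intro c hc
          rw [abs_mul, abs_of_nonneg hεσ]
          calc ε * C.σ k * |c| ≤ ε * C.σ k * (4 * R) := by gcongr
            _ = 4 * (ε * R * C.σ k) := by ring
            _ ≤ B := by linarith
        have h4R : |4 * R| ≤ 4 * R := by rw [abs_of_nonneg (by linarith)]
        rcases b with b | b | b | b
        · simp only [off2]
          apply key
          split_ifs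
          · rw [abs_mul, abs_of_pos hθ0]
            have h5 := hG.oQb b
            have h6 : 0 ≤ |G.oQ b| := abs_nonneg _
            calc θ * |G.oQ b| ≤ (1 / 64) * R := by gcongr
              _ ≤ 4 * R := by linarith
          · exact h4R
        · simp only [off2]
          apply key
          split_ifs
          · rw [abs_mul, abs_of_nonneg (by linarith : 0 ≤ 1 - θ)]
            have h5 := hG.oPb b
            have h6 : 0 ≤ |G.oP b| := abs_nonneg _
            calc (1 - θ) * |G.oP b| ≤ 1 * R := by gcongr; linarith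
              _ ≤ 4 * R := by linarith
          · exact h4R
        · simp only [off2]
          apply key
          rcases b with b | b <;> simp [bs, abs_of_nonneg (by linarith : (0:ℝ) ≤ R)]
        · have h5 := hQ.ob k
          have h6 := hQ.o0 k
          rcases b with b | b <;> simpa [off2, bs, abs_of_nonneg h6] using h5
      linarith
    · simp only [ins2, Sum.elim_inr]
      have hx := hC.Δx u
      have hq := hC.on_q u
      simp only [Cfg.H] at hq
      have e1 : C.y u + θ * C.e ε u * satF G η R j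
          - (C.m (C.q u) + θ * C.Δ u * satC G η j) * C.x u
          = C.t (C.q u) + θ * C.e ε u * satF G η R j
            - θ * satC G η j * (C.t (C.q u) - C.t (C.p u)) := by
        linear_combination -hq - θ * satC G η j * hx
      rw [e1]
      have ht1 := hQ.tb (C.q u)
      have ht2 := hQ.tb (C.p u)
      have ht3 : |C.t (C.q u) - C.t (C.p u)| ≤ 2 * B := by
        have a1 := abs_le.1 ht1
        have a2 := abs_le.1 ht2
        rw [abs_le]
        constructor <;> linarith [a1.1, a1.2, a2.1, a2.2]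
      have b1 : |θ * satC G η j * (C.t (C.q u) - C.t (C.p u))| ≤ B := by
        rw [abs_mul, abs_mul, abs_of_pos hθ0]
        have h2 := hsat j
        have h3 : 0 ≤ |C.t (C.q u) - C.t (C.p u)| := abs_nonneg _
        have h4 : 0 ≤ |satC G η j| := abs_nonneg _
        calc θ * |satC G η j| * |C.t (C.q u) - C.t (C.p u)| ≤ (1 / 64) * (5 / 4) * (2 * B) := by
              gcongr
          _ ≤ B := by linarith
      have b2 : |θ * C.e ε u * satF G η R j| ≤ B := by
        have he : 0 ≤ C.e ε u := (hS.e0 u).le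
        rw [abs_mul, abs_mul, abs_of_pos hθ0, abs_of_nonneg he]
        have h2 := hsF j
        have h3 := hσB (C.q u)
        have h4 : C.e ε u * (4 * R) = 4 * (ε * R * C.σ (C.q u)) := by simp only [Cfg.e]; ring
        calc θ * C.e ε u * |satF G η R j| ≤ 1 * C.e ε u * (4 * R) := by gcongr; linarith
          _ = 4 * (ε * R * C.σ (C.q u)) := by rw [one_mul, h4]
          _ ≤ B := by linarith
      have c1 := abs_sub (C.t (C.q u) + θ * C.e ε u * satF G η R j)
        (θ * satC G η j * (C.t (C.q u) - C.t (C.p u)))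
      have c2 := abs_add_le (C.t (C.q u)) (θ * C.e ε u * satF G η R j)
      linarith
  · -- slope units
    rintro (⟨k, b⟩ | ⟨u, j⟩)
    · simp only [ins2, Sum.elim_inl]
      linarith
    · rcases j with j | j
      · simp only [ins2, Sum.elim_inr, Sum.elim_inl]
        have h1 := hG.ηs
        have h2 := hG.s0
        have h3 := hΔ u
        have h4 : 0 ≤ |C.Δ u| := abs_nonneg _
        have h5 : 0 ≤ η * s' := by positivity
        calc θ * η * |C.Δ u| * s' / 2 = θ * |C.Δ u| * (η * s') / 2 := by ring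
          _ ≤ (1 / 64) * (2 * B) * (1 / 4) / 2 := by gcongr
          _ ≤ 3 * B := by linarith
      · simp only [ins2, Sum.elim_inr]
        linarith
  · -- abscissas
    intro v
    simp only [ins2]
    have h1 := hQ.xb v.1
    have h2 : |C.e ε v.1 / C.Δ v.1 * G.L.x v.2| ≤ B := by
      have hσ := hQ.σ_pos v.1
      have hl := hQ.lo v.1
      have hΔ0 : 0 < |C.Δ v.1| := lt_of_lt_of_le hσ hl
      have he : 0 ≤ C.e ε v.1 := (hS.e0 v.1).le
      have hx := hG.xb v.2
      rw [abs_mul, abs_div, abs_of_nonneg he]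
      have h3 : C.e ε v.1 / |C.Δ v.1| ≤ ε := by
        rw [div_le_iff₀ hΔ0]
        simp only [Cfg.e]
        gcongr
      calc C.e ε v.1 / |C.Δ v.1| * |G.L.x v.2| ≤ ε * R := by gcongr
        _ ≤ B := by linarith
    have h3 := abs_add_le (C.x v.1) (C.e ε v.1 / C.Δ v.1 * G.L.x v.2)
    linarith
  · -- home abscissas
    rintro (⟨k, b⟩ | ⟨u, j⟩)
    · have h1 := hQ.zb k
      simp only [z2, Sum.elim_inl]
      linarith
    · have h1 := hQ.xb u
      simp only [z2, Sum.elim_inr]
      linarith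
  · -- pad offsets
    rintro (⟨k, b⟩ | ⟨u, j⟩)
    · simp only [o2]
      linarith
    · rcases j with j | j
      · simp only [o2]
        have h3 := hσB (C.q u)
        have h4 := hQ.σb (C.q u)
        have h5 := hQ.σ_nonneg (C.q u)
        have h6 : C.e ε u ≤ B := by
          simp only [Cfg.e]
          calc ε * C.σ (C.q u) ≤ 1 * B := by gcongr; linarith
            _ = B := one_mul _
        have he : 0 ≤ C.e ε u := (hS.e0 u).le
        calc θ * η * C.e ε u / 16 ≤ 1 * 1 * B / 16 := by gcongr <;> linarith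
          _ ≤ 3 * B := by linarith
      · simp only [o2]
        linarith

end Vale.Agent.P065.W
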