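import Vale.Agent.P065.W.Defs

/-!
P065, wide fans: from the recursion to the bounds for `h(n)` and `e_k(n)`.
-/

set_option linter.all false

namespace Vale.Agent.P065.W

open Vale.Agent.P065 Filter

/-- `L / (log L)^e` beats every constant -/
theorem ev_log_pow (e : ℕ) (A : ℝ) : ∀ᶠ L : ℝ in atTop, A * (Real.log L) ^ e ≤ L := by
  have h := (Real.isLittleO_pow_log_id_atTop (n := e)).def (c := 1 / (|A| + 1)) (by positivity)
  filter_upwards [h, eventually_ge_atTop (1 : ℝ)] with L h1 h2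
  have h3 : 0 ≤ Real.log L := Real.log_nonneg h2
  rw [Real.norm_of_nonneg (pow_nonneg h3 e)] at h1
  have h0 : ‖(id L : ℝ)‖ = L := by
    rw [id, Real.norm_eq_abs, abs_of_pos (by linarith)]
  rw [h0] at h1
  have h4 : 0 < |A| + 1 := by positivity
  rw [div_mul_eq_mul_div, one_mul, le_div_iff₀ h4] at h1
  have h5 : A * Real.log L ^ e ≤ (|A| + 1) * Real.log L ^ e := by
    apply mul_le_mul_of_nonneg_right _ (pow_nonneg h3 e)
    linarith [le_abs_self A]
  linarith

theorem gmax_of {e : ℕ} {C : ℝ} (hC : 0 < C) {t0 : ℝ}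
    (h : ∀ t : ℝ, t0 ≤ t → ∃ n a g q p d x : ℝ, LC2 n a g q p d x ∧ 0 ≤ n ∧ 0 ≤ a ∧ 0 ≤ g ∧
      0 < x ∧ n + a + g + 1 ≤ t ∧ t ≤ C * x * (Real.log t) ^ e) (hF : FinalStmt2) :
    ∃ (c : ℝ) (N : ℕ), 0 < c ∧ ∀ n : ℕ, N ≤ n → Even n →
      (n : ℝ) ^ (1 + c / (Real.log (Real.log n)) ^ e) ≤ gmax n := by
  obtain ⟨f, hf1, hF⟩ := hF
  have hlog2 : 0 < Real.log 2 := Real.log_pos (by norm_num)
  have hlog2' : 0.69 < Real.log 2 := by have := Real.log_two_gt_d9; linarith
  set c : ℝ := 1 / (2 * f * C * 2 ^ e) with hc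
  have hf0 : 0 < f := by linarith
  have hc0 : 0 < c := by rw [hc]; positivity
  have tend : Tendsto (fun n : ℕ => Real.log n) atTop atTop :=
    Real.tendsto_log_atTop.comp tendsto_natCast_atTop_atTop
  have ev : ∀ᶠ L : ℝ in atTop, (Real.log 24 / c) * (Real.log L) ^ e ≤ L ∧ 3 ≤ L ∧
      t0 * (Real.log 2 * f) ≤ L ∧ 2 * (Real.log 2 * f) ≤ L :=
    (ev_log_pow e _).and ((eventually_ge_atTop _).and ((eventually_ge_atTop _).and
      (eventually_ge_atTop _)))
  obtain ⟨N, hN⟩ := eventually_atTop.1 (tend.eventually ev)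
  refine ⟨c, N + 1, hc0, fun n hn he => ?_⟩
  obtain ⟨e1, e2, e3, e4⟩ := hN n (by omega)
  have hn0 : (0 : ℝ) < n := by exact_mod_cast (by omega : 0 < n)
  set L := Real.log n with hL
  have hlf : 0 < Real.log 2 * f := by positivity
  set t := L / (Real.log 2 * f) with ht
  have ht0 : t0 ≤ t := by rw [ht, le_div_iff₀ hlf]; exact e3
  have ht2 : 2 ≤ t := by rw [ht, le_div_iff₀ hlf]; exact e4
  obtain ⟨n', a, g, q, p, d, x, hQ, hn', ha, hg, hx, hs, htx⟩ := h t ht0
  have hlogL : 1 ≤ Real.log L := by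
    rw [Real.le_log_iff_exp_le (by linarith)]
    have := Real.exp_one_lt_d9
    linarith
  have hlogt : 0 < Real.log t := Real.log_pos (by linarith)
  have hpow : (2 : ℝ) ^ (f * (n' + a + g + 1)) ≤ n := by
    calc (2 : ℝ) ^ (f * (n' + a + g + 1)) ≤ (2 : ℝ) ^ (f * t) := by
          apply Real.rpow_le_rpow_of_exponent_le (by norm_num)
          exact mul_le_mul_of_nonneg_left hs hf0.le
      _ = n := by
          rw [Real.rpow_def_of_pos (by norm_num), ht]
          have : Real.log 2 * (f * (L / (Real.log 2 * f))) = L := by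
            field_simp
          rw [this, hL, Real.exp_log hn0]
  obtain ⟨V, hV, hxV⟩ := hF hQ hn' ha hg hx n he hpow
  have hVg : (V : ℝ) ≤ gmax n := by exact_mod_cast le_csSup (bdd_GC n) hV
  refine le_trans (le_trans ?_ hxV) hVg
  -- the logarithm of `t`
  have hlt : Real.log t ≤ 2 * Real.log L := by
    have h1 : Real.log t ≤ Real.log (L * 2) := by
      apply Real.log_le_log (by linarith)
      rw [ht, div_le_iff₀ hlf]
      have : 1 ≤ 2 * (Real.log 2 * f) := by nlinarith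
      nlinarith
    have h2 : Real.log (L * 2) = Real.log L + Real.log 2 :=
      Real.log_mul (by linarith) (by norm_num)
    have h3 : Real.log 2 < 0.7 := by have := Real.log_two_lt_d9; linarith
    linarith
  have hlte : Real.log t ^ e ≤ 2 ^ e * Real.log L ^ e := by
    rw [← mul_pow]
    exact pow_le_pow_left₀ hlogt.le hlt e
  have hLe : 0 < Real.log L ^ e := by positivity
  have hx2 : L / (f * C * (2 ^ e * Real.log L ^ e)) ≤ x * Real.log 2 := by
    rw [div_le_iff₀ (by positivity)]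
    have h1 : L = t * (Real.log 2 * f) := by rw [ht]; field_simp
    have h2 : t ≤ C * x * (2 ^ e * Real.log L ^ e) :=
      htx.trans (mul_le_mul_of_nonneg_left hlte (by positivity))
    calc L = t * (Real.log 2 * f) := h1
      _ ≤ C * x * (2 ^ e * Real.log L ^ e) * (Real.log 2 * f) :=
          mul_le_mul_of_nonneg_right h2 hlf.le
      _ = x * Real.log 2 * (f * C * (2 ^ e * Real.log L ^ e)) := by ring
  have h24 : Real.log 24 ≤ L * (c / Real.log L ^ e) := by
    have : Real.log 24 / c * Real.log L ^ e ≤ L := e1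
    rw [div_mul_eq_mul_div, div_le_iff₀ hc0] at this
    rw [mul_div_assoc', le_div_iff₀ hLe]
    exact this
  have hkey : L * (c / Real.log L ^ e) + Real.log 24 ≤ x * Real.log 2 := by
    have h1 : L / (f * C * (2 ^ e * Real.log L ^ e)) = 2 * (L * (c / Real.log L ^ e)) := by
      rw [hc]
      field_simp
    linarith
  have e24 : (24 : ℝ) = Real.exp (Real.log 24) := (Real.exp_log (by norm_num)).symm
  rw [le_div_iff₀ (by norm_num), Real.rpow_add hn0, Real.rpow_one, Real.rpow_def_of_pos hn0,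
    ← hL, Real.rpow_def_of_pos (by norm_num : (0 : ℝ) < 2)]
  calc (n : ℝ) * Real.exp (L * (c / Real.log L ^ e)) * 24
      = n * Real.exp (L * (c / Real.log L ^ e) + Real.log 24) := by
        rw [Real.exp_add, ← e24]; ring
    _ ≤ n * Real.exp (Real.log 2 * x) := by
        apply mul_le_mul_of_nonneg_left _ hn0.le
        apply Real.exp_le_exp.2
        linarith
    _ = Real.exp (Real.log 2 * x) * n := by ring

/-- transfer to `k`-sets -/
theorem ktransfer2 {e : ℕ} (F : ℕ → ℕ) (E : ℕ → ℕ → ℕ)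
    (hF : ∃ (c : ℝ) (N : ℕ), 0 < c ∧ ∀ n : ℕ, N ≤ n → Even n →
      (n : ℝ) ^ (1 + c / (Real.log (Real.log n)) ^ e) ≤ F n)
    (hE : ∀ k n t : ℕ, 2 * k * t ≤ n → t * F (2 * k) ≤ E k n) :
    ∃ (c : ℝ) (K : ℕ), 0 < c ∧ ∀ k n : ℕ, K ≤ k → 2 * k ≤ n →
      (n : ℝ) * (k : ℝ) ^ (c / (Real.log (Real.log k)) ^ e) ≤ E k n := by
  obtain ⟨c, N, hc, hF⟩ := hF
  have hlog2 : 0 < Real.log 2 := Real.log_pos (by norm_num)
  have hlog2' : Real.log 2 < 0.7 := by have := Real.log_two_lt_d9; linarith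
  set c' : ℝ := c / (2 * 2 ^ e) with hc'
  have hc'0 : 0 < c' := by rw [hc']; positivity
  have tend : Tendsto (fun n : ℕ => Real.log n) atTop atTop :=
    Real.tendsto_log_atTop.comp tendsto_natCast_atTop_atTop
  have ev : ∀ᶠ l : ℝ in atTop, (Real.log 2 / c') * (Real.log l) ^ e ≤ l ∧ 3 ≤ l :=
    (ev_log_pow e _).and (eventually_ge_atTop _)
  obtain ⟨K, hK⟩ := eventually_atTop.1 (tend.eventually ev)
  refine ⟨c', K + N + 1, hc'0, fun k n hk hn => ?_⟩
  obtain ⟨e1, e2⟩ := hK k (by omega)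
  have hk0 : (0 : ℝ) < k := by exact_mod_cast (by omega : 0 < k)
  have hk2 : (0 : ℝ) < ((2 * k : ℕ) : ℝ) := by push_cast; linarith
  set l := Real.log k with hl
  set L := Real.log ((2 * k : ℕ) : ℝ) with hL
  have hLl : L = l + Real.log 2 := by
    rw [hL, hl]; push_cast
    rw [Real.log_mul (by norm_num) hk0.ne']; ring
  have hlogl : 1 ≤ Real.log l := by
    rw [Real.le_log_iff_exp_le (by linarith)]
    have := Real.exp_one_lt_d9
    linarith
  have hlogL0 : Real.log l ≤ Real.log L := Real.log_le_log (by linarith) (by linarith)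
  have hlogL : Real.log L ≤ 2 * Real.log l := by
    have h1 : Real.log L ≤ Real.log (l * 2) := Real.log_le_log (by linarith) (by linarith)
    have h2 : Real.log (l * 2) = Real.log l + Real.log 2 :=
      Real.log_mul (by linarith) (by norm_num)
    linarith
  have hle : 0 < Real.log l ^ e := by positivity
  have hLe : 0 < Real.log L ^ e := by
    have : 0 < Real.log L := by linarith
    positivity
  have hLle : Real.log L ^ e ≤ 2 ^ e * Real.log l ^ e := by
    rw [← mul_pow]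
    exact pow_le_pow_left₀ (by linarith) hlogL e
  have hexp : l * (c' / Real.log l ^ e) + Real.log 2 ≤ L * (c / Real.log L ^ e) := by
    have h1 : 2 * (l * (c' / Real.log l ^ e)) ≤ L * (c / Real.log L ^ e) := by
      have h3 : 2 * (l * (c' / Real.log l ^ e)) = l * (c / (2 ^ e * Real.log l ^ e)) := by
        rw [hc']; field_simp
      rw [h3]
      apply mul_le_mul (by linarith) _ (by positivity) (by linarith)
      exact div_le_div_of_nonneg_left hc.le hLe hLle
    have h2 : Real.log 2 ≤ l * (c' / Real.log l ^ e) := by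
      rw [div_mul_eq_mul_div, div_le_iff₀ hc'0] at e1
      rw [mul_div_assoc', le_div_iff₀ hle]
      exact e1
    linarith
  have hFk := hF (2 * k) (by omega) (even_two_mul k)
  obtain ⟨t, ht⟩ : ∃ t : ℕ, t = n / (2 * k) := ⟨_, rfl⟩
  have hkpos : 0 < 2 * k := by omega
  have ht1 : 2 * k * t ≤ n := by rw [ht]; exact Nat.mul_div_le n (2 * k)
  have ht2 : n < 2 * k * (t + 1) := by
    rw [ht]; exact Nat.lt_mul_div_succ n hkpos
  have ht3 : 1 ≤ t := by
    rw [ht]; exact (Nat.one_le_div_iff hkpos).2 hn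
  have ht4 : (n : ℝ) ≤ 2 * (2 * k) * t := by
    have h1 : n ≤ 2 * (2 * k) * t := by nlinarith only [ht2, ht3]
    exact_mod_cast h1
  have hEk : (t : ℝ) * F (2 * k) ≤ E k n := by exact_mod_cast hE k n t ht1
  have hpow : ((2 * k : ℕ) : ℝ) ^ (1 + c / Real.log L ^ e) =
      (2 * k) * Real.exp (L * (c / Real.log L ^ e)) := by
    rw [Real.rpow_add hk2, Real.rpow_one, Real.rpow_def_of_pos hk2, ← hL]
    push_cast
    ring
  have hpow2 : (k : ℝ) ^ (c' / Real.log l ^ e) = Real.exp (l * (c' / Real.log l ^ e)) := by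
    rw [Real.rpow_def_of_pos hk0, ← hl]
  have hmain : 2 * Real.exp (l * (c' / Real.log l ^ e)) ≤ Real.exp (L * (c / Real.log L ^ e)) := by
    have h1 : (2 : ℝ) = Real.exp (Real.log 2) := (Real.exp_log (by norm_num)).symm
    calc 2 * Real.exp (l * (c' / Real.log l ^ e))
        = Real.exp (l * (c' / Real.log l ^ e) + Real.log 2) := by
          rw [Real.exp_add, ← h1]; ring
      _ ≤ _ := Real.exp_le_exp.2 hexp
  rw [hpow2]
  obtain ⟨a, ha⟩ : ∃ a : ℝ, a = Real.exp (l * (c' / Real.log l ^ e)) := ⟨_, rfl⟩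
  obtain ⟨b, hb⟩ : ∃ b : ℝ, b = Real.exp (L * (c / Real.log L ^ e)) := ⟨_, rfl⟩
  rw [hpow, ← hb] at hFk
  rw [← ha, ← hb] at hmain
  rw [← ha]
  have ha0 : 0 < a := by rw [ha]; exact Real.exp_pos _
  have ht0 : (0 : ℝ) ≤ t := by positivity
  calc (n : ℝ) * a ≤ (2 * (2 * k) * t) * a := mul_le_mul_of_nonneg_right ht4 ha0.le
    _ = t * ((2 * k) * (2 * a)) := by ring
    _ ≤ t * ((2 * k) * b) := by
        apply mul_le_mul_of_nonneg_left _ ht0
        apply mul_le_mul_of_nonneg_left hmain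
        positivity
    _ ≤ t * F (2 * k) := mul_le_mul_of_nonneg_left hFk ht0
    _ ≤ E k n := hEk

/-- the final assembly -/
theorem top (hA : AsymStmt2) (hM : MetaStmt2) (hB : BaseStmt2) (hF : FinalStmt2) :
    (∃ (c : ℝ) (N : ℕ), 0 < c ∧ ∀ n : ℕ, N ≤ n → Even n →
      (n : ℝ) ^ (1 + c / (Real.log (Real.log n)) ^ 7) ≤ gmax n) ∧
    (∃ (c : ℝ) (K : ℕ), 0 < c ∧ ∀ k n : ℕ, K ≤ k → 2 * k ≤ n →
      (n : ℝ) * (k : ℝ) ^ (c / (Real.log (Real.log k)) ^ 7) ≤ emax k n) := by
  obtain ⟨c, hc, hM⟩ := hM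
  have hx0 : 0 < Real.logb 2 (9 / 8) := Real.logb_pos (by norm_num) (by norm_num)
  obtain ⟨C, hC, t0, h⟩ := hA LC2 c (Real.logb 2 (9 / 8)) hc hx0 hB
    (fun h hk hK h1 h2 h3 h4 h5 h6 h7 => hM h hk hK h1 h2 h3 h4 h5 h6 h7)
  have h1 := gmax_of (e := 7) hC h hF
  exact ⟨h1, ktransfer2 gmax emax h1 mul_gmax_le_emax⟩

end Vale.Agent.P065.W
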