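import Vale.Agent.P065.W.Top
import Vale.Agent.P065.W.Asym4

/-!
P065, wide fans: the final assembly with the exponent 4.
-/

set_option linter.all false

namespace Vale.Agent.P065.W

open Vale.Agent.P065 Filter

/-- the final assembly with the exponent 4 -/
theorem top4 (hM : MetaStmt2) (hB : BaseStmt2) (hF : FinalStmt2) :
    (∃ (c : ℝ) (N : ℕ), 0 < c ∧ ∀ n : ℕ, N ≤ n → Even n →
      (n : ℝ) ^ (1 + c / (Real.log (Real.log n)) ^ 4) ≤ gmax n) ∧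
    (∃ (c : ℝ) (K : ℕ), 0 < c ∧ ∀ k n : ℕ, K ≤ k → 2 * k ≤ n →
      (n : ℝ) * (k : ℝ) ^ (c / (Real.log (Real.log k)) ^ 4) ≤ emax k n) := by
  obtain ⟨c, hc, hM⟩ := hM
  have hx0 : 0 < Real.logb 2 (9 / 8) := Real.logb_pos (by norm_num) (by norm_num)
  obtain ⟨C, hC, t0, h⟩ := asym4 LC2 c (Real.logb 2 (9 / 8)) hc hx0 hB
    (fun h hk hK h1 h2 h3 h4 h5 h6 h7 => hM h hk hK h1 h2 h3 h4 h5 h6 h7)
  have h1 := gmax_of (e := 4) hC h hF
  exact ⟨h1, ktransfer2 gmax emax h1 mul_gmax_le_emax⟩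

end Vale.Agent.P065.W
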